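import Vale.Agent.P065c.Cfg

/-!
# The lattice unit built from an arbitrary configuration

A configuration whose slopes lie on a fine grid is copied into a two-parameter family of windows
`(i, j)`; each of its lines is shared by all windows with the same value of `j + β i`.
-/

namespace Vale.Agent.P065c

open Finset Vale.Agent.P065

/-- Data of a unit. -/
structure UData : Type 1 where
  X : Cfg
  hb : X.L → ℕ
  a : ℕ
  b : ℕ
  T : ℕ
  ν : ℝ
  lam : ℝ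
  ρ : ℝ
  ζ : ℝ
  σ : ℝ
  Hh : ℝ

namespace UData

variable (D : UData)

/-- Lattice slope of a line. -/
def bet (l : D.X.L) : ℕ := 2 * D.hb l
/-- Lattice slope of a midline. -/
def bpen (u : D.X.V) : ℕ := D.hb (D.X.la u) + D.hb (D.X.lb u)
/-- Number of classes. -/
def R : ℕ := D.b + D.T * D.a
/-- Windows. -/
abbrev Win : Type := Fin D.a × Fin D.b
/-- Class of a window for lattice slope `β`. -/
def cls (β : ℕ) (w : D.Win) : ℕ := (w.2 : ℕ) + β * (w.1 : ℕ)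

/-- Standing hypotheses. -/
structure Hyp : Prop where
  good : D.X.Good D.ζ D.σ
  grid : ∀ l, D.X.sl l = 1 - 4 * (D.bet l : ℕ) / D.T
  a1 : 1 ≤ D.a
  T1 : 1 ≤ D.T
  bT : D.T * D.a ≤ D.b
  νpos : 0 < D.ν
  lampos : 0 < D.lam
  ρpos : 0 < D.ρ
  hν : 2 * D.ν ≤ D.lam
  hlamb : 32 * (D.lam * D.b) ≤ 1
  hH : ∀ v, (D.T : ℝ) * D.X.hw v ≤ D.Hh
  hH1 : 1 ≤ D.Hh
  hlamH : 8 * (D.lam * D.Hh ^ 2 * D.a) ≤ 1
  hlamσ : 2 * (D.lam * D.Hh) ≤ D.σ
  hρ : 256 * (D.ρ * D.T) ≤ D.lam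
  hκ : 256 * (16 * D.ν * D.b * D.a) ≤ 1

/-- Slope of a lattice line. -/
noncomputable def tau (β : ℕ) : ℝ := -(D.ν * β) / (1 + D.lam * β)
/-- Scale of the copies along the second lattice vector. -/
noncomputable def q : ℝ := D.ρ * D.T / 4
/-- Slope of the balancing lines. -/
noncomputable def κ : ℝ := 16 * D.ν * D.b
/-- Centre. -/
noncomputable def K : ℝ := (D.a : ℝ) / 2 - 1 / 4
/-- Global scale. -/
noncomputable def s₀ : ℝ := 1 / (4 * ((D.a : ℝ) + 1))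
/-- Fine spacing of the bundles. -/
noncomputable def μ : ℝ := D.lam - D.ν

/-- Windows before the class `e`, plus the column count up to `e`, for lattice slope `β`. -/
def F (β e : ℕ) : ℕ :=
  (univ.filter (fun w : D.Win => D.cls β w < e)).card
    + (univ.filter (fun i : Fin D.a => β * (i : ℕ) ≤ e)).card

/-- Total of `f` weighted with the lattice slopes. -/
def sbet (f : D.X.L → ℕ) : ℕ := ∑ l, f l * D.bet l

/-- Slope shift making all further lines lie above the direction of the outer midline. -/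
noncomputable def sh : ℝ := 2 * D.κ
/-- Unshifted abscissa of a marked point. -/
noncomputable def X₀ (p : D.Win × D.X.V) : ℝ :=
  ((p.1.1 : ℕ) : ℝ) - D.K - D.lam * ((p.1.2 : ℕ) : ℝ)
    + (D.ρ * D.X.x p.2 - D.lam * D.q * (D.X.y p.2 - D.X.x p.2))
/-- Unshifted ordinate of a marked point. -/
noncomputable def Y₀ (p : D.Win × D.X.V) : ℝ :=
  D.K + D.ν * ((p.1.2 : ℕ) : ℝ) + D.ν * D.q * (D.X.y p.2 - D.X.x p.2)

/-- The unit. -/
noncomputable abbrev unit : Gad where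
  S := D.Win
  E := (D.X.L × Fin D.R) ⊕ ((D.X.V × Fin D.R) ⊕ (Bool × Fin D.a))
  V := D.Win × D.X.V
  off := fun s => D.s₀ * (((s.1 : ℕ) : ℝ) - D.μ * ((s.2 : ℕ) : ℝ) + D.μ / 2)
  sl := Sum.elim (fun x => D.tau (D.bet x.1) * (1 + D.sh) + D.sh)
    (Sum.elim (fun x => D.tau (D.bpen x.1) * (1 + D.sh) + D.sh)
      (fun x => cond x.1 D.κ (-D.κ) * (1 + D.sh) + D.sh))
  ic := Sum.elim
    (fun x => D.s₀ * (D.K * (1 + D.tau (D.bet x.1))
      + D.ν * (((x.2 : ℕ) : ℝ) + D.q * D.X.ic x.1) / (1 + D.lam * (D.bet x.1 : ℕ))))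
    (Sum.elim
      (fun x => D.s₀ * (D.K * (1 + D.tau (D.bpen x.1))
        + D.ν * (((x.2 : ℕ) : ℝ) + 1 / 2) / (1 + D.lam * (D.bpen x.1 : ℕ))))
      (fun x => D.s₀ * cond x.1 (D.K * (1 + D.κ) - D.κ * (((x.2 : ℕ) : ℝ) + 1 / 2))
        (D.K * (1 - D.κ) + D.κ * (((x.2 : ℕ) : ℝ) + 1 / 2))))
  cS := fun _ => D.X.n
  wS := fun _ => D.X.W + 2 * D.a * D.X.m
  cE := Sum.elim (fun x => D.X.c x.1)
    (Sum.elim (fun _ => 0) (fun x => cond x.1 (D.sbet D.X.c) 0))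
  wE := Sum.elim (fun x => D.X.w x.1)
    (Sum.elim (fun x => 2 * D.a - (D.F (D.bpen x.1) ((x.2 : ℕ) + 1) - D.F (D.bpen x.1) (x.2 : ℕ)))
      (fun x => cond x.1 (D.sbet D.X.w + 2 * D.a * ∑ u, D.bpen u) D.X.m))
  x := fun p => D.s₀ * (D.X₀ p / (1 + D.sh))
  y := fun p => D.s₀ * (D.Y₀ p + D.sh * (D.X₀ p / (1 + D.sh)))
  la := fun p => Sum.inl (D.X.la p.2, ⟨D.cls (D.bet (D.X.la p.2)) p.1 % D.R,
    Nat.mod_lt _ (by
      have := p.1.2.2
      simp only [R]; omega)⟩)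
  lb := fun p => Sum.inl (D.X.lb p.2, ⟨D.cls (D.bet (D.X.lb p.2)) p.1 % D.R,
    Nat.mod_lt _ (by
      have := p.1.2.2
      simp only [R]; omega)⟩)

end UData

end Vale.Agent.P065c
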