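import Vale.Agent.P065c.AmpVals

/-!
# The unit is exact
-/

namespace Vale.Agent.P065c

open Finset Vale.Agent.P065
open scoped Classical

lemma sum_fin_lt (N e : ℕ) (he : e ≤ N) (f : ℕ → ℕ) :
    ∑ c : Fin N, f c * (if (c : ℕ) < e then 1 else 0) = ∑ c ∈ range e, f c := by
  rw [Fin.sum_univ_eq_sum_range (fun c => f c * (if c < e then 1 else 0)) N]
  simp only [mul_ite, mul_one, mul_zero]
  rw [← Finset.sum_filter]
  congr 1
  ext c; simp only [mem_filter, mem_range]; omega

lemma sum_fin_eq (N e p : ℕ) (he : e < N) :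
    ∑ c : Fin N, (if (c : ℕ) < e then 1 else if (c : ℕ) = e then p else 0) = e + p := by
  have h : ∀ c : Fin N, (if (c : ℕ) < e then 1 else if (c : ℕ) = e then p else 0)
      = 1 * (if (c : ℕ) < e then 1 else 0) + (if c = ⟨e, he⟩ then p else 0) := by
    intro c
    rcases Nat.lt_trichotomy (c : ℕ) e with h | h | h
    · simp [h, Fin.ext_iff, h.ne]
    · simp [h, Fin.ext_iff]
    · simp [not_lt.mpr h.le, Fin.ext_iff, h.ne']
  rw [Finset.sum_congr rfl (fun c _ => h c), Finset.sum_add_distrib,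
    sum_fin_lt N e he.le (fun _ => 1)]
  simp

lemma card_lt (N e : ℕ) (he : e ≤ N) :
    ∑ c : Fin N, (if (c : ℕ) < e then 1 else 0) = e := by
  simpa using sum_fin_lt N e he (fun _ => 1)

lemma card_gt (N i : ℕ) (hi : i < N) :
    ∑ c : Fin N, (if i < (c : ℕ) then 1 else 0) = N - 1 - i := by
  have h : ∀ c : Fin N, (if i < (c : ℕ) then 1 else 0) + (if (c : ℕ) < i + 1 then 1 else 0) = 1 := by
    intro c; split_ifs <;> omega
  have := Finset.sum_congr rfl (fun c (_ : c ∈ univ) => h c)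
  rw [Finset.sum_add_distrib, card_lt N (i + 1) (by omega), Finset.sum_const, Finset.card_univ,
    Fintype.card_fin, smul_eq_mul, mul_one] at this
  omega

namespace UData

variable {D : UData}

lemma F_step (β e : ℕ) : D.F β e ≤ D.F β (e + 1) ∧ D.F β (e + 1) ≤ D.F β e + 2 * D.a := by
  unfold F
  constructor
  · gcongr 2 <;> intro x hx <;> simp only [mem_filter, mem_univ, true_and] at hx ⊢ <;> omega
  · have h1 : (univ.filter (fun w : D.Win => D.cls β w < e + 1)).card
        ≤ (univ.filter (fun w : D.Win => D.cls β w < e)).card + D.a := by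
      have hsub : univ.filter (fun w : D.Win => D.cls β w < e + 1)
          ⊆ univ.filter (fun w : D.Win => D.cls β w < e)
            ∪ univ.filter (fun w : D.Win => D.cls β w = e) := by
        intro w hw
        simp only [mem_filter, mem_univ, true_and, mem_union] at hw ⊢
        omega
      refine le_trans (card_le_card hsub) (le_trans (card_union_le _ _) (Nat.add_le_add_left ?_ _))
      calc _ ≤ (univ : Finset (Fin D.a)).card := by
            refine card_le_card_of_injOn (fun w => w.1) (fun _ _ => mem_univ _) ?_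
            intro x hx y hy hxy
            replace hx : D.cls β x = e := (mem_filter.mp (mem_coe.mp hx)).2
            replace hy : D.cls β y = e := (mem_filter.mp (mem_coe.mp hy)).2
            unfold cls at hx hy
            simp only at hxy
            rw [hxy] at hx
            exact Prod.ext hxy (Fin.ext (by omega))
        _ = D.a := by simp
    have h2 : (univ.filter (fun i : Fin D.a => β * (i : ℕ) ≤ e + 1)).card ≤ D.a := by
      refine le_trans (card_filter_le _ _) (by simp)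
    omega

lemma F_sum (β e : ℕ) :
    (∑ c ∈ range e, (2 * D.a - (D.F β (c + 1) - D.F β c))) + D.F β e
      = 2 * D.a * e + D.F β 0 := by
  induction e with
  | zero => simp
  | succ e ih =>
    rw [Finset.sum_range_succ]
    have := D.F_step β e
    rw [Nat.mul_succ]
    omega

lemma rank_eq (β : ℕ) (w : D.Win) :
    (∑ w' : D.Win, if D.cls β w' < D.cls β w ∨ (D.cls β w' = D.cls β w ∧ (w.1 : ℕ) < (w'.1 : ℕ))
        then 1 else 0) + ((w.1 : ℕ) + 1) = D.F β (D.cls β w) := by
  rw [← Finset.card_filter]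
  set e := D.cls β w with he
  have hunion : univ.filter (fun w' : D.Win => D.cls β w' < e ∨
      (D.cls β w' = e ∧ (w.1 : ℕ) < (w'.1 : ℕ)))
      = univ.filter (fun w' : D.Win => D.cls β w' < e)
        ∪ univ.filter (fun w' : D.Win => D.cls β w' = e ∧ (w.1 : ℕ) < (w'.1 : ℕ)) := by
    rw [← filter_or]
  rw [hunion, card_union_of_disjoint (by
    rw [disjoint_filter]; intro x _ h1 h2; omega)]
  have hb : (univ.filter (fun w' : D.Win => D.cls β w' = e ∧ (w.1 : ℕ) < (w'.1 : ℕ))).card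
      = (univ.filter (fun i : Fin D.a => (w.1 : ℕ) < (i : ℕ) ∧ β * (i : ℕ) ≤ e)).card := by
    refine card_bij (fun w' _ => w'.1) ?_ ?_ ?_
    · intro x hx
      obtain ⟨hx1, hx2⟩ := (mem_filter.mp hx).2
      unfold cls at hx1
      exact mem_filter.mpr ⟨mem_univ _, hx2, by omega⟩
    · intro x hx y hy hxy
      replace hx : D.cls β x = e := ((mem_filter.mp hx).2).1
      replace hy : D.cls β y = e := ((mem_filter.mp hy).2).1
      unfold cls at hx hy
      rw [hxy] at hx
      exact Prod.ext hxy (Fin.ext (by omega))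
    · intro i hi
      simp only [mem_filter, mem_univ, true_and] at hi
      have hle : β * (w.1 : ℕ) ≤ β * (i : ℕ) := Nat.mul_le_mul_left _ hi.1.le
      have hlt : e - β * (i : ℕ) < D.b := by
        have := w.2.2
        simp only [he, cls] at hi ⊢
        omega
      refine ⟨(i, ⟨e - β * (i : ℕ), hlt⟩), ?_, rfl⟩
      refine mem_filter.mpr ⟨mem_univ _, ?_, hi.1⟩
      show e - β * (i : ℕ) + β * (i : ℕ) = e
      omega
  have hc : (univ.filter (fun i : Fin D.a => β * (i : ℕ) ≤ e)).card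
      = (univ.filter (fun i : Fin D.a => (w.1 : ℕ) < (i : ℕ) ∧ β * (i : ℕ) ≤ e)).card
        + ((w.1 : ℕ) + 1) := by
    have hs : univ.filter (fun i : Fin D.a => β * (i : ℕ) ≤ e)
        = univ.filter (fun i : Fin D.a => (w.1 : ℕ) < (i : ℕ) ∧ β * (i : ℕ) ≤ e)
          ∪ univ.filter (fun i : Fin D.a => (i : ℕ) < (w.1 : ℕ) + 1) := by
      ext i
      simp only [mem_filter, mem_univ, true_and, mem_union]
      constructor
      · intro h; by_cases hh : (w.1 : ℕ) < (i : ℕ)
        · exact Or.inl ⟨hh, h⟩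
        · exact Or.inr (by omega)
      · rintro (⟨-, h⟩ | h)
        · exact h
        · have : β * (i : ℕ) ≤ β * (w.1 : ℕ) := Nat.mul_le_mul_left _ (by omega)
          simp only [he, cls]; omega
    rw [hs, card_union_of_disjoint (by rw [disjoint_filter]; intro x _ h1 h2; omega)]
    congr 1
    rw [Finset.card_filter, card_lt D.a _ (by have := w.1.2; omega)]
  unfold F
  omega

lemma sum_unit (g : D.unit.toCfg.L → ℕ) :
    ∑ l, g l = (∑ s, g (Sum.inl s)) + (∑ s, g (Sum.inr (Sum.inl s)))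
      + (∑ l : D.X.L, ∑ c, g (Sum.inr (Sum.inr (Sum.inl (l, c)))))
      + (∑ u : D.X.V, ∑ c, g (Sum.inr (Sum.inr (Sum.inr (Sum.inl (u, c))))))
      + ((∑ k, g (Sum.inr (Sum.inr (Sum.inr (Sum.inr (true, k))))))
        + ∑ k, g (Sum.inr (Sum.inr (Sum.inr (Sum.inr (false, k)))))) := by
  have key : ∀ g : D.Win ⊕ (D.Win ⊕ ((D.X.L × Fin D.R) ⊕ ((D.X.V × Fin D.R) ⊕
      (Bool × Fin D.a)))) → ℕ,
      ∑ l, g l = (∑ s, g (Sum.inl s)) + (∑ s, g (Sum.inr (Sum.inl s)))
      + (∑ l : D.X.L, ∑ c, g (Sum.inr (Sum.inr (Sum.inl (l, c)))))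
      + (∑ u : D.X.V, ∑ c, g (Sum.inr (Sum.inr (Sum.inr (Sum.inl (u, c))))))
      + ((∑ k, g (Sum.inr (Sum.inr (Sum.inr (Sum.inr (true, k))))))
        + ∑ k, g (Sum.inr (Sum.inr (Sum.inr (Sum.inr (false, k)))))) := by
    intro g
    simp only [Fintype.sum_sum_type, Fintype.sum_prod_type, Fintype.sum_bool]
    ring
  exact key g

variable (H : D.Hyp)
include H

lemma sum_P (w : D.Win) (v : D.X.V) :
    (∑ s : D.Win, pos01 (D.unit.toCfg.val (Sum.inl s) (w, v)))
      + (∑ s : D.Win, pos01 (D.unit.toCfg.val (Sum.inr (Sum.inl s)) (w, v))) + (w.2 : ℕ)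
      = D.a * D.b + D.b - 1 := by
  have hP : ∑ s : D.Win, pos01 (D.unit.toCfg.val (Sum.inl s) (w, v))
      = (w.1 : ℕ) * D.b + (D.b - 1 - (w.2 : ℕ)) := by
    rw [Finset.sum_congr rfl (fun s _ => (sign_P H s w v).1), Fintype.sum_prod_type]
    have : ∀ i : Fin D.a, (∑ j : Fin D.b, if (i : ℕ) < (w.1 : ℕ) then 1
        else if (i : ℕ) = (w.1 : ℕ) then (if (w.2 : ℕ) < (j : ℕ) then 1 else 0) else 0)
        = D.b * (if (i : ℕ) < (w.1 : ℕ) then 1 else 0)
          + (if i = w.1 then D.b - 1 - (w.2 : ℕ) else 0) := by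
      intro i
      rcases Nat.lt_trichotomy (i : ℕ) (w.1 : ℕ) with h | h | h
      · simp [h, Fin.ext_iff, h.ne]
      · rw [if_pos (Fin.ext h), ← card_gt D.b _ w.2.2]
        simp [h]
      · simp [not_lt.mpr h.le, Fin.ext_iff, h.ne']
    rw [Finset.sum_congr rfl (fun i _ => this i), Finset.sum_add_distrib, ← Finset.mul_sum,
      card_lt D.a _ w.1.2.le]
    simp [mul_comm]
  have hQ : ∑ s : D.Win, pos01 (D.unit.toCfg.val (Sum.inr (Sum.inl s)) (w, v))
      = (D.a - (w.1 : ℕ)) * D.b := by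
    rw [Finset.sum_congr rfl (fun s _ => (sign_Q H s w v).1), Fintype.sum_prod_type]
    have : ∀ i : Fin D.a, (∑ _j : Fin D.b, if (i : ℕ) < D.a - (w.1 : ℕ) then 1 else 0)
        = D.b * (if (i : ℕ) < D.a - (w.1 : ℕ) then 1 else 0) := fun i => by
      rw [Finset.sum_const, Finset.card_univ, Fintype.card_fin, smul_eq_mul]
    rw [Finset.sum_congr rfl (fun i _ => this i), ← Finset.mul_sum,
      card_lt D.a _ (Nat.sub_le _ _), mul_comm]
  rw [hP, hQ]
  have h1 := w.1.2; have h2 := w.2.2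
  have e : (w.1 : ℕ) * D.b + (D.a - (w.1 : ℕ)) * D.b = D.a * D.b := by
    rw [← Nat.add_mul, Nat.add_sub_cancel' h1.le]
  omega

lemma sum_tmpl (f : D.X.L → ℕ) (w : D.Win) (v : D.X.V) :
    ∑ l : D.X.L, f l * ∑ c : Fin D.R,
        pos01 (D.unit.toCfg.val (Sum.inr (Sum.inr (Sum.inl (l, c)))) (w, v))
      = (∑ l, f l) * (w.2 : ℕ) + D.sbet f * (w.1 : ℕ) + ∑ l, f l * pos01 (D.X.val l v) := by
  unfold sbet
  rw [Finset.sum_mul, Finset.sum_mul, ← Finset.sum_add_distrib, ← Finset.sum_add_distrib]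
  refine Finset.sum_congr rfl fun l _ => ?_
  rw [Finset.sum_congr rfl (fun c _ => sign_tmpl H l c w v),
    sum_fin_eq _ _ _ (cls_lt H _ (bet_le H l) w), cls]
  ring

lemma sum_down (w : D.Win) (v : D.X.V) :
    (∑ k, pos01 (D.unit.toCfg.val (Sum.inr (Sum.inr (Sum.inr (Sum.inr (true, k))))) (w, v)))
      + (w.1 : ℕ) = D.a := by
  rw [Finset.sum_congr rfl (fun k _ => (sign_R H true k w v).1)]
  have h : ∀ k : Fin D.a, (if (cond true ((w.1 : ℕ) ≤ (k : ℕ)) ((k : ℕ) < (w.1 : ℕ)) : Prop)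
      then 1 else 0) + (if (k : ℕ) < (w.1 : ℕ) then 1 else 0) = 1 := by
    intro k; simp only [cond]; split_ifs <;> omega
  have := Finset.sum_congr rfl (fun k (_ : k ∈ univ) => h k)
  rw [Finset.sum_add_distrib, card_lt D.a _ w.1.2.le] at this
  simpa using this

lemma sum_up (w : D.Win) (v : D.X.V) :
    ∑ k, pos01 (D.unit.toCfg.val (Sum.inr (Sum.inr (Sum.inr (Sum.inr (false, k))))) (w, v))
      = (w.1 : ℕ) := by
  rw [Finset.sum_congr rfl (fun k _ => (sign_R H false k w v).1)]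
  refine Eq.trans (Finset.sum_congr rfl fun k _ => ?_) (card_lt D.a _ w.1.2.le)
  simp only [cond]
  congr

lemma cnt_unit (w : D.Win) (v : D.X.V) :
    D.unit.toCfg.cnt (w, v)
      = D.X.n * (D.a * D.b + D.b - 1) + D.sbet D.X.c * D.a + D.X.cnt v := by
  have hP := sum_P H w v
  have hd := sum_down H w v
  unfold Cfg.cnt
  rw [sum_unit]
  simp only [Sum.elim_inl, Sum.elim_inr, cond, zero_mul, Finset.sum_const_zero, add_zero,
    ← Finset.mul_sum]
  rw [sum_tmpl H]
  simp only [Cfg.n]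
  linear_combination (∑ l, D.X.c l) * hP + (D.sbet D.X.c) * hd

lemma psi_unit (w : D.Win) (v : D.X.V) :
    D.unit.toCfg.psi (w, v) + D.X.m
      = (D.X.W + 2 * D.a * D.X.m) * (D.a * D.b + D.b - 1)
        + (D.sbet D.X.w + 2 * D.a * ∑ u, D.bpen u) * D.a
        + (∑ u, D.F (D.bpen u) 0) + D.X.psi v := by
  have hP := sum_P H w v
  have hd := sum_down H w v
  have hu := sum_up H w v
  unfold Cfg.psi
  rw [sum_unit]
  simp only [Sum.elim_inl, Sum.elim_inr, cond, ← Finset.mul_sum]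
  rw [sum_tmpl H, hu]
  have hpen : ∀ u : D.X.V,
      (∑ c : Fin D.R, (2 * D.a - (D.F (D.bpen u) ((c : ℕ) + 1) - D.F (D.bpen u) (c : ℕ))) *
          pos01 (D.unit.toCfg.val (Sum.inr (Sum.inr (Sum.inr (Sum.inl (u, c))))) (w, v)))
        + ∑ w' : D.Win, pos01 (D.unit.toCfg.pval (w', u) (w, v)) + ((w.1 : ℕ) + 1)
      = 2 * D.a * (w.2 : ℕ) + 2 * D.a * D.bpen u * (w.1 : ℕ) + D.F (D.bpen u) 0
        + pos01 (D.X.pval u v) := by
    intro u
    rw [Finset.sum_congr rfl (fun c _ => by rw [(sign_pencil H u c w v).1]),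
      sum_fin_lt _ _ (cls_lt H _ (bpen_le H u) w).le
        (fun c => 2 * D.a - (D.F (D.bpen u) (c + 1) - D.F (D.bpen u) c))]
    have hr := D.rank_eq (D.bpen u) w
    have hw' : ∀ w' : D.Win, pos01 (D.unit.toCfg.pval (w', u) (w, v))
        = (if D.cls (D.bpen u) w' < D.cls (D.bpen u) w ∨ (D.cls (D.bpen u) w' = D.cls (D.bpen u) w
            ∧ (w.1 : ℕ) < (w'.1 : ℕ)) then 1 else 0)
          + (if w' = w then pos01 (D.X.pval u v) else 0) := by
      intro w'
      by_cases h : w' = w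
      · subst h
        rw [pval_same H, if_pos rfl, if_neg (by omega), zero_add]
      · rw [(sign_pval H u v w' w h).1, if_neg h, add_zero]
    rw [Finset.sum_congr rfl (fun w' _ => hw' w'), Finset.sum_add_distrib,
      Finset.sum_ite_eq' univ w, if_pos (mem_univ w)]
    have hs := D.F_sum (D.bpen u) (D.cls (D.bpen u) w)
    have e : 2 * D.a * D.cls (D.bpen u) w
        = 2 * D.a * (w.2 : ℕ) + 2 * D.a * D.bpen u * (w.1 : ℕ) := by rw [cls]; ring
    omega
  have hsum := Finset.sum_congr rfl (fun u (_ : u ∈ univ) => hpen u)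
  simp only [Finset.sum_add_distrib, Finset.sum_const, Finset.card_univ, smul_eq_mul,
    ← Finset.mul_sum, ← Finset.sum_mul] at hsum
  have hswap : ∑ x : D.Win × D.X.V, pos01 (D.unit.toCfg.pval x (w, v))
      = ∑ u : D.X.V, ∑ w' : D.Win, pos01 (D.unit.toCfg.pval (w', u) (w, v)) := by
    rw [Fintype.sum_prod_type, Finset.sum_comm]
  change (∑ x : D.Win × D.X.V, pos01 (D.unit.toCfg.pval x (w, v))) + _ + D.X.m = _
  rw [hswap]
  simp only [Cfg.W, Cfg.m] at hsum ⊢
  linear_combination hsum + ((∑ l, D.X.w l) + 2 * D.a * Fintype.card D.X.V) * hP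
    + (D.sbet D.X.w + 2 * D.a * ∑ u, D.bpen u) * hd

end UData

end Vale.Agent.P065c
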