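import Vale.Agent.P065c.AmpCount

/-!
# Margins and sizes of a unit
-/

namespace Vale.Agent.P065c

open Finset Vale.Agent.P065
open scoped Classical

namespace UData

variable {D : UData}

/-- The absolute margin of a unit. -/
noncomputable def margin (D : UData) : ℝ := D.s₀ * (D.ν * D.q * D.ζ / 16)

variable (H : D.Hyp)
include H

lemma margin_pos : 0 < D.margin := by
  have := q_pos H; have := H.νpos; have := H.good.ζpos; have := s₀_pos H
  unfold margin; positivity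

lemma s₀_le : D.s₀ * (4 * ((D.a : ℝ) + 1)) = 1 ∧ D.s₀ ≤ 1 / 8 := by
  have := a1r H
  refine ⟨?_, ?_⟩
  · unfold s₀; field_simp
  · unfold s₀
    rw [div_le_div_iff₀ (by positivity) (by norm_num)]
    linarith

lemma margin_le : D.margin ≤ D.s₀ * (D.ν * D.lam / 16) ∧ D.margin ≤ D.s₀ * (D.ν / 16) ∧
    D.margin ≤ D.s₀ * (D.lam / 16) := by
  have h0 := s₀_pos H
  have hν := H.νpos
  have h1 : D.ν * D.q * D.ζ ≤ D.ν * D.lam := by
    rw [mul_assoc]
    refine mul_le_mul_of_nonneg_left ?_ hν.le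
    have := mul_le_mul (q_le H) H.good.ζle H.good.ζpos.le (by linarith [H.lampos])
    linarith [H.lampos]
  have h2 : D.ν * D.lam ≤ D.ν := mul_le_of_le_one_right hν.le (by linarith [lam_le H])
  have h3 : D.ν * D.lam ≤ D.lam := mul_le_of_le_one_left H.lampos.le (by linarith [ν_le H])
  unfold margin
  refine ⟨?_, ?_, ?_⟩ <;> refine mul_le_mul_of_nonneg_left ?_ h0.le <;> linarith

lemma line_margin (p : D.Win × D.X.V) (l : D.unit.toCfg.L)
    (h1 : l ≠ D.unit.toCfg.la p) (h2 : l ≠ D.unit.toCfg.lb p) :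
    D.margin ≤ |D.unit.toCfg.val l p| := by
  obtain ⟨w, v⟩ := p
  obtain ⟨m1, m2, m3⟩ := margin_le H
  have h0 := s₀_pos H
  have hl := mul_pos h0 H.lampos
  have hn := mul_pos h0 H.νpos
  rcases l with s | s | ⟨l, c⟩ | ⟨u, c⟩ | ⟨d, k⟩
  · linarith [(sign_P H s w v).2]
  · have := (sign_Q H s w v).2
    have := mul_le_mul_of_nonneg_left (lam_le H) h0.le
    linarith
  · refine margin_tmpl H l c w v ?_
    rintro ⟨hc, rfl | rfl⟩
    · exact h1 (by
        show Sum.inr (Sum.inr (Sum.inl (D.X.la v, c))) = Sum.inr (Sum.inr (D.unit.la (w, v)))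
        rw [la_eq H]; simp [Fin.ext_iff, hc])
    · exact h2 (by
        show Sum.inr (Sum.inr (Sum.inl (D.X.lb v, c))) = Sum.inr (Sum.inr (D.unit.lb (w, v)))
        rw [lb_eq H]; simp [Fin.ext_iff, hc])
  · linarith [(sign_pencil H u c w v).2]
  · have := (sign_R H d k w v).2
    have : D.ν ≤ D.κ := by
      unfold κ
      have := mul_le_mul_of_nonneg_left (b1r H) H.νpos.le
      linarith [H.νpos]
    have := mul_le_mul_of_nonneg_left this h0.le
    linarith

lemma pen_margin (p q : D.Win × D.X.V) (h : p ≠ q) :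
    D.margin ≤ |D.unit.toCfg.pval p q| := by
  obtain ⟨w', u⟩ := p
  obtain ⟨w, v⟩ := q
  by_cases hw : w' = w
  · subst hw
    have huv : u ≠ v := fun hh => h (by rw [hh])
    obtain ⟨hc, hc16⟩ := pscale H u
    rw [pval_form H, abs_mul, abs_of_pos hc]
    have h1 := mul_le_mul_of_nonneg_left (H.good.pval_lb u v huv) (q_pos H).le
    have h2 := mul_le_mul hc16 (le_trans (by linarith [mul_pos (q_pos H) H.good.ζpos] :
      D.q * D.ζ ≤ 2 * D.q * |D.X.pval u v|) (form_same H u v w' huv).2.1)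
      (mul_pos (q_pos H) H.good.ζpos).le hc.le
    unfold margin
    linarith
  · have := (sign_pval H u v w' w hw).2
    linarith [(margin_le H).1]

lemma unit_bx (p : D.Win × D.X.V) : |D.unit.x p| ≤ 7 / 8 ∧ |D.unit.y p| ≤ 7 / 8 := by
  obtain ⟨w, v⟩ := p
  have h0 := s₀_pos H
  obtain ⟨hs1, -⟩ := s₀_le H
  obtain ⟨hh1, -⟩ := sh1 H
  have ha := a1r H
  have hX := X₀_le H (w, v)
  have hX' : |D.X₀ (w, v) / (1 + D.sh)| ≤ D.a + 1 := by
    rw [abs_div, abs_of_pos (by linarith : 0 < 1 + D.sh)]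
    exact le_trans (div_le_self (abs_nonneg _) hh1) hX
  have bd : ∀ z : ℝ, |z| ≤ 3 * ((D.a : ℝ) + 1) → |D.s₀ * z| ≤ 7 / 8 := by
    intro z hz
    rw [abs_mul, abs_of_pos h0]
    have := mul_le_mul_of_nonneg_left hz h0.le
    linarith
  refine ⟨bd _ (by linarith), bd _ ?_⟩
  refine le_trans (abs_add_le _ _) ?_
  have hsh : |D.sh * (D.X₀ (w, v) / (1 + D.sh))| ≤ D.a + 1 := by
    rw [abs_mul, abs_of_pos (sh_pos H)]
    exact le_trans (mul_le_of_le_one_left (abs_nonneg _)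
      (by have := κ_le H; unfold sh; linarith)) hX'
  have hY : |D.Y₀ (w, v)| ≤ D.a + 1 := by
    have hw := win_small H w
    have hn : D.ν * ((w.2 : ℕ) : ℝ) ≤ 1 / 32 := by
      have := mul_le_mul (by linarith [H.hν, H.νpos] : D.ν ≤ D.lam)
        (by linarith : ((w.2 : ℕ) : ℝ) ≤ D.b) hw.2 H.lampos.le
      linarith [H.hlamb]
    have hn0 : 0 ≤ D.ν * ((w.2 : ℕ) : ℝ) := mul_nonneg H.νpos.le hw.2
    have h2 : |D.ν * D.q * (D.X.y v - D.X.x v)| ≤ 1 := by
      rw [mul_assoc, abs_mul, abs_of_pos H.νpos]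
      exact mul_le_one₀ (by linarith [ν_le H]) (abs_nonneg _) (by linarith [qd_le H v, lam_le H])
    have h2' := abs_le.mp h2
    unfold Y₀ K
    rw [abs_le]
    constructor <;> linarith [h2'.1, h2'.2]
  linarith

lemma fits : D.unit.Fits (4 * D.κ) := by
  have hκ := κ_pos H
  have hκ8 := κ_le H
  have h0 := s₀_pos H
  obtain ⟨hs1, hs2⟩ := s₀_le H
  have hν := H.νpos
  have hK : 0 ≤ D.K ∧ D.K ≤ D.a := by
    have := a1r H; unfold K; constructor <;> linarith
  have hRb : D.ν * D.R ≤ 1 / 8 := by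
    have : (D.R : ℝ) ≤ 2 * D.b := by
      unfold R; push_cast; linarith [bTr H]
    have := mul_le_mul_of_nonneg_left this hν.le
    have := mul_le_mul_of_nonneg_left (a1r H)
      (mul_nonneg (mul_nonneg (by norm_num : (0 : ℝ) ≤ 16) hν.le)
        (le_trans zero_le_one (b1r H)))
    linarith [H.hκ]
  have bd : ∀ z : ℝ, |z| ≤ 3 * ((D.a : ℝ) + 1) → |D.s₀ * z| ≤ 1 := by
    intro z hz
    rw [abs_mul, abs_of_pos h0]
    have := mul_le_mul_of_nonneg_left hz h0.le
    linarith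
  refine ⟨?_, ?_, ?_⟩
  · have aux : ∀ t : ℝ, |t| ≤ D.κ →
        0 ≤ t * (1 + D.sh) + D.sh ∧ t * (1 + D.sh) + D.sh ≤ 4 * D.κ := by
      intro t ht
      have h1 := abs_le.mp ht
      have := mul_le_mul_of_nonneg_right h1.1 (by linarith [(sh1 H).1] : 0 ≤ 1 + D.sh)
      have := mul_le_mul_of_nonneg_right h1.2 (by linarith [(sh1 H).1] : 0 ≤ 1 + D.sh)
      have := mul_le_mul_of_nonneg_left hκ8 hκ.le
      unfold sh at *
      constructor <;> linarith
    rintro (⟨l, c⟩ | ⟨u, c⟩ | ⟨d, k⟩)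
    · exact aux _ (tau_κ H _ (bet_le H l))
    · exact aux _ (tau_κ H _ (bpen_le H u))
    · exact aux _ (by cases d <;> simp [abs_of_pos hκ])
  · intro s
    refine bd _ ?_
    have h1 : ((s.1 : ℕ) : ℝ) + 1 ≤ D.a := by exact_mod_cast s.1.2
    have h2 : ((s.2 : ℕ) : ℝ) + 1 ≤ D.b := by exact_mod_cast s.2.2
    have hμ := μ_bd H
    have hμ0 := μ_pos H
    have h3 : D.μ * ((s.2 : ℕ) : ℝ) ≤ D.lam * D.b :=
      mul_le_mul hμ.2 (by linarith) (Nat.cast_nonneg _) H.lampos.le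
    have h4 : 0 ≤ D.μ * ((s.2 : ℕ) : ℝ) := mul_nonneg hμ0.le (Nat.cast_nonneg _)
    rw [abs_le]
    constructor <;> linarith [H.hlamb, lam_le H, Nat.cast_nonneg (α := ℝ) (s.1 : ℕ)]
  · have aux : ∀ (β : ℕ) (c : ℝ), β ≤ D.T → |c| ≤ D.R + 1 →
        |D.s₀ * (D.K * (1 + D.tau β) + D.ν * c / (1 + D.lam * (β : ℕ)))| ≤ 2 := by
      intro β c hβ hc
      refine le_trans (bd _ ?_) (by norm_num)
      have ht : |D.K * (1 + D.tau β)| ≤ 2 * D.a := by
        rw [abs_mul, abs_of_nonneg hK.1]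
        have : |1 + D.tau β| ≤ 2 := by
          have := tau_κ H β hβ
          linarith [abs_add_le (1 : ℝ) (D.tau β), abs_one (α := ℝ)]
        calc _ ≤ (D.a : ℝ) * 2 := mul_le_mul hK.2 this (abs_nonneg _) (Nat.cast_nonneg _)
          _ = _ := by ring
      have hc' : |D.ν * c / (1 + D.lam * (β : ℕ))| ≤ 1 := by
        have hd := den H β
        rw [abs_div, abs_mul, abs_of_pos hν, abs_of_pos (by linarith : 0 < 1 + D.lam * (β : ℕ)),
          div_le_one (by linarith)]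
        have := mul_le_mul_of_nonneg_left hc hν.le
        linarith [ν_le H]
      linarith [abs_add_le (D.K * (1 + D.tau β)) (D.ν * c / (1 + D.lam * (β : ℕ)))]
    rintro (⟨l, c⟩ | ⟨u, c⟩ | ⟨d, k⟩)
    · refine aux _ _ (bet_le H l) ?_
      have hc : ((c : ℕ) : ℝ) + 1 ≤ D.R := by exact_mod_cast c.2
      refine le_trans (abs_add_le _ _) ?_
      rw [abs_of_nonneg (Nat.cast_nonneg (α := ℝ) (c : ℕ)), abs_mul, abs_of_pos (q_pos H)]
      have := mul_le_mul (q_le H) (H.good.bic l) (abs_nonneg _) (by linarith [H.lampos])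
      linarith [lam_le H]
    · refine aux (D.bpen u) (((c : ℕ) : ℝ) + 1 / 2) (bpen_le H u) ?_
      have hc : ((c : ℕ) : ℝ) + 1 ≤ D.R := by exact_mod_cast c.2
      rw [abs_of_nonneg (by positivity)]
      linarith
    · refine le_trans (bd _ ?_) (by norm_num)
      have hk : ((k : ℕ) : ℝ) + 1 ≤ D.a := by exact_mod_cast k.2
      have e1 := mul_le_mul_of_nonneg_left hκ8 hK.1
      have e2 := mul_nonneg hK.1 hκ.le
      have e3 : D.κ * (((k : ℕ) : ℝ) + 1 / 2) ≤ 1 / 8 * D.a :=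
        mul_le_mul (by linarith) (by linarith) (by positivity) (by norm_num)
      have e4 : 0 ≤ D.κ * (((k : ℕ) : ℝ) + 1 / 2) := by positivity
      cases d <;> simp only [cond] <;> rw [abs_le] <;> constructor <;>
        linarith [hK.1, hK.2, a1r H]

/-- Half width of a marked point of the unit. -/
lemma hw_unit (p : D.Win × D.X.V) :
    D.unit.toCfg.hw p = (1 + D.sh) * D.ν * (D.T * D.X.hw p.2) / (4 * D.qd p.2) := by
  obtain ⟨w, u⟩ := p
  have d1 := den H (D.bet (D.X.la u))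
  have d2 := den H (D.bet (D.X.lb u))
  have hT := T0r H
  have e : (D.T : ℝ) * D.X.hw u = 2 * ((D.bet (D.X.la u) : ℝ) - D.bet (D.X.lb u)) := by
    simp only [Cfg.hw, H.grid]; field_simp; ring
  show ((D.tau (D.bet (D.X.lb u)) * (1 + D.sh) + D.sh)
    - (D.tau (D.bet (D.X.la u)) * (1 + D.sh) + D.sh)) / 2 = _
  rw [e]
  unfold tau qd
  have n1 : 1 + D.lam * (D.bet (D.X.la u) : ℕ) ≠ 0 := (by linarith : (0 : ℝ) < _).ne'
  have n2 : 1 + D.lam * (D.bet (D.X.lb u) : ℕ) ≠ 0 := (by linarith : (0 : ℝ) < _).ne'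
  generalize (D.bet (D.X.la u) : ℝ) = A at n1 ⊢
  generalize (D.bet (D.X.lb u) : ℝ) = B at n2 ⊢
  rw [div_mul_eq_mul_div, div_mul_eq_mul_div, eq_div_iff (mul_ne_zero (by norm_num) (mul_ne_zero n1 n2))]
  have x1 : D.ν * A / (1 + D.lam * A) * (1 + D.lam * A) = D.ν * A := div_mul_cancel₀ _ n1
  have x2 : D.ν * B / (1 + D.lam * B) * (1 + D.lam * B) = D.ν * B := div_mul_cancel₀ _ n2
  linear_combination (-(2 * (1 + D.sh) * (1 + D.lam * A))) * x2
    + (2 * (1 + D.sh) * (1 + D.lam * B)) * x1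

lemma hw_bd (p : D.Win × D.X.V) : D.ν / 4 ≤ D.unit.toCfg.hw p ∧
    D.ν * (D.T * D.X.hw p.2) / 16 ≤ D.unit.toCfg.hw p ∧
    D.unit.toCfg.hw p ≤ D.ν * (D.T * D.X.hw p.2) / 2 := by
  obtain ⟨h1, h4⟩ := qd_bd H p.2
  obtain ⟨s1, s2⟩ := sh1 H
  obtain ⟨g1, g2, -⟩ := gap H p.2
  have hν := H.νpos
  have hP : 4 ≤ (D.T : ℝ) * D.X.hw p.2 := by linarith
  rw [hw_unit H]
  set A := D.ν * ((D.T : ℝ) * D.X.hw p.2) with hA
  have hA0 : 0 ≤ A := by rw [hA]; exact mul_nonneg hν.le (by linarith)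
  have lo : A / 16 ≤ (1 + D.sh) * D.ν * (D.T * D.X.hw p.2) / (4 * D.qd p.2) := by
    rw [mul_assoc, ← hA]
    exact div_le_div₀ (by positivity) (le_mul_of_one_le_left hA0 s1) (by linarith) (by linarith)
  refine ⟨le_trans ?_ lo, lo, ?_⟩
  · rw [hA]; have := mul_le_mul_of_nonneg_left hP hν.le; linarith
  · rw [mul_assoc, ← hA, div_le_iff₀ (by linarith)]
    have := mul_le_mul_of_nonneg_right s2 hA0
    have := mul_le_mul_of_nonneg_left h1 hA0
    linarith

lemma dX₀_le (u v : D.X.V) (w' w : D.Win) : |D.dX₀ u v w' w| ≤ 4 * D.a := by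
  unfold dX₀
  linarith [abs_sub (D.X₀ (w, v)) (D.X₀ (w', u)), X₀_le H (w, v), X₀_le H (w', u), a1r H]

/-- One-sided separation of two marked points of the unit. -/
lemma sep_unit {σU : ℝ} (hσ0 : 0 < σU) (h1 : 8 * σU ≤ D.σ) (h2 : 8 * (σU * D.Hh * D.a) ≤ 1)
    (p q : D.Win × D.X.V) (h : p ≠ q) :
    σU * D.unit.toCfg.hw p * |D.unit.toCfg.x q - D.unit.toCfg.x p| ≤ |D.unit.toCfg.pval p q|
    ∨ D.unit.toCfg.pval p q * (D.unit.toCfg.x q - D.unit.toCfg.x p) ≤ 0 := by
  obtain ⟨w', u⟩ := p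
  obtain ⟨w, v⟩ := q
  obtain ⟨hc, -⟩ := pscale H u
  obtain ⟨s1, -⟩ := sh1 H
  obtain ⟨q1, -⟩ := qd_bd H u
  obtain ⟨g1, g2, g3⟩ := gap H u
  set F := D.form u v w' w with hF
  set dd := D.dX₀ u v w' w with hdd
  set Th := (D.T : ℝ) * D.X.hw u with hTh
  have hx : D.unit.toCfg.x (w, v) - D.unit.toCfg.x (w', u) = D.s₀ / (1 + D.sh) * dd := by
    simp only [hdd, dX₀]; ring
  have key : σU * Th * |dd| ≤ |F| ∨ F * dd ≤ 0 := by
    by_cases hw : w' = w
    · subst hw
      have huv : u ≠ v := fun hh => h (by rw [hh])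
      obtain ⟨-, f2, f3⟩ := form_same H u v w' huv
      refine f3.imp (fun hs => le_trans ?_ f2) id
      set p := D.X.pval u v with hp
      have hq := q_pos H
      have hl := H.lampos
      have hb : |dd| ≤ 2 * (D.ρ * |D.X.x v - D.X.x u|) + D.lam * (D.q * |p|) := by
        have hc : dd = D.ρ * (D.X.x v - D.X.x u) * (1 + D.lam * (D.bpen u : ℕ))
            - D.lam * (D.q * p) := by
          have hT := T0r H
          simp only [hdd, dX₀, X₀, hp, Cfg.pval, midX H, UData.q]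
          field_simp
          ring
        rw [hc]
        refine le_trans (abs_sub _ _) (add_le_add ?_ (le_of_eq ?_))
        · rw [abs_mul, abs_mul, abs_of_pos H.ρpos,
            abs_of_pos (by linarith [den H (D.bpen u)] : 0 < 1 + D.lam * (D.bpen u : ℕ))]
          have := mul_le_mul_of_nonneg_left (den_le H _ (bpen_le H u))
            (mul_nonneg H.ρpos.le (abs_nonneg (D.X.x v - D.X.x u)))
          linarith
        · rw [abs_mul, abs_mul, abs_of_pos hl, abs_of_pos hq]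
      have hTh0 : 0 ≤ σU * Th := mul_nonneg hσ0.le (by linarith)
      refine le_trans (mul_le_mul_of_nonneg_left hb hTh0) ?_
      have e : σU * Th * (2 * (D.ρ * |D.X.x v - D.X.x u|))
          = D.q * (8 * σU * D.X.hw u * |D.X.x v - D.X.x u|) := by
        unfold UData.q; rw [hTh]; ring
      have := mul_le_mul_of_nonneg_left (le_trans (mul_le_mul_of_nonneg_right
        (mul_le_mul_of_nonneg_right h1 (H.good.hw_pos u).le) (abs_nonneg _)) hs) hq.le
      have hsl : σU * Th * D.lam ≤ 1 := by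
        have h3 : D.lam * Th ≤ 1 := by
          have := mul_le_mul_of_nonneg_left (by linarith : Th ≤ D.Hh) hl.le
          linarith [H.hlamσ, H.good.σle]
        calc σU * Th * D.lam = σU * (D.lam * Th) := by ring
          _ ≤ 1 * 1 := mul_le_mul (by linarith [H.good.σle]) h3 (mul_nonneg hl.le (by linarith))
              zero_le_one
          _ = 1 := one_mul 1
      have := mul_le_mul_of_nonneg_right hsl (mul_nonneg hq.le (abs_nonneg p))
      linarith
    · by_cases he : D.cls (D.bpen u) w' = D.cls (D.bpen u) w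
      · exact Or.inr (form_tie H u v w' w hw he).2.2
      · left
        refine le_trans ?_ (form_diff H u v w' w he).2
        have := mul_le_mul (mul_le_mul_of_nonneg_left (by linarith : Th ≤ D.Hh) hσ0.le)
          (dX₀_le H u v w' w) (abs_nonneg _) (mul_nonneg hσ0.le (by linarith [H.hH1]))
        linarith
  rw [pval_form H, hx, hw_unit H]
  have hs := s₀_pos H
  refine key.imp (fun k => ?_) (fun k => ?_)
  · rw [abs_mul, abs_mul (D.s₀ * (D.ν / (4 * D.qd u))), abs_of_pos hc,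
      abs_of_pos (div_pos hs (by linarith : 0 < 1 + D.sh))]
    calc σU * ((1 + D.sh) * D.ν * (D.T * D.X.hw u) / (4 * D.qd u))
          * (D.s₀ / (1 + D.sh) * |dd|)
        = D.s₀ * (D.ν / (4 * D.qd u)) * (σU * Th * |dd|) := by rw [hTh]; field_simp
      _ ≤ _ := mul_le_mul_of_nonneg_left k hc.le
  · rw [show D.s₀ * (D.ν / (4 * D.qd u)) * F * (D.s₀ / (1 + D.sh) * dd)
      = D.s₀ * (D.ν / (4 * D.qd u)) * (D.s₀ / (1 + D.sh)) * (F * dd) by ring]
    exact mul_nonpos_of_nonneg_of_nonpos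
      (mul_nonneg hc.le (div_nonneg hs.le (by linarith))) k

/-- The unit is exact with explicit margins. -/
theorem good {σU : ℝ} (hσ0 : 0 < σU) (h1 : 8 * σU ≤ D.σ) (h2 : 8 * (σU * D.Hh * D.a) ≤ 1) :
    D.unit.toCfg.Good (D.margin * D.ν / 16) σU := by
  have hm := margin_pos H
  have hν := H.νpos
  obtain ⟨m1, m2, m3⟩ := margin_le H
  obtain ⟨-, hs8⟩ := s₀_le H
  have hm1 : D.margin ≤ 1 := by
    have := mul_le_mul hs8 (by linarith [ν_le H] : D.ν / 16 ≤ 1) (by linarith [H.νpos])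
      (by norm_num)
    linarith
  have hz : D.margin * D.ν / 16 ≤ D.ν / 16 := by
    have := mul_le_of_le_one_left hν.le hm1; linarith
  have hκ4 := fits H
  have hsl : ∀ l : D.unit.toCfg.L, |D.unit.toCfg.sl l| ≤ 1 := by
    rintro (s | s | e)
    · simp
    · simp
    · obtain ⟨e1, e2⟩ := hκ4.bsl e
      show |D.unit.sl e| ≤ 1
      rw [abs_of_nonneg e1]
      linarith [κ_le H]
  have hmid : ∀ p, |D.unit.toCfg.mid p| ≤ 1 := by
    intro p
    have a1 := abs_le.mp (hsl (D.unit.toCfg.la p))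
    have a2 := abs_le.mp (hsl (D.unit.toCfg.lb p))
    unfold Cfg.mid; rw [abs_le]; constructor <;> linarith [a1.1, a1.2, a2.1, a2.2]
  have hwle : ∀ p, D.unit.toCfg.hw p ≤ 1 := by
    intro p
    have a1 := abs_le.mp (hsl (D.unit.toCfg.la p))
    have a2 := abs_le.mp (hsl (D.unit.toCfg.lb p))
    unfold Cfg.hw; linarith [a1.1, a2.2]
  refine ⟨by positivity, by linarith [ν_le H], hσ0, by linarith [H.good.σle], ?_, ?_,
    fun p => by linarith [(hw_bd H p).1], ?_, ?_, ?_, ?_, sep_unit H hσ0 h1 h2, hsl, ?_,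
    fun p => le_trans (unit_bx H p).1 (by norm_num),
    fun p => le_trans (unit_bx H p).2 (by norm_num), ?_, ?_⟩
  · rintro ⟨w, v⟩
    show D.unit.toCfg.val (Sum.inr (Sum.inr (D.unit.la (w, v)))) (w, v) = 0
    rw [la_eq H, val_tmpl H]
    simp [H.good.za]
  · rintro ⟨w, v⟩
    show D.unit.toCfg.val (Sum.inr (Sum.inr (D.unit.lb (w, v)))) (w, v) = 0
    rw [lb_eq H, val_tmpl H]
    simp [H.good.zb]
  · rintro ⟨w, v⟩
    exact H.good.cla v
  · rintro ⟨w, v⟩
    exact H.good.clb v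
  · intro p l h1 h2
    have hd := abs_sub (D.unit.toCfg.sl l) (D.unit.toCfg.mid p)
    calc D.margin * D.ν / 16 * (|D.unit.toCfg.sl l - D.unit.toCfg.mid p| + D.unit.toCfg.hw p)
        ≤ D.margin * D.ν / 16 * 4 := by
          refine mul_le_mul_of_nonneg_left ?_ (by positivity)
          linarith [hsl l, hmid p, hwle p]
      _ = D.margin * (D.ν / 4) := by ring
      _ ≤ _ := mul_le_mul (line_margin H p l h1 h2) (hw_bd H p).1 (by positivity) (abs_nonneg _)
  · intro p q h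
    have hd := abs_sub (D.unit.toCfg.mid p) (D.unit.toCfg.mid q)
    calc D.margin * D.ν / 16 * (|D.unit.toCfg.mid p - D.unit.toCfg.mid q| + D.unit.toCfg.hw p
          + D.unit.toCfg.hw q)
        ≤ D.margin * D.ν / 16 * 4 := by
          refine mul_le_mul_of_nonneg_left ?_ (by positivity)
          linarith [hmid p, hmid q, hwle p, hwle q]
      _ = D.margin * (D.ν / 4) := by ring
      _ ≤ _ := mul_le_mul (pen_margin H p q h) (hw_bd H q).1 (by positivity) (abs_nonneg _)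
  · rintro (s | s | e)
    · exact le_trans ((fits H).boff s) (by norm_num)
    · exact le_trans ((fits H).boff s) (by norm_num)
    · exact le_trans ((fits H).bic e) (by norm_num)
  · rintro ⟨w, v⟩ ⟨w', v'⟩
    rw [cnt_unit H, cnt_unit H, H.good.cc v v']
  · rintro ⟨w, v⟩ ⟨w', v'⟩
    have h1 := psi_unit H w v
    have h2 := psi_unit H w' v'
    have := H.good.pc v v'
    omega

lemma R_le : D.R ≤ 2 * D.b := by have := H.bT; unfold R; omega

lemma sbet_le (f : D.X.L → ℕ) : D.sbet f ≤ (∑ l, f l) * D.T := by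
  unfold sbet; rw [Finset.sum_mul]
  exact Finset.sum_le_sum fun l _ => Nat.mul_le_mul_left _ (bet_le H l)

lemma NS_unit : D.unit.NS = D.a * D.b * D.X.n := by
  show ∑ _s : Fin D.a × Fin D.b, D.X.n = _
  simp

lemma m_unit : D.unit.m = D.a * D.b * D.X.m := by
  show Fintype.card ((Fin D.a × Fin D.b) × D.X.V) = _
  simp [Cfg.m]

lemma WS_unit : D.unit.WS = D.a * D.b * (D.X.W + 2 * D.a * D.X.m) := by
  show ∑ _s : Fin D.a × Fin D.b, (D.X.W + 2 * D.a * D.X.m) = _
  simp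

lemma NE_unit : D.unit.NE ≤ 3 * D.b * D.X.n := by
  have e : D.unit.NE = D.R * D.X.n + D.a * D.sbet D.X.c := by
    show ∑ e : (D.X.L × Fin D.R) ⊕ ((D.X.V × Fin D.R) ⊕ (Bool × Fin D.a)), D.unit.cE e = _
    simp [Fintype.sum_sum_type, Fintype.sum_prod_type, Cfg.n, Finset.mul_sum]
  rw [e]
  calc D.R * D.X.n + D.a * D.sbet D.X.c ≤ 2 * D.b * D.X.n + D.T * D.a * D.X.n := by
        refine Nat.add_le_add (Nat.mul_le_mul_right _ (R_le H)) ?_
        calc D.a * D.sbet D.X.c ≤ D.a * (D.X.n * D.T) := Nat.mul_le_mul_left _ (sbet_le H _)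
          _ = _ := by ring
    _ ≤ 2 * D.b * D.X.n + D.b * D.X.n := Nat.add_le_add_left (Nat.mul_le_mul_right _ H.bT) _
    _ = _ := by ring

lemma WE_unit : D.unit.WE ≤ 3 * D.b * D.X.W + 7 * (D.a * D.b) * D.X.m := by
  have e : D.unit.WE = D.R * D.X.W
      + (∑ u : D.X.V, ∑ c : Fin D.R,
          (2 * D.a - (D.F (D.bpen u) ((c : ℕ) + 1) - D.F (D.bpen u) (c : ℕ))))
      + (D.a * (D.sbet D.X.w + 2 * D.a * ∑ u, D.bpen u) + D.a * D.X.m) := by
    show ∑ e : (D.X.L × Fin D.R) ⊕ ((D.X.V × Fin D.R) ⊕ (Bool × Fin D.a)), D.unit.wE e = _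
    simp [Fintype.sum_sum_type, Fintype.sum_prod_type, Cfg.W, Finset.mul_sum]
    ring
  rw [e]
  have h1 : (∑ u : D.X.V, ∑ c : Fin D.R,
      (2 * D.a - (D.F (D.bpen u) ((c : ℕ) + 1) - D.F (D.bpen u) (c : ℕ))))
      ≤ 4 * (D.a * D.b) * D.X.m := by
    calc _ ≤ ∑ _u : D.X.V, ∑ _c : Fin D.R, 2 * D.a :=
          Finset.sum_le_sum fun u _ => Finset.sum_le_sum fun c _ => Nat.sub_le _ _
      _ = D.X.m * (D.R * (2 * D.a)) := by simp [Cfg.m]
      _ ≤ D.X.m * (2 * D.b * (2 * D.a)) := by gcongr; exact R_le H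
      _ = _ := by ring
  have h2 : D.a * D.sbet D.X.w ≤ D.b * D.X.W := by
    calc D.a * D.sbet D.X.w ≤ D.a * (D.X.W * D.T) := Nat.mul_le_mul_left _ (sbet_le H _)
      _ = D.T * D.a * D.X.W := by ring
      _ ≤ _ := Nat.mul_le_mul_right _ H.bT
  have h3 : D.a * (2 * D.a * ∑ u, D.bpen u) ≤ 2 * (D.a * D.b) * D.X.m := by
    calc D.a * (2 * D.a * ∑ u, D.bpen u) ≤ D.a * (2 * D.a * (D.X.m * D.T)) := by
          refine Nat.mul_le_mul_left _ (Nat.mul_le_mul_left _ ?_)
          calc ∑ u, D.bpen u ≤ ∑ _u : D.X.V, D.T := Finset.sum_le_sum fun u _ => bpen_le H u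
            _ = _ := by simp [Cfg.m]
      _ = 2 * D.a * (D.T * D.a) * D.X.m := by ring
      _ ≤ 2 * D.a * D.b * D.X.m :=
          Nat.mul_le_mul_right _ (Nat.mul_le_mul_left _ H.bT)
      _ = _ := by ring
  have h4 : D.a * D.X.m ≤ D.a * D.b * D.X.m := by
    refine Nat.mul_le_mul_right _ (Nat.le_mul_of_pos_right _ ?_)
    have := Nat.mul_pos H.T1 H.a1
    have := H.bT
    omega
  have h5 : D.R * D.X.W ≤ 2 * D.b * D.X.W := Nat.mul_le_mul_right _ (R_le H)
  rw [Nat.mul_add]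
  linarith

end UData

end Vale.Agent.P065c
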