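import Vale.Agent.P065c.Amp

/-!
# Signs and margins inside a unit
-/

namespace Vale.Agent.P065c

open Finset Vale.Agent.P065
open scoped Classical

/-- If `|y|` is at most `|x| / 2` then `x + y` has the sign of `x`. -/
lemma sign_add {x y : ℝ} (hx : x ≠ 0) (h : |y| ≤ |x| / 2) :
    (0 < x + y ↔ 0 < x) ∧ |x| / 2 ≤ |x + y| := by
  rcases lt_or_gt_of_ne hx with hx | hx
  · rw [abs_of_neg hx] at h ⊢
    have := (abs_le.mp h).2
    exact ⟨⟨fun h' => absurd h' (by linarith), fun h' => absurd h' (by linarith)⟩,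
      by rw [abs_of_neg (by linarith : x + y < 0)]; linarith⟩
  · rw [abs_of_pos hx] at h ⊢
    have := (abs_le.mp h).1
    exact ⟨⟨fun _ => hx, fun _ => by linarith⟩,
      by rw [abs_of_pos (by linarith : 0 < x + y)]; linarith⟩

lemma pos01_if {x : ℝ} {p : Prop} [Decidable p] (h : 0 < x ↔ p) :
    pos01 x = if p then 1 else 0 := by
  unfold pos01; simp only [h]

lemma int_half {z : ℤ} : (1 : ℝ) / 2 ≤ |(z : ℝ) - 1 / 2| := by
  rcases le_or_gt z 0 with h | h
  · have h' : (z : ℝ) ≤ 0 := by exact_mod_cast h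
    rw [abs_of_nonpos (by linarith)]; linarith
  · have h' : (1 : ℝ) ≤ z := by exact_mod_cast h
    rw [abs_of_nonneg (by linarith)]; linarith

/-- Height of a lattice point over a lattice line. -/
lemma lattice_line (ν l β i j c : ℝ) (h : 1 + l * β ≠ 0) :
    ν * (j + β * i - c) / (1 + l * β)
      = ν * j - -(ν * β) / (1 + l * β) * (i - l * j) - ν * c / (1 + l * β) := by
  have e : ν * j = ν * j * (1 + l * β) / (1 + l * β) := (mul_div_cancel_right₀ _ h).symm
  rw [e]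
  ring

/-- A nonzero integer moved by at most a quarter keeps its sign. -/
lemma nat_sign {m n : ℕ} {r : ℝ} (hne : m ≠ n) (hr : |r| ≤ 1 / 4) :
    (0 < (n : ℝ) - m + r ↔ m < n) ∧ 3 / 4 ≤ |(n : ℝ) - m + r| := by
  have h' := abs_le.mp hr
  rcases Nat.lt_or_gt_of_ne hne with h | h
  · have : (m : ℝ) + 1 ≤ n := by exact_mod_cast h
    exact ⟨iff_of_true (by linarith) h, by rw [abs_of_pos (by linarith)]; linarith⟩
  · have : (n : ℝ) + 1 ≤ m := by exact_mod_cast h
    exact ⟨iff_of_false (by linarith) (by omega), by rw [abs_of_neg (by linarith)]; linarith⟩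

/-- The form governing two lattice points seen from a midline. -/
lemma lattice_mid (ν l a b ta tb di dj : ℝ) (ha : ta * (1 + l * a) = -(ν * a))
    (hb : tb * (1 + l * b) = -(ν * b)) :
    (ν * dj - (ta + tb) / 2 * (di - l * dj)) * (4 * ((1 + l * a) * (1 + l * b)))
      = ν * ((2 + l * (a + b)) * (2 * dj + (a + b) * di)
        + l * (4 * (a * b) - (a + b) ^ 2) * di) := by
  linear_combination (-2 * (di - l * dj) * (1 + l * b)) * ha
    + (-2 * (di - l * dj) * (1 + l * a)) * hb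

namespace UData

variable {D : UData} (H : D.Hyp)

include H

lemma a1r : (1 : ℝ) ≤ D.a := by exact_mod_cast H.a1
lemma T1r : (1 : ℝ) ≤ D.T := by exact_mod_cast H.T1
lemma T0r : (0 : ℝ) < D.T := by linarith [T1r H]
lemma bTr : (D.T : ℝ) * D.a ≤ D.b := by exact_mod_cast H.bT
lemma b1r : (1 : ℝ) ≤ D.b := le_trans (by nlinarith [a1r H, T1r H]) (bTr H)
lemma ab : (D.a : ℝ) ≤ D.b := le_trans (by nlinarith [a1r H, T1r H]) (bTr H)
lemma Tb : (D.T : ℝ) ≤ D.b := le_trans (by nlinarith [a1r H, T1r H]) (bTr H)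

lemma lam_le : D.lam ≤ 1 / 32 := by
  have := mul_le_mul_of_nonneg_left (b1r H) H.lampos.le
  linarith [H.hlamb]

lemma ν_le : D.ν ≤ 1 / 64 := by linarith [H.hν, lam_le H]

lemma s₀_pos : 0 < D.s₀ := by unfold s₀; positivity

lemma q_pos : 0 < D.q := by
  unfold q; have := H.ρpos; have := T0r H; positivity

lemma q_le : D.q ≤ D.lam / 1024 := by
  unfold q; linarith [H.hρ]

lemma κ_pos : 0 < D.κ := by
  unfold κ; have := H.νpos; have := b1r H; positivity

lemma κa_le : D.κ * D.a ≤ 1 / 256 := by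
  unfold κ; linarith [H.hκ]

lemma κ_le : D.κ ≤ 1 / 256 := by
  have := mul_le_mul_of_nonneg_left (a1r H) (κ_pos H).le
  linarith [κa_le H]

lemma sh_pos : 0 < D.sh := by unfold sh; linarith [κ_pos H]

lemma sh1 : 1 ≤ 1 + D.sh ∧ 1 + D.sh ≤ 2 := by
  have := sh_pos H; have := κ_le H
  constructor <;> unfold sh at * <;> linarith

lemma μ_bd : D.lam / 2 ≤ D.μ ∧ D.μ ≤ D.lam := by
  unfold μ; constructor <;> linarith [H.hν, H.νpos]

lemma μ_pos : 0 < D.μ := by linarith [(μ_bd H).1, H.lampos]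

lemma ρ_le : D.ρ ≤ D.lam / 256 := by
  have := mul_le_mul_of_nonneg_left (T1r H) H.ρpos.le
  linarith [H.hρ]

lemma bet_two (l : D.X.L) : 2 * (D.bet l : ℝ) ≤ D.T := by
  have h := (abs_le.mp (H.good.bsl l)).1
  rw [H.grid l] at h
  have hT := T0r H
  have : 4 * (D.bet l : ℝ) / D.T ≤ 2 := by linarith
  rw [div_le_iff₀ hT] at this
  linarith

lemma bet_le (l : D.X.L) : D.bet l ≤ D.T := by
  have := bet_two H l
  have h0 : (0 : ℝ) ≤ (D.bet l : ℝ) := Nat.cast_nonneg _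
  have : (D.bet l : ℝ) ≤ D.T := by linarith
  exact_mod_cast this

lemma bpen_le (u : D.X.V) : D.bpen u ≤ D.T := by
  have h1 := bet_le H (D.X.la u); have h2 := bet_le H (D.X.lb u)
  unfold bet at h1 h2; unfold bpen; omega

lemma midX (u : D.X.V) : D.X.mid u = 1 - 4 * (D.bpen u : ℕ) / D.T := by
  unfold Cfg.mid
  rw [H.grid, H.grid]
  simp only [bet, bpen, Nat.cast_mul, Nat.cast_add, Nat.cast_ofNat]
  ring

lemma den (β : ℕ) : 1 ≤ 1 + D.lam * β := by
  have := mul_nonneg H.lampos.le (Nat.cast_nonneg (α := ℝ) β)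
  linarith

lemma den_le (β : ℕ) (hβ : β ≤ D.T) : 1 + D.lam * β ≤ 2 := by
  have h0 : (β : ℝ) ≤ D.b := le_trans (by exact_mod_cast hβ) (Tb H)
  have := mul_le_mul_of_nonneg_left h0 H.lampos.le
  linarith [H.hlamb, H.lampos, b1r H]

lemma tau_abs (β : ℕ) (hβ : β ≤ D.T) : |D.tau β| ≤ D.ν * D.T := by
  have h1 := den H β
  unfold tau
  rw [abs_div, abs_neg, abs_of_nonneg (mul_nonneg H.νpos.le (Nat.cast_nonneg β)),
    abs_of_pos (by linarith : (0 : ℝ) < 1 + D.lam * β), div_le_iff₀ (by linarith)]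
  have hb : (β : ℝ) ≤ D.T := by exact_mod_cast hβ
  have e1 := mul_le_mul_of_nonneg_left hb H.νpos.le
  have e2 := mul_le_mul_of_nonneg_left h1 (mul_nonneg H.νpos.le (Nat.cast_nonneg D.T))
  linarith

lemma tau_κ (β : ℕ) (hβ : β ≤ D.T) : |D.tau β| ≤ D.κ := by
  refine le_trans (tau_abs H β hβ) ?_
  unfold κ
  have := mul_le_mul_of_nonneg_left (Tb H) H.νpos.le
  have := mul_nonneg H.νpos.le (le_trans zero_le_one (b1r H))
  linarith

lemma cls_lt (β : ℕ) (hβ : β ≤ D.T) (w : D.Win) : D.cls β w < D.R := by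
  unfold cls R
  have h1 := w.1.2; have h2 := w.2.2
  calc (w.2 : ℕ) + β * (w.1 : ℕ) ≤ (w.2 : ℕ) + D.T * D.a :=
        Nat.add_le_add_left (Nat.mul_le_mul hβ h1.le) _
    _ < D.b + D.T * D.a := by omega

lemma la_eq (p : D.Win × D.X.V) : D.unit.la p
    = Sum.inl (D.X.la p.2, ⟨D.cls (D.bet (D.X.la p.2)) p.1, cls_lt H _ (bet_le H _) _⟩) := by
  simp [Nat.mod_eq_of_lt (cls_lt H _ (bet_le H _) p.1)]

lemma lb_eq (p : D.Win × D.X.V) : D.unit.lb p
    = Sum.inl (D.X.lb p.2, ⟨D.cls (D.bet (D.X.lb p.2)) p.1, cls_lt H _ (bet_le H _) _⟩) := by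
  simp [Nat.mod_eq_of_lt (cls_lt H _ (bet_le H _) p.1)]

/-- Undoing the shift. -/
lemma unshift (t : ℝ) (p : D.Win × D.X.V) :
    D.unit.y p - (t * (1 + D.sh) + D.sh) * D.unit.x p = D.s₀ * (D.Y₀ p - t * D.X₀ p) := by
  have h := (sh1 H).1
  show D.s₀ * (D.Y₀ p + D.sh * (D.X₀ p / (1 + D.sh)))
    - (t * (1 + D.sh) + D.sh) * (D.s₀ * (D.X₀ p / (1 + D.sh))) = _
  field_simp
  ring

/-- Height over a lattice line, before scaling. -/
lemma lattice_val (β : ℕ) (c : ℝ) (w : D.Win) (v : D.X.V) :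
    D.Y₀ (w, v) - D.tau β * D.X₀ (w, v) - D.K * (1 + D.tau β)
        - D.ν * c / (1 + D.lam * (β : ℕ))
      = D.ν * ((D.cls β w : ℝ) - c
          + D.q * (D.X.y v - (1 - 4 * (β : ℕ) / D.T) * D.X.x v)) / (1 + D.lam * (β : ℕ)) := by
  have h1 := den H β
  have hT := T0r H
  have e : ((D.cls β w : ℝ) - c + D.q * (D.X.y v - (1 - 4 * (β : ℕ) / D.T) * D.X.x v))
      = ((((w.2 : ℕ) : ℝ) + D.q * (D.X.y v - D.X.x v))
        + (β : ℝ) * (((w.1 : ℕ) : ℝ) + D.ρ * D.X.x v) - c) := by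
    simp only [cls, Nat.cast_add, Nat.cast_mul, q]
    field_simp
    ring
  rw [e, lattice_line _ _ _ _ _ _ (ne_of_gt (by linarith))]
  simp only [Y₀, X₀, tau]
  ring

/-- Height over a shared line. -/
lemma val_tmpl (l : D.X.L) (c : Fin D.R) (w : D.Win) (v : D.X.V) :
    D.unit.toCfg.val (Sum.inr (Sum.inr (Sum.inl (l, c)))) (w, v)
      = D.s₀ * (D.ν / (1 + D.lam * (D.bet l : ℕ)))
          * ((D.cls (D.bet l) w : ℝ) - (c : ℕ) + D.q * D.X.val l v) := by
  show D.unit.y (w, v) - (D.tau (D.bet l) * (1 + D.sh) + D.sh) * D.unit.x (w, v)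
    - D.s₀ * (D.K * (1 + D.tau (D.bet l))
      + D.ν * (((c : ℕ) : ℝ) + D.q * D.X.ic l) / (1 + D.lam * (D.bet l : ℕ))) = _
  rw [unshift H]
  have e := lattice_val H (D.bet l) (((c : ℕ) : ℝ) + D.q * D.X.ic l) w v
  simp only [Cfg.val, H.grid l]
  linear_combination D.s₀ * e

lemma xval_le (l : D.X.L) (v : D.X.V) : |D.X.val l v| ≤ 10 := by
  unfold Cfg.val
  refine le_trans (abs_sub _ _) (le_trans (add_le_add (abs_sub _ _) le_rfl) ?_)
  rw [abs_mul]
  have := mul_le_mul (H.good.bsl l) (H.good.bx v) (abs_nonneg _) zero_le_one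
  linarith [H.good.bdy v, H.good.bic l]

lemma xmid_le (u v : D.X.V) : |D.X.y v - D.X.mid u * D.X.x v| ≤ 2 := by
  refine le_trans (abs_sub _ _) ?_
  rw [abs_mul]
  have := mul_le_mul (H.good.abs_mid_le u) (H.good.bx v) (abs_nonneg _) zero_le_one
  linarith [H.good.bdy v]

lemma xpval_le (u v : D.X.V) : |D.X.pval u v| ≤ 4 := by
  rw [show D.X.pval u v = (D.X.y v - D.X.mid u * D.X.x v) - (D.X.y u - D.X.mid u * D.X.x u) by
    unfold Cfg.pval; ring]
  linarith [abs_sub (D.X.y v - D.X.mid u * D.X.x v) (D.X.y u - D.X.mid u * D.X.x u),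
    xmid_le H u v, xmid_le H u u]

lemma scale_pos (β : ℕ) : 0 < D.s₀ * (D.ν / (1 + D.lam * (β : ℕ))) :=
  mul_pos (s₀_pos H) (div_pos H.νpos (by linarith [den H β]))

lemma scale_ge (β : ℕ) (hβ : β ≤ D.T) :
    D.s₀ * (D.ν / 2) ≤ D.s₀ * (D.ν / (1 + D.lam * (β : ℕ))) :=
  mul_le_mul_of_nonneg_left
    (div_le_div_of_nonneg_left H.νpos.le (by linarith [den H β]) (den_le H β hβ)) (s₀_pos H).le

lemma tmpl_small (l : D.X.L) (v : D.X.V) : |D.q * D.X.val l v| ≤ 1 / 4 := by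
  rw [abs_mul, abs_of_pos (q_pos H)]
  have := mul_le_mul (q_le H) (xval_le H l v) (abs_nonneg _) (by linarith [H.lampos])
  linarith [lam_le H]

/-- Sign over a shared line. -/
lemma sign_tmpl (l : D.X.L) (c : Fin D.R) (w : D.Win) (v : D.X.V) :
    pos01 (D.unit.toCfg.val (Sum.inr (Sum.inr (Sum.inl (l, c)))) (w, v))
      = if (c : ℕ) < D.cls (D.bet l) w then 1
        else if (c : ℕ) = D.cls (D.bet l) w then pos01 (D.X.val l v) else 0 := by
  rw [val_tmpl H, pos01_mul (scale_pos H _)]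
  by_cases hc : (c : ℕ) = D.cls (D.bet l) w
  · rw [if_neg (by omega), if_pos hc, hc, sub_self, zero_add, pos01_mul (q_pos H)]
  rw [pos01_if (nat_sign hc (tmpl_small H l v)).1]
  simp only [if_neg hc]

lemma margin_tmpl (l : D.X.L) (c : Fin D.R) (w : D.Win) (v : D.X.V)
    (h : ¬ ((c : ℕ) = D.cls (D.bet l) w ∧ (l = D.X.la v ∨ l = D.X.lb v))) :
    D.s₀ * (D.ν * D.q * D.ζ / 16) ≤
      |D.unit.toCfg.val (Sum.inr (Sum.inr (Sum.inl (l, c)))) (w, v)| := by
  rw [val_tmpl H, abs_mul, abs_of_pos (scale_pos H _)]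
  have hm : D.q * D.ζ ≤ |(D.cls (D.bet l) w : ℝ) - (c : ℕ) + D.q * D.X.val l v| := by
    by_cases hc : (c : ℕ) = D.cls (D.bet l) w
    · rw [hc, sub_self, zero_add, abs_mul, abs_of_pos (q_pos H)]
      refine mul_le_mul_of_nonneg_left ?_ (q_pos H).le
      exact H.good.val_lb v l (fun e => h ⟨hc, Or.inl e⟩) (fun e => h ⟨hc, Or.inr e⟩)
    · have := (nat_sign hc (tmpl_small H l v)).2
      have := mul_le_mul (q_le H) H.good.ζle H.good.ζpos.le (by linarith [H.lampos])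
      linarith [lam_le H]
  have := mul_le_mul (scale_ge H _ (bet_le H l)) hm
    (mul_pos (q_pos H) H.good.ζpos).le (scale_pos H _).le
  have := mul_pos (mul_pos (s₀_pos H) H.νpos) (mul_pos (q_pos H) H.good.ζpos)
  linarith

/-- Height over a line of a midline class. -/
lemma sign_pencil (u : D.X.V) (c : Fin D.R) (w : D.Win) (v : D.X.V) :
    pos01 (D.unit.toCfg.val (Sum.inr (Sum.inr (Sum.inr (Sum.inl (u, c))))) (w, v))
      = (if (c : ℕ) < D.cls (D.bpen u) w then 1 else 0)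
    ∧ D.s₀ * (D.ν / 16) ≤
        |D.unit.toCfg.val (Sum.inr (Sum.inr (Sum.inr (Sum.inl (u, c))))) (w, v)| := by
  have e : D.unit.toCfg.val (Sum.inr (Sum.inr (Sum.inr (Sum.inl (u, c))))) (w, v)
      = D.s₀ * (D.ν / (1 + D.lam * (D.bpen u : ℕ)))
          * ((D.cls (D.bpen u) w : ℝ) - (c : ℕ) - 1 / 2
            + D.q * (D.X.y v - D.X.mid u * D.X.x v)) := by
    show D.unit.y (w, v) - (D.tau (D.bpen u) * (1 + D.sh) + D.sh) * D.unit.x (w, v)
      - D.s₀ * (D.K * (1 + D.tau (D.bpen u))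
        + D.ν * (((c : ℕ) : ℝ) + 1 / 2) / (1 + D.lam * (D.bpen u : ℕ))) = _
    rw [unshift H, midX H]
    have e := lattice_val H (D.bpen u) (((c : ℕ) : ℝ) + 1 / 2) w v
    linear_combination D.s₀ * e
  rw [e]
  set r := D.q * (D.X.y v - D.X.mid u * D.X.x v) with hrdef
  have hr : |r| ≤ 1 / 4 := by
    rw [hrdef, abs_mul, abs_of_pos (q_pos H)]
    have := mul_le_mul (q_le H) (xmid_le H u v) (abs_nonneg _) (by linarith [H.lampos])
    linarith [lam_le H]
  have hr' := abs_le.mp hr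
  have main : (0 < (D.cls (D.bpen u) w : ℝ) - (c : ℕ) - 1 / 2 + r ↔ (c : ℕ) < D.cls (D.bpen u) w)
      ∧ 1 / 4 ≤ |(D.cls (D.bpen u) w : ℝ) - (c : ℕ) - 1 / 2 + r| := by
    by_cases hc : (c : ℕ) < D.cls (D.bpen u) w
    · have : ((c : ℕ) : ℝ) + 1 ≤ (D.cls (D.bpen u) w : ℝ) := by exact_mod_cast hc
      exact ⟨iff_of_true (by linarith) hc, by rw [abs_of_pos (by linarith)]; linarith⟩
    · have : (D.cls (D.bpen u) w : ℝ) ≤ ((c : ℕ) : ℝ) := by exact_mod_cast not_lt.mp hc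
      exact ⟨iff_of_false (by linarith) hc, by rw [abs_of_neg (by linarith)]; linarith⟩
  refine ⟨?_, ?_⟩
  · rw [pos01_mul (scale_pos H _)]; exact pos01_if main.1
  · rw [abs_mul, abs_of_pos (scale_pos H _)]
    have := mul_le_mul (scale_ge H _ (bpen_le H u)) main.2 (by norm_num) (scale_pos H _).le
    have := mul_pos (s₀_pos H) H.νpos
    linarith

lemma win_small (w : D.Win) :
    ((w.2 : ℕ) : ℝ) + 1 ≤ D.b ∧ 0 ≤ ((w.2 : ℕ) : ℝ) :=
  ⟨by exact_mod_cast w.2.2, Nat.cast_nonneg _⟩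

lemma d_le (v : D.X.V) : |D.X.y v - D.X.x v| ≤ 2 := by
  linarith [abs_sub (D.X.y v) (D.X.x v), H.good.bx v, H.good.bdy v]

lemma qd_le (v : D.X.V) : |D.q * (D.X.y v - D.X.x v)| ≤ D.lam / 512 := by
  rw [abs_mul, abs_of_pos (q_pos H)]
  have := mul_le_mul (q_le H) (d_le H v) (abs_nonneg _) (by linarith [H.lampos])
  linarith

lemma ρx_le (v : D.X.V) : |D.ρ * D.X.x v| ≤ D.lam / 256 := by
  rw [abs_mul, abs_of_pos H.ρpos]
  have := mul_le_mul (ρ_le H) (H.good.bx v) (abs_nonneg _) (by linarith [H.lampos])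
  linarith

lemma X₀_le (p : D.Win × D.X.V) : |D.X₀ p| ≤ D.a + 1 := by
  obtain ⟨w, v⟩ := p
  have hi : ((w.1 : ℕ) : ℝ) + 1 ≤ D.a := by exact_mod_cast w.1.2
  have hw := win_small H w
  have hl : D.lam * ((w.2 : ℕ) : ℝ) ≤ 1 / 32 := by
    have := mul_le_mul_of_nonneg_left (by linarith : ((w.2 : ℕ) : ℝ) ≤ D.b) H.lampos.le
    linarith [H.hlamb]
  have hl0 : 0 ≤ D.lam * ((w.2 : ℕ) : ℝ) := mul_nonneg H.lampos.le hw.2
  have h1 := abs_le.mp (ρx_le H v)
  have h2 : |D.lam * D.q * (D.X.y v - D.X.x v)| ≤ D.lam := by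
    rw [mul_assoc, abs_mul, abs_of_pos H.lampos]
    refine mul_le_of_le_one_right H.lampos.le ?_
    linarith [qd_le H v, lam_le H]
  have h2' := abs_le.mp h2
  have := a1r H
  unfold X₀ K
  rw [abs_le]
  constructor <;> linarith [lam_le H, Nat.cast_nonneg (α := ℝ) (w.1 : ℕ), h1.1, h1.2, h2'.1, h2'.2]

/-- Sign over a line of the first bundle. -/
lemma sign_P (s w : D.Win) (v : D.X.V) :
    pos01 (D.unit.toCfg.val (Sum.inl s) (w, v))
      = (if (s.1 : ℕ) < (w.1 : ℕ) then 1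
        else if (s.1 : ℕ) = (w.1 : ℕ) then (if (w.2 : ℕ) < (s.2 : ℕ) then 1 else 0) else 0)
    ∧ D.s₀ * (D.lam / 8) ≤ |D.unit.toCfg.val (Sum.inl s) (w, v)| := by
  have e : D.unit.toCfg.val (Sum.inl s) (w, v)
      = D.s₀ * ((((w.1 : ℕ) : ℝ) - (s.1 : ℕ)
          - D.μ * (((w.2 : ℕ) : ℝ) - (s.2 : ℕ) + 1 / 2))
          + (D.ρ * D.X.x v - D.μ * (D.q * (D.X.y v - D.X.x v)))) := by
    have h := (sh1 H).1
    simp only [Cfg.val, Sum.elim_inl, μ, Y₀, X₀]
    field_simp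
    ring
  rw [e]
  set x := ((w.1 : ℕ) : ℝ) - (s.1 : ℕ) - D.μ * (((w.2 : ℕ) : ℝ) - (s.2 : ℕ) + 1 / 2) with hx
  have hμ := μ_bd H
  have hμ0 := μ_pos H
  have hw := win_small H w
  have hs := win_small H s
  have hsm : |D.μ * (((w.2 : ℕ) : ℝ) - (s.2 : ℕ) + 1 / 2)| ≤ 1 / 32 := by
    rw [abs_mul, abs_of_pos hμ0]
    have h1 : |((w.2 : ℕ) : ℝ) - (s.2 : ℕ) + 1 / 2| ≤ D.b := by
      rw [abs_le]; constructor <;> linarith
    have := mul_le_mul hμ.2 h1 (abs_nonneg _) H.lampos.le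
    linarith [H.hlamb]
  have hy : |D.ρ * D.X.x v - D.μ * (D.q * (D.X.y v - D.X.x v))| ≤ D.lam / 32 := by
    refine le_trans (abs_sub _ _) ?_
    rw [abs_mul D.μ, abs_of_pos hμ0]
    have := mul_le_mul hμ.2 (qd_le H v) (abs_nonneg _) H.lampos.le
    have := mul_le_mul_of_nonneg_left (lam_le H) H.lampos.le
    linarith [ρx_le H v]
  have main : D.lam / 4 ≤ |x| ∧ (0 < x ↔ ((s.1 : ℕ) < (w.1 : ℕ) ∨
      ((s.1 : ℕ) = (w.1 : ℕ) ∧ (w.2 : ℕ) < (s.2 : ℕ)))) := by
    have hsm' := abs_le.mp hsm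
    rcases Nat.lt_trichotomy (s.1 : ℕ) (w.1 : ℕ) with h | h | h
    · have : ((s.1 : ℕ) : ℝ) + 1 ≤ (w.1 : ℕ) := by exact_mod_cast h
      have hp : 31 / 32 ≤ x := by rw [hx]; linarith [hsm'.2]
      exact ⟨by rw [abs_of_pos (by linarith)]; linarith [lam_le H],
        iff_of_true (by linarith) (Or.inl h)⟩
    · have hx' : x = D.μ * ((((s.2 : ℤ) - (w.2 : ℕ) : ℤ) : ℝ) - 1 / 2) := by
        rw [hx, h]; push_cast; ring
      refine ⟨?_, ?_⟩
      · rw [hx', abs_mul, abs_of_pos hμ0]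
        have := mul_le_mul hμ.1 (@int_half ((s.2 : ℤ) - (w.2 : ℕ))) (by norm_num) hμ0.le
        linarith
      · rw [hx', mul_pos_iff_of_pos_left hμ0]
        constructor
        · intro hp
          refine Or.inr ⟨h, ?_⟩
          by_contra hc
          push Not at hc
          have : ((s.2 : ℕ) : ℝ) ≤ (w.2 : ℕ) := by exact_mod_cast hc
          push_cast at hp
          linarith
        · rintro (h' | ⟨-, h'⟩)
          · omega
          · have : ((w.2 : ℕ) : ℝ) + 1 ≤ (s.2 : ℕ) := by exact_mod_cast h'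
            push_cast
            linarith
    · have : ((w.1 : ℕ) : ℝ) + 1 ≤ (s.1 : ℕ) := by exact_mod_cast h
      have hp : x ≤ -(31 / 32) := by rw [hx]; linarith [hsm'.1]
      exact ⟨by rw [abs_of_neg (by linarith)]; linarith [lam_le H],
        iff_of_false (by linarith) (by omega)⟩
  have hy2 : |D.ρ * D.X.x v - D.μ * (D.q * (D.X.y v - D.X.x v))| ≤ |x| / 2 := by
    linarith [main.1, H.lampos]
  have hxne : x ≠ 0 := fun h => by
    have := main.1; rw [h, abs_zero] at this; linarith [H.lampos]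
  refine ⟨?_, ?_⟩
  · rw [pos01_mul (s₀_pos H), pos01_if ((sign_add hxne hy2).1.trans main.2)]
    by_cases h1 : (s.1 : ℕ) < (w.1 : ℕ)
    · simp [h1]
    · by_cases h2 : (s.1 : ℕ) = (w.1 : ℕ) <;> simp [h1, h2]
  · rw [abs_mul, abs_of_pos (s₀_pos H)]
    exact mul_le_mul_of_nonneg_left (by linarith [(sign_add hxne hy2).2, main.1]) (s₀_pos H).le

/-- Sign over a line of the second bundle. -/
lemma sign_Q (s w : D.Win) (v : D.X.V) :
    pos01 (D.unit.toCfg.val (Sum.inr (Sum.inl s)) (w, v))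
      = (if (s.1 : ℕ) < D.a - (w.1 : ℕ) then 1 else 0)
    ∧ D.s₀ * (1 / 8) ≤ |D.unit.toCfg.val (Sum.inr (Sum.inl s)) (w, v)| := by
  set r := (D.ν + D.lam) * ((w.2 : ℕ) : ℝ) + D.μ * (((s.2 : ℕ) : ℝ) - 1 / 2)
      - D.ρ * D.X.x v + (D.ν + D.lam) * (D.q * (D.X.y v - D.X.x v))
      + 2 * D.sh * (D.X₀ (w, v) / (1 + D.sh)) with hrdef
  have e : D.unit.toCfg.val (Sum.inr (Sum.inl s)) (w, v)
      = D.s₀ * (((D.a : ℝ) - (w.1 : ℕ) - (s.1 : ℕ) - 1 / 2) + r) := by
    have h := (sh1 H).1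
    simp only [hrdef, Cfg.val, Sum.elim_inl, Sum.elim_inr, Y₀, X₀, K, μ]
    field_simp
    ring
  rw [e]
  set x := (D.a : ℝ) - (w.1 : ℕ) - (s.1 : ℕ) - 1 / 2 with hx
  have hxa : (1 : ℝ) / 2 ≤ |x| := by
    have := @int_half ((D.a : ℤ) - (w.1 : ℕ) - (s.1 : ℕ))
    push_cast at this; exact this
  have hμ := μ_bd H
  have hμ0 := μ_pos H
  have hw := win_small H w
  have hs := win_small H s
  have hy : |r| ≤ |x| / 2 := by
    have t1 : |(D.ν + D.lam) * ((w.2 : ℕ) : ℝ)| ≤ 2 * (D.lam * D.b) := by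
      rw [abs_mul, abs_of_pos (by linarith [H.νpos, H.lampos]), abs_of_nonneg hw.2]
      calc _ ≤ (2 * D.lam) * D.b :=
            mul_le_mul (by linarith [H.hν, H.νpos]) (by linarith) hw.2 (by linarith [H.lampos])
        _ = _ := by ring
    have t2 : |D.μ * (((s.2 : ℕ) : ℝ) - 1 / 2)| ≤ D.lam * D.b := by
      rw [abs_mul, abs_of_pos hμ0]
      exact mul_le_mul hμ.2 (by rw [abs_le]; constructor <;> linarith) (abs_nonneg _)
        H.lampos.le
    have t3 : |(D.ν + D.lam) * (D.q * (D.X.y v - D.X.x v))| ≤ D.lam / 256 := by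
      rw [abs_mul, abs_of_pos (by linarith [H.νpos, H.lampos])]
      have := mul_le_mul (by linarith [ν_le H, lam_le H] : D.ν + D.lam ≤ 1) (qd_le H v)
        (abs_nonneg _) zero_le_one
      linarith [H.lampos]
    have t4 : |2 * D.sh * (D.X₀ (w, v) / (1 + D.sh))| ≤ 1 / 16 := by
      obtain ⟨h1, -⟩ := sh1 H
      have h0 := sh_pos H
      rw [abs_mul, abs_div, abs_of_pos (by linarith : 0 < 2 * D.sh),
        abs_of_pos (by linarith : 0 < 1 + D.sh)]
      have : |D.X₀ (w, v)| / (1 + D.sh) ≤ 2 * D.a :=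
        le_trans (div_le_self (abs_nonneg _) h1) (by linarith [X₀_le H (w, v), a1r H])
      have := mul_le_mul_of_nonneg_left this (by linarith : 0 ≤ 2 * D.sh)
      have := κa_le H
      unfold sh at *; linarith
    have a1 := abs_le.mp t1; have a2 := abs_le.mp t2; have a3 := abs_le.mp t3
    have a4 := abs_le.mp t4; have a5 := abs_le.mp (ρx_le H v)
    refine le_trans ?_ (by linarith : (1 : ℝ) / 4 ≤ |x| / 2)
    rw [hrdef, abs_le]
    constructor <;> linarith [H.hlamb, lam_le H, a1.1, a1.2, a2.1, a2.2, a3.1, a3.2, a4.1, a4.2,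
      a5.1, a5.2]
  have hxne : x ≠ 0 := fun h => by rw [h, abs_zero] at hxa; linarith
  refine ⟨?_, ?_⟩
  · rw [pos01_mul (s₀_pos H)]
    refine pos01_if ((sign_add hxne hy).1.trans ?_)
    rw [hx]
    constructor
    · intro h
      by_contra hc
      push Not at hc
      have h' : D.a ≤ (w.1 : ℕ) + (s.1 : ℕ) := by omega
      have : (D.a : ℝ) ≤ (w.1 : ℕ) + (s.1 : ℕ) := by exact_mod_cast h'
      linarith
    · intro h
      have h' : (w.1 : ℕ) + (s.1 : ℕ) + 1 ≤ D.a := by omega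
      have : ((w.1 : ℕ) : ℝ) + (s.1 : ℕ) + 1 ≤ (D.a : ℝ) := by exact_mod_cast h'
      linarith
  · rw [abs_mul, abs_of_pos (s₀_pos H)]
    exact mul_le_mul_of_nonneg_left (by linarith [(sign_add hxne hy).2]) (s₀_pos H).le

/-- Sign over a balancing line. -/
lemma sign_R (d : Bool) (k : Fin D.a) (w : D.Win) (v : D.X.V) :
    pos01 (D.unit.toCfg.val (Sum.inr (Sum.inr (Sum.inr (Sum.inr (d, k))))) (w, v))
      = (if (cond d ((w.1 : ℕ) ≤ (k : ℕ)) ((k : ℕ) < (w.1 : ℕ)) : Prop) then 1 else 0)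
    ∧ D.s₀ * (D.κ / 8) ≤
        |D.unit.toCfg.val (Sum.inr (Sum.inr (Sum.inr (Sum.inr (d, k))))) (w, v)| := by
  have hw := win_small H w
  have hκ := κ_pos H
  have small : ∀ t : ℝ, |t| ≤ 1 → |D.ν * ((w.2 : ℕ) : ℝ) + t * (D.κ * D.lam * ((w.2 : ℕ) : ℝ))
      + (D.ν * (D.q * (D.X.y v - D.X.x v))
        - t * D.κ * (D.ρ * D.X.x v - D.lam * (D.q * (D.X.y v - D.X.x v))))| ≤ D.κ / 4 := by
    intro t ht
    refine le_trans (abs_add_three _ _ _) ?_
    have t1 : |D.ν * ((w.2 : ℕ) : ℝ)| ≤ D.κ / 16 := by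
      rw [abs_mul, abs_of_pos H.νpos, abs_of_nonneg hw.2]
      have := mul_le_mul_of_nonneg_left (by linarith : ((w.2 : ℕ) : ℝ) ≤ D.b) H.νpos.le
      unfold κ; linarith
    have t2 : |t * (D.κ * D.lam * ((w.2 : ℕ) : ℝ))| ≤ D.κ / 16 := by
      rw [abs_mul, abs_of_nonneg (by have := H.lampos; positivity :
        0 ≤ D.κ * D.lam * ((w.2 : ℕ) : ℝ))]
      refine le_trans (mul_le_of_le_one_left (by have := H.lampos; positivity) ht) ?_
      have := mul_le_mul_of_nonneg_left (by linarith : ((w.2 : ℕ) : ℝ) ≤ D.b)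
        (mul_pos hκ H.lampos).le
      have := mul_le_mul_of_nonneg_left H.hlamb hκ.le
      linarith
    have t3 : |D.ν * (D.q * (D.X.y v - D.X.x v))| ≤ D.κ / 32 := by
      rw [abs_mul, abs_of_pos H.νpos]
      have := mul_le_mul_of_nonneg_left (by linarith [qd_le H v, lam_le H] :
        |D.q * (D.X.y v - D.X.x v)| ≤ 1 / 4) H.νpos.le
      have := mul_le_mul_of_nonneg_left (b1r H) H.νpos.le
      unfold κ; linarith [H.νpos]
    have t4 : |t * D.κ * (D.ρ * D.X.x v - D.lam * (D.q * (D.X.y v - D.X.x v)))| ≤ D.κ / 32 := by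
      rw [abs_mul, abs_mul t, abs_of_pos hκ]
      have h1 : |D.ρ * D.X.x v - D.lam * (D.q * (D.X.y v - D.X.x v))| ≤ 1 / 32 := by
        refine le_trans (abs_sub _ _) ?_
        rw [abs_mul D.lam, abs_of_pos H.lampos]
        have := mul_le_mul (lam_le H) (qd_le H v) (abs_nonneg _) (by norm_num)
        linarith [ρx_le H v, lam_le H]
      have := mul_le_mul (mul_le_of_le_one_left hκ.le ht) h1 (abs_nonneg _) hκ.le
      linarith
    linarith [abs_sub (D.ν * (D.q * (D.X.y v - D.X.x v)))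
      (t * D.κ * (D.ρ * D.X.x v - D.lam * (D.q * (D.X.y v - D.X.x v))))]
  cases d with
  | true =>
    have e : D.unit.toCfg.val (Sum.inr (Sum.inr (Sum.inr (Sum.inr (true, k))))) (w, v)
        = D.s₀ * (D.κ * (((k : ℕ) : ℝ) - (w.1 : ℕ) + 1 / 2)
          + (D.ν * ((w.2 : ℕ) : ℝ) + 1 * (D.κ * D.lam * ((w.2 : ℕ) : ℝ))
          + (D.ν * (D.q * (D.X.y v - D.X.x v))
            - 1 * D.κ * (D.ρ * D.X.x v - D.lam * (D.q * (D.X.y v - D.X.x v)))))) := by
      show D.unit.y (w, v) - (D.κ * (1 + D.sh) + D.sh) * D.unit.x (w, v)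
        - D.s₀ * (D.K * (1 + D.κ) - D.κ * (((k : ℕ) : ℝ) + 1 / 2)) = _
      rw [unshift H]; simp only [Y₀, X₀]; ring
    rw [e]
    set x := D.κ * (((k : ℕ) : ℝ) - (w.1 : ℕ) + 1 / 2) with hx
    have hxa : D.κ / 2 ≤ |x| := by
      have := @int_half (((k : ℕ) : ℤ) - (w.1 : ℕ) + 1)
      push_cast at this
      rw [hx, abs_mul, abs_of_pos hκ]
      rw [show ((k : ℕ) : ℝ) - (w.1 : ℕ) + 1 - 1 / 2 = ((k : ℕ) : ℝ) - (w.1 : ℕ) + 1 / 2 by
        ring] at this
      have := mul_le_mul_of_nonneg_left this hκ.le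
      linarith
    have hy := le_trans (small 1 (by simp)) (by linarith : D.κ / 4 ≤ |x| / 2)
    have hxne : x ≠ 0 := fun h => by rw [h, abs_zero] at hxa; linarith
    refine ⟨?_, ?_⟩
    · rw [pos01_mul (s₀_pos H)]
      refine pos01_if ((sign_add hxne hy).1.trans ?_)
      rw [hx, mul_pos_iff_of_pos_left hκ]
      show _ ↔ (w.1 : ℕ) ≤ (k : ℕ)
      constructor
      · intro h
        by_contra hc
        push Not at hc
        have : ((k : ℕ) : ℝ) + 1 ≤ (w.1 : ℕ) := by exact_mod_cast hc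
        linarith
      · intro h
        have : ((w.1 : ℕ) : ℝ) ≤ (k : ℕ) := by exact_mod_cast h
        linarith
    · rw [abs_mul, abs_of_pos (s₀_pos H)]
      exact mul_le_mul_of_nonneg_left (by linarith [(sign_add hxne hy).2]) (s₀_pos H).le
  | false =>
    have e : D.unit.toCfg.val (Sum.inr (Sum.inr (Sum.inr (Sum.inr (false, k))))) (w, v)
        = D.s₀ * (D.κ * (((w.1 : ℕ) : ℝ) - (k : ℕ) - 1 / 2)
          + (D.ν * ((w.2 : ℕ) : ℝ) + (-1) * (D.κ * D.lam * ((w.2 : ℕ) : ℝ))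
          + (D.ν * (D.q * (D.X.y v - D.X.x v))
            - (-1) * D.κ * (D.ρ * D.X.x v - D.lam * (D.q * (D.X.y v - D.X.x v)))))) := by
      show D.unit.y (w, v) - (-D.κ * (1 + D.sh) + D.sh) * D.unit.x (w, v)
        - D.s₀ * (D.K * (1 - D.κ) + D.κ * (((k : ℕ) : ℝ) + 1 / 2)) = _
      rw [unshift H]; simp only [Y₀, X₀]; ring
    rw [e]
    set x := D.κ * (((w.1 : ℕ) : ℝ) - (k : ℕ) - 1 / 2) with hx
    have hxa : D.κ / 2 ≤ |x| := by
      have := @int_half (((w.1 : ℕ) : ℤ) - (k : ℕ))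
      push_cast at this
      rw [hx, abs_mul, abs_of_pos hκ]
      have := mul_le_mul_of_nonneg_left this hκ.le
      linarith
    have hy := le_trans (small (-1) (by simp)) (by linarith : D.κ / 4 ≤ |x| / 2)
    have hxne : x ≠ 0 := fun h => by rw [h, abs_zero] at hxa; linarith
    refine ⟨?_, ?_⟩
    · rw [pos01_mul (s₀_pos H)]
      refine pos01_if ((sign_add hxne hy).1.trans ?_)
      rw [hx, mul_pos_iff_of_pos_left hκ]
      show _ ↔ (k : ℕ) < (w.1 : ℕ)
      constructor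
      · intro h
        by_contra hc
        push Not at hc
        have : ((w.1 : ℕ) : ℝ) ≤ (k : ℕ) := by exact_mod_cast hc
        linarith
      · intro h
        have : ((k : ℕ) : ℝ) + 1 ≤ (w.1 : ℕ) := by exact_mod_cast h
        linarith
    · rw [abs_mul, abs_of_pos (s₀_pos H)]
      exact mul_le_mul_of_nonneg_left (by linarith [(sign_add hxne hy).2]) (s₀_pos H).le

/-- The linear form governing two marked points seen from a midline. -/
noncomputable def form (D : UData) (u v : D.X.V) (w' w : D.Win) : ℝ :=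
  (2 + D.lam * (2 * (D.bpen u : ℕ))) * (2 * ((D.cls (D.bpen u) w : ℝ) - D.cls (D.bpen u) w'
      + D.q * D.X.pval u v))
    - 4 * D.lam * ((D.hb (D.X.la u) : ℝ) - D.hb (D.X.lb u)) ^ 2
      * (((w.1 : ℕ) : ℝ) - (w'.1 : ℕ) + D.ρ * (D.X.x v - D.X.x u))

/-- Unshifted horizontal distance of two marked points. -/
noncomputable def dX₀ (D : UData) (u v : D.X.V) (w' w : D.Win) : ℝ :=
  D.X₀ (w, v) - D.X₀ (w', u)

/-- The denominator at a midline. -/
noncomputable def qd (D : UData) (u : D.X.V) : ℝ :=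
  (1 + D.lam * (D.bet (D.X.la u) : ℕ)) * (1 + D.lam * (D.bet (D.X.lb u) : ℕ))

lemma qd_bd (u : D.X.V) : 1 ≤ D.qd u ∧ D.qd u ≤ 4 := by
  have d1 := den H (D.bet (D.X.la u))
  have d2 := den H (D.bet (D.X.lb u))
  have d1' := den_le H _ (bet_le H (D.X.la u))
  have d2' := den_le H _ (bet_le H (D.X.lb u))
  refine ⟨one_le_mul_of_one_le_of_one_le d1 d2, ?_⟩
  have := mul_le_mul d1' d2' (by linarith) zero_le_two
  unfold qd; linarith

/-- Height of a marked point over the midline of another. -/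
lemma pval_form (u v : D.X.V) (w' w : D.Win) :
    D.unit.toCfg.pval (w', u) (w, v) = D.s₀ * (D.ν / (4 * D.qd u)) * D.form u v w' w := by
  have d1 := den H (D.bet (D.X.la u))
  have d2 := den H (D.bet (D.X.lb u))
  have hT := T0r H
  set tm := (D.tau (D.bet (D.X.la u)) + D.tau (D.bet (D.X.lb u))) / 2 with htm
  have hmid : D.unit.toCfg.mid (w', u) = tm * (1 + D.sh) + D.sh := by
    simp [Cfg.mid, htm]; ring
  have e0 : D.unit.toCfg.pval (w', u) (w, v)
      = D.s₀ * ((D.Y₀ (w, v) - D.Y₀ (w', u)) - tm * (D.X₀ (w, v) - D.X₀ (w', u))) := by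
    unfold Cfg.pval
    rw [hmid]
    linear_combination unshift H tm (w, v) - unshift H tm (w', u)
  rw [e0]
  set di := ((w.1 : ℕ) : ℝ) - (w'.1 : ℕ) + D.ρ * (D.X.x v - D.X.x u) with hdi
  set dj := ((w.2 : ℕ) : ℝ) - (w'.2 : ℕ)
    + D.q * ((D.X.y v - D.X.x v) - (D.X.y u - D.X.x u)) with hdj
  have e1 : (D.Y₀ (w, v) - D.Y₀ (w', u)) - tm * (D.X₀ (w, v) - D.X₀ (w', u))
      = D.ν * dj - tm * (di - D.lam * dj) := by
    simp only [hdi, hdj, Y₀, X₀]; ring
  have e2 := lattice_mid D.ν D.lam (D.bet (D.X.la u) : ℕ) (D.bet (D.X.lb u) : ℕ) _ _ di dj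
    (show D.tau (D.bet (D.X.la u)) * (1 + D.lam * (D.bet (D.X.la u) : ℕ)) = _ from
      div_mul_cancel₀ _ (ne_of_gt (by linarith)))
    (show D.tau (D.bet (D.X.lb u)) * (1 + D.lam * (D.bet (D.X.lb u) : ℕ)) = _ from
      div_mul_cancel₀ _ (ne_of_gt (by linarith)))
  have e3 : D.form u v w' w = (2 + D.lam * ((D.bet (D.X.la u) : ℝ) + (D.bet (D.X.lb u) : ℝ)))
        * (2 * dj + ((D.bet (D.X.la u) : ℝ) + (D.bet (D.X.lb u) : ℝ)) * di)
      + D.lam * (4 * ((D.bet (D.X.la u) : ℝ) * (D.bet (D.X.lb u) : ℝ))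
        - ((D.bet (D.X.la u) : ℝ) + (D.bet (D.X.lb u) : ℝ)) ^ 2) * di := by
    unfold form Cfg.pval
    rw [midX H, hdi, hdj]
    unfold bet cls bpen q
    push_cast
    field_simp
    ring
  have hq : 0 < D.qd u := by linarith [(qd_bd H u).1]
  rw [e1, e3, htm, mul_assoc D.s₀]
  congr 1
  conv_rhs => rw [div_mul_eq_mul_div]
  rw [eq_div_iff (by linarith : (4 : ℝ) * D.qd u ≠ 0)]
  unfold qd
  linear_combination e2

lemma bet_ne (u : D.X.V) : D.hb (D.X.la u) ≠ D.hb (D.X.lb u) := by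
  intro h
  have h1 := H.good.hw_pos u
  simp only [Cfg.hw, H.grid, bet, h] at h1
  linarith

lemma gap (u : D.X.V) : (1 : ℝ) ≤ |(D.hb (D.X.la u) : ℝ) - D.hb (D.X.lb u)| ∧
    4 * |(D.hb (D.X.la u) : ℝ) - D.hb (D.X.lb u)| = D.T * D.X.hw u ∧
    4 * |(D.hb (D.X.la u) : ℝ) - D.hb (D.X.lb u)| ≤ D.Hh := by
  have hT := T0r H
  have hz : ((D.hb (D.X.la u) : ℤ) - D.hb (D.X.lb u)) ≠ 0 :=
    sub_ne_zero.mpr (by exact_mod_cast bet_ne H u)
  have h1 : (1 : ℝ) ≤ |(D.hb (D.X.la u) : ℝ) - D.hb (D.X.lb u)| := by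
    have := Int.one_le_abs hz
    have h2 : ((1 : ℤ) : ℝ) ≤ ((|(D.hb (D.X.la u) : ℤ) - D.hb (D.X.lb u)| : ℤ) : ℝ) := by
      exact_mod_cast this
    push_cast at h2
    exact h2
  have e : (D.T : ℝ) * D.X.hw u = 4 * ((D.hb (D.X.la u) : ℝ) - D.hb (D.X.lb u)) := by
    simp only [Cfg.hw, H.grid, bet, Nat.cast_mul, Nat.cast_ofNat]
    field_simp
    ring
  have hp : 0 < (D.hb (D.X.la u) : ℝ) - D.hb (D.X.lb u) := by
    have := mul_pos hT (H.good.hw_pos u); linarith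
  rw [abs_of_pos hp] at h1 ⊢
  exact ⟨h1, e.symm, by linarith [H.hH u]⟩

lemma curve_le (u v : D.X.V) (w' w : D.Win) :
    |4 * D.lam * ((D.hb (D.X.la u) : ℝ) - D.hb (D.X.lb u)) ^ 2
      * (((w.1 : ℕ) : ℝ) - (w'.1 : ℕ) + D.ρ * (D.X.x v - D.X.x u))| ≤ 1 / 4 := by
  obtain ⟨-, -, g3⟩ := gap H u
  have hi : |((w.1 : ℕ) : ℝ) - (w'.1 : ℕ) + D.ρ * (D.X.x v - D.X.x u)| ≤ 2 * D.a := by
    have h1 : ((w.1 : ℕ) : ℝ) + 1 ≤ D.a := by exact_mod_cast w.1.2
    have h2 : ((w'.1 : ℕ) : ℝ) + 1 ≤ D.a := by exact_mod_cast w'.1.2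
    have a1 := abs_le.mp (ρx_le H v)
    have a2 := abs_le.mp (ρx_le H u)
    rw [mul_sub, abs_le]
    constructor <;> linarith [lam_le H, Nat.cast_nonneg (α := ℝ) (w.1 : ℕ),
      Nat.cast_nonneg (α := ℝ) (w'.1 : ℕ), a1.1, a1.2, a2.1, a2.2]
  have hl := H.lampos
  rw [abs_mul, abs_mul, abs_of_pos (by linarith : 0 < 4 * D.lam), abs_pow]
  have hsq := pow_le_pow_left₀ (abs_nonneg ((D.hb (D.X.la u) : ℝ) - D.hb (D.X.lb u)))
    (by linarith : |(D.hb (D.X.la u) : ℝ) - D.hb (D.X.lb u)| ≤ D.Hh / 4) 2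
  have := mul_le_mul (mul_le_mul_of_nonneg_left hsq (by linarith : 0 ≤ 4 * D.lam)) hi
    (abs_nonneg _) (by positivity)
  linarith [H.hlamH]

/-- Two windows seen from a midline. -/
lemma form_diff (u v : D.X.V) (w' w : D.Win)
    (hne : D.cls (D.bpen u) w' ≠ D.cls (D.bpen u) w) :
    (0 < D.form u v w' w ↔ D.cls (D.bpen u) w' < D.cls (D.bpen u) w) ∧
      1 ≤ |D.form u v w' w| := by
  have hy := abs_le.mp (curve_le H u v w' w)
  have hq : |D.q * D.X.pval u v| ≤ 1 / 4 := by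
    rw [abs_mul, abs_of_pos (q_pos H)]
    have := mul_le_mul (q_le H) (xpval_le H u v) (abs_nonneg _) (by linarith [H.lampos])
    linarith [lam_le H]
  obtain ⟨hiff, habs⟩ := nat_sign hne hq
  set x := (D.cls (D.bpen u) w : ℝ) - D.cls (D.bpen u) w' + D.q * D.X.pval u v with hx
  have hS : 0 ≤ D.lam * (2 * (D.bpen u : ℕ)) := by have := H.lampos; positivity
  set S := D.lam * (2 * (D.bpen u : ℕ))
  have ef : D.form u v w' w = (2 + S) * (2 * x) - 4 * D.lam
      * ((D.hb (D.X.la u) : ℝ) - D.hb (D.X.lb u)) ^ 2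
      * (((w.1 : ℕ) : ℝ) - (w'.1 : ℕ) + D.ρ * (D.X.x v - D.X.x u)) := rfl
  rcases lt_or_ge 0 x with hx0 | hx0
  · rw [abs_of_pos hx0] at habs
    have := mul_nonneg hS hx0.le
    have hp : 1 ≤ D.form u v w' w := by rw [ef]; linarith [hy.2]
    exact ⟨iff_of_true (by linarith) (hiff.mp hx0), by rw [abs_of_pos (by linarith)]; exact hp⟩
  · rw [abs_of_nonpos hx0] at habs
    have := mul_nonpos_of_nonneg_of_nonpos hS hx0
    have hp : D.form u v w' w ≤ -1 := by rw [ef]; linarith [hy.1]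
    exact ⟨iff_of_false (by linarith) (fun h => not_lt.mpr hx0 (hiff.mpr h)),
      by rw [abs_of_neg (by linarith)]; linarith⟩

/-- Two windows of one midline class. -/
lemma form_tie (u v : D.X.V) (w' w : D.Win) (hne : w' ≠ w)
    (he : D.cls (D.bpen u) w' = D.cls (D.bpen u) w) :
    (0 < D.form u v w' w ↔ (w.1 : ℕ) < (w'.1 : ℕ)) ∧ D.lam ≤ |D.form u v w' w| ∧
      D.form u v w' w * D.dX₀ u v w' w ≤ 0 := by
  have hi : (w.1 : ℕ) ≠ (w'.1 : ℕ) := by
    intro hi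
    apply hne
    have hj : (w'.2 : ℕ) = (w.2 : ℕ) := by simp only [cls, hi] at he; omega
    exact Prod.ext (Fin.ext hi.symm) (Fin.ext hj)
  have hl := H.lampos
  obtain ⟨g1, -, -⟩ := gap H u
  set h2 := ((D.hb (D.X.la u) : ℝ) - D.hb (D.X.lb u)) ^ 2 with hh2
  have hh : 1 ≤ h2 := by rw [hh2, ← sq_abs]; exact one_le_pow₀ g1
  set Δi := ((w.1 : ℕ) : ℝ) - (w'.1 : ℕ) with hΔi
  set e := D.ρ * (D.X.x v - D.X.x u) with hedef
  have he' : |e| ≤ D.lam / 128 := by
    rw [hedef, mul_sub]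
    linarith [abs_sub (D.ρ * D.X.x v) (D.ρ * D.X.x u), ρx_le H v, ρx_le H u]
  have hq : |D.q * D.X.pval u v| ≤ D.lam / 256 := by
    rw [abs_mul, abs_of_pos (q_pos H)]
    have := mul_le_mul (q_le H) (xpval_le H u v) (abs_nonneg _) (by linarith [H.lampos])
    linarith
  set S := D.lam * (2 * (D.bpen u : ℕ)) with hSdef
  have hS : 0 ≤ S ∧ S ≤ 1 := by
    refine ⟨by rw [hSdef]; positivity, ?_⟩
    have : ((D.bpen u : ℕ) : ℝ) ≤ D.b := le_trans (by exact_mod_cast bpen_le H u) (Tb H)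
    have := mul_le_mul_of_nonneg_left this hl.le
    rw [hSdef]; linarith [H.hlamb]
  have ef : D.form u v w' w = (2 + S) * (2 * (D.q * D.X.pval u v))
      - 4 * D.lam * h2 * (Δi + e) := by
    simp only [form, he, sub_self, zero_add, hSdef, hh2, hΔi, hedef]
  have hp : |(2 + S) * (2 * (D.q * D.X.pval u v))| ≤ D.lam / 32 := by
    rw [abs_mul, abs_of_pos (by linarith : 0 < 2 + S), abs_mul, abs_two]
    have := mul_le_mul (by linarith : 2 + S ≤ 3)
      (mul_le_mul_of_nonneg_left hq zero_le_two) (by positivity) (by norm_num)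
    linarith
  have hp' := abs_le.mp hp
  have he'' := abs_le.mp he'
  have hc : D.dX₀ u v w' w = Δi * (1 + D.lam * (D.bpen u : ℕ))
      + (e - D.lam * (D.q * ((D.X.y v - D.X.x v) - (D.X.y u - D.X.x u)))) := by
    have hj : ((w'.2 : ℕ) : ℝ) + (D.bpen u : ℕ) * ((w'.1 : ℕ) : ℝ)
        = ((w.2 : ℕ) : ℝ) + (D.bpen u : ℕ) * ((w.1 : ℕ) : ℝ) := by
      simp only [cls] at he; exact_mod_cast he
    simp only [dX₀, X₀, hΔi, hedef]
    linear_combination D.lam * hj
  have hsm : |e - D.lam * (D.q * ((D.X.y v - D.X.x v) - (D.X.y u - D.X.x u)))| ≤ 1 / 4 := by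
    refine le_trans (abs_sub _ _) ?_
    rw [abs_mul D.lam, abs_of_pos hl, mul_sub]
    have := abs_sub (D.q * (D.X.y v - D.X.x v)) (D.q * (D.X.y u - D.X.x u))
    have := mul_le_of_le_one_right hl.le (by linarith [qd_le H v, qd_le H u, lam_le H] :
      |D.q * (D.X.y v - D.X.x v) - D.q * (D.X.y u - D.X.x u)| ≤ 1)
    linarith [lam_le H]
  have hsm' := abs_le.mp hsm
  have hd1 := den H (D.bpen u)
  have hlh : D.lam ≤ D.lam * h2 := le_mul_of_one_le_right hl.le hh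
  rcases Nat.lt_or_gt_of_ne hi with h | h
  · have h1 : Δi ≤ -1 := by
      have : ((w.1 : ℕ) : ℝ) + 1 ≤ (w'.1 : ℕ) := by exact_mod_cast h
      rw [hΔi]; linarith
    have hA : Δi + e ≤ -1 / 2 := by linarith [he''.2, lam_le H]
    have := mul_le_mul_of_nonneg_left hA (by linarith : 0 ≤ 4 * D.lam * h2)
    have hpos : D.lam ≤ D.form u v w' w := by rw [ef]; linarith [hp'.1]
    have hneg : D.dX₀ u v w' w ≤ 0 := by
      rw [hc]
      have := mul_le_mul_of_nonpos_left hd1 (by linarith : Δi ≤ 0)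
      linarith [hsm'.2]
    exact ⟨iff_of_true (by linarith) h, by rw [abs_of_pos (by linarith)]; exact hpos,
      mul_nonpos_of_nonneg_of_nonpos (by linarith) hneg⟩
  · have h1 : 1 ≤ Δi := by
      have : ((w'.1 : ℕ) : ℝ) + 1 ≤ (w.1 : ℕ) := by exact_mod_cast h
      rw [hΔi]; linarith
    have hA : 1 / 2 ≤ Δi + e := by linarith [he''.1, lam_le H]
    have := mul_le_mul_of_nonneg_left hA (by linarith : 0 ≤ 4 * D.lam * h2)
    have hneg : D.form u v w' w ≤ -D.lam := by rw [ef]; linarith [hp'.2]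
    have hpos : 0 ≤ D.dX₀ u v w' w := by
      rw [hc]
      have := le_mul_of_one_le_right (by linarith : 0 ≤ Δi) hd1
      linarith [hsm'.1]
    exact ⟨iff_of_false (by linarith) (by omega), by rw [abs_of_neg (by linarith)]; linarith,
      mul_nonpos_of_nonpos_of_nonneg (by linarith) hpos⟩

/-- Two marked points of one window. -/
lemma form_same (u v : D.X.V) (w : D.Win) (huv : u ≠ v) :
    (0 < D.form u v w w ↔ 0 < D.X.pval u v) ∧ 2 * D.q * |D.X.pval u v| ≤ |D.form u v w w| ∧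
      (D.σ * D.X.hw u * |D.X.x v - D.X.x u| ≤ |D.X.pval u v| ∨
        D.form u v w w * D.dX₀ u v w w ≤ 0) := by
  set p := D.X.pval u v with hpdef
  set dx := D.X.x v - D.X.x u with hdx
  have hne : p ≠ 0 := fun h => by
    have := H.good.pval_lb u v huv; rw [← hpdef, h, abs_zero] at this
    linarith [H.good.ζpos]
  have hl := H.lampos
  have hq := q_pos H
  obtain ⟨g1, g2, g3⟩ := gap H u
  set h := |(D.hb (D.X.la u) : ℝ) - D.hb (D.X.lb u)| with hh
  set S := D.lam * (2 * (D.bpen u : ℕ)) with hSdef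
  have hS : 0 ≤ S := by positivity
  have ef : D.form u v w w = (2 + S) * (2 * (D.q * p)) - 4 * D.lam * h ^ 2 * (D.ρ * dx) := by
    simp only [form, sub_self, zero_add, hSdef, hpdef, hdx, hh, sq_abs]
  have hc : D.dX₀ u v w w = D.ρ * dx * (1 + D.lam * (D.bpen u : ℕ)) - D.lam * (D.q * p) := by
    have hT := T0r H
    simp only [dX₀, X₀, hpdef, hdx, Cfg.pval, midX H, q]
    field_simp
    ring
  have hsep := H.good.sep u v huv
  have hcase : |4 * D.lam * h ^ 2 * (D.ρ * dx)| ≤ 2 * D.q * |p| ∨ p * dx ≤ 0 := by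
    rcases hsep with hs | hs
    · left
      have hcoef : 0 ≤ 4 * D.lam * h ^ 2 * D.ρ := by have := H.ρpos; positivity
      rw [show 4 * D.lam * h ^ 2 * (D.ρ * dx) = 4 * D.lam * h ^ 2 * D.ρ * dx by ring, abs_mul,
        abs_of_nonneg hcoef]
      have e : D.q * (D.σ * D.X.hw u * |dx|) = D.σ * (D.ρ * (h * |dx|)) := by
        unfold q; linear_combination (-(D.ρ * D.σ * |dx|) / 4) * g2
      have := mul_le_mul_of_nonneg_left hs hq.le
      have h3 : 4 * D.lam * h * D.ρ * (h * |dx|) ≤ 2 * D.σ * (D.ρ * (h * |dx|)) := by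
        have : 4 * D.lam * h ≤ 2 * D.σ := by
          have := mul_le_mul_of_nonneg_left g3 hl.le
          linarith [H.hlamσ, H.good.σpos]
        have := mul_le_mul_of_nonneg_right this
          (mul_nonneg H.ρpos.le (mul_nonneg (by linarith : 0 ≤ h) (abs_nonneg dx)))
        linarith
      linarith
    · exact Or.inr hs
  have main : (0 < D.form u v w w ↔ 0 < p) ∧ 2 * D.q * |p| ≤ |D.form u v w w| := by
    rcases lt_or_gt_of_ne hne with hp | hp
    · have h1 : D.form u v w w ≤ 2 * D.q * p := by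
        rw [ef]
        have := mul_nonpos_of_nonneg_of_nonpos hS (mul_nonpos_of_nonneg_of_nonpos hq.le hp.le)
        rcases hcase with hc' | hc'
        · rw [abs_of_neg hp] at hc'; linarith [(abs_le.mp hc').1]
        · have : 0 ≤ dx := by
            by_contra hd; push Not at hd
            linarith [mul_pos_of_neg_of_neg hp hd]
          have : 0 ≤ 4 * D.lam * h ^ 2 * (D.ρ * dx) := by have := H.ρpos; positivity
          linarith [mul_neg_of_pos_of_neg hq hp]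
      have : D.form u v w w < 0 := by linarith [mul_neg_of_pos_of_neg hq hp]
      exact ⟨iff_of_false (by linarith) (by linarith),
        by rw [abs_of_neg hp, abs_of_neg this]; linarith⟩
    · have h1 : 2 * D.q * p ≤ D.form u v w w := by
        rw [ef]
        have := mul_nonneg hS (mul_nonneg hq.le hp.le)
        rcases hcase with hc' | hc'
        · rw [abs_of_pos hp] at hc'; linarith [(abs_le.mp hc').2]
        · have : dx ≤ 0 := by
            by_contra hd; push Not at hd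
            linarith [mul_pos hp hd]
          have : 4 * D.lam * h ^ 2 * (D.ρ * dx) ≤ 0 := mul_nonpos_of_nonneg_of_nonpos
            (by positivity) (mul_nonpos_of_nonneg_of_nonpos H.ρpos.le this)
          linarith [mul_pos hq hp]
      have : 0 < D.form u v w w := by linarith [mul_pos hq hp]
      exact ⟨iff_of_true this hp, by rw [abs_of_pos hp, abs_of_pos this]; linarith⟩
  refine ⟨main.1, main.2, hsep.imp id fun hs => ?_⟩
  rw [hc]
  have hd1 := den H (D.bpen u)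
  rcases lt_or_gt_of_ne hne with hp | hp
  · have hdx0 : 0 ≤ dx := by
      by_contra hd; push Not at hd
      linarith [mul_pos_of_neg_of_neg hp hd]
    refine mul_nonpos_of_nonpos_of_nonneg ?_ ?_
    · by_contra hf; push Not at hf
      linarith [main.1.mp hf]
    · have := mul_nonneg (mul_nonneg H.ρpos.le hdx0) (by linarith : 0 ≤ 1 + D.lam * (D.bpen u : ℕ))
      have := mul_nonpos_of_nonneg_of_nonpos hl.le (mul_nonpos_of_nonneg_of_nonpos hq.le hp.le)
      linarith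
  · have hdx0 : dx ≤ 0 := by
      by_contra hd; push Not at hd
      linarith [mul_pos hp hd]
    refine mul_nonpos_of_nonneg_of_nonpos (main.1.mpr hp).le ?_
    have := mul_nonpos_of_nonpos_of_nonneg (mul_nonpos_of_nonneg_of_nonpos H.ρpos.le hdx0)
      (by linarith : 0 ≤ 1 + D.lam * (D.bpen u : ℕ))
    have := mul_nonneg hl.le (mul_nonneg hq.le hp.le)
    linarith

lemma pscale (u : D.X.V) :
    0 < D.s₀ * (D.ν / (4 * D.qd u)) ∧ D.s₀ * (D.ν / 16) ≤ D.s₀ * (D.ν / (4 * D.qd u)) := by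
  obtain ⟨h1, h4⟩ := qd_bd H u
  exact ⟨mul_pos (s₀_pos H) (div_pos H.νpos (by linarith)), mul_le_mul_of_nonneg_left
    (div_le_div_of_nonneg_left H.νpos.le (by linarith) (by linarith)) (s₀_pos H).le⟩

/-- Order of two windows seen from a midline. -/
lemma sign_pval (u v : D.X.V) (w' w : D.Win) (hne : w' ≠ w) :
    pos01 (D.unit.toCfg.pval (w', u) (w, v))
      = (if D.cls (D.bpen u) w' < D.cls (D.bpen u) w ∨
          (D.cls (D.bpen u) w' = D.cls (D.bpen u) w ∧ (w.1 : ℕ) < (w'.1 : ℕ)) then 1 else 0)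
    ∧ D.s₀ * (D.ν * D.lam / 16) ≤ |D.unit.toCfg.pval (w', u) (w, v)| := by
  obtain ⟨hc, hc16⟩ := pscale H u
  rw [pval_form H]
  have key : (0 < D.form u v w' w ↔ (D.cls (D.bpen u) w' < D.cls (D.bpen u) w ∨
      (D.cls (D.bpen u) w' = D.cls (D.bpen u) w ∧ (w.1 : ℕ) < (w'.1 : ℕ)))) ∧
      D.lam ≤ |D.form u v w' w| := by
    by_cases he : D.cls (D.bpen u) w' = D.cls (D.bpen u) w
    · obtain ⟨h1, h2, -⟩ := form_tie H u v w' w hne he
      exact ⟨h1.trans (by simp [he]), h2⟩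
    · obtain ⟨h1, h2⟩ := form_diff H u v w' w he
      exact ⟨h1.trans (by simp [he]), by linarith [lam_le H]⟩
  refine ⟨?_, ?_⟩
  · rw [pos01_mul hc]; exact pos01_if key.1
  · rw [abs_mul, abs_of_pos hc]
    have := mul_le_mul hc16 key.2 H.lampos.le hc.le
    linarith

lemma pval_same (u v : D.X.V) (w : D.Win) :
    pos01 (D.unit.toCfg.pval (w, u) (w, v)) = pos01 (D.X.pval u v) := by
  by_cases huv : u = v
  · subst huv; simp [Cfg.pval_self]
  rw [pval_form H, pos01_mul (pscale H u).1]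
  simp only [pos01, (form_same H u v w huv).1]

end UData

end Vale.Agent.P065c
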