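import Vale.Agent.P065c.Levels

/-!
# Configurations of every large size: a unit with few rows and no rounding
-/

namespace Vale.Agent.P065c

open Finset Vale.Agent.P065

/-- Configurations of any sufficiently large size. -/
theorem exists_dense {X : Cfg} {F Z τ η S Q D : ℕ} (hX : Stat X F Z τ η S Q (D + 3)) (K : ℕ)
    (hK : 2 ^ (F + τ + 9) ≤ K) :
    ∃ C : Cfg, (∃ ζ σ, C.Good ζ σ) ∧ C.n ≤ K ∧ 2 ^ D * K ≤ 2 * C.m := by
  obtain ⟨hb, hgrid⟩ := exists_index hX.good hX.grid
  have hn := hX.one_le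
  set b := K / (16 * X.n) with hbdef
  have hbig : 2 ^ (τ + 5) ≤ b := by
    rw [hbdef, Nat.le_div_iff_mul_le (by omega)]
    refine le_trans ?_ hK
    calc 2 ^ (τ + 5) * (16 * X.n) ≤ 2 ^ (τ + 5) * (16 * 2 ^ F) := by gcongr; exact hX.hn
      _ = 2 ^ (F + τ + 9) := by ring
  have hb1 : 1 ≤ b := le_trans Nat.one_le_two_pow hbig
  set Hh : ℝ := 1 + 2 ^ (τ + 3) with hHh
  set σ : ℝ := hf ^ S with hσ
  have hσ0 : 0 < σ := pow_pos hf_pos _
  have hσ1 : σ ≤ 1 := pow_le_one₀ hf_pos.le hf_le_one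
  have hH1 : 1 ≤ Hh := le_add_of_nonneg_right (by positivity)
  have hbr : (1 : ℝ) ≤ b := by exact_mod_cast hb1
  set lam : ℝ := σ / (32 * b * Hh ^ 2) with hlam
  have hlam0 : 0 < lam := by positivity
  have hl : lam * (32 * b * Hh ^ 2) = σ := div_mul_cancel₀ _ (by positivity)
  have hl1 : lam ≤ 1 := by
    rw [hlam, div_le_one (by positivity)]
    refine hσ1.trans ?_
    have := one_le_pow₀ hH1 (n := 2)
    exact le_trans (by linarith) (le_mul_of_one_le_right (by positivity) this)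
  let D' : UData :=
    { X := X, hb := hb, a := 4, b := b, T := 2 ^ (τ + 3), ν := lam / (16384 * b),
      lam := lam, ρ := lam / (256 * 2 ^ (τ + 3)), ζ := hf ^ Z, σ := σ, Hh := Hh }
  have H : D'.Hyp := by
    refine ⟨hX.good, hgrid, by norm_num [D'], Nat.one_le_two_pow, ?_, by positivity, hlam0,
      by positivity, ?_, ?_, ?_, hH1, ?_, ?_, ?_, ?_⟩
    · show 2 ^ (τ + 3) * 4 ≤ b
      exact le_trans (le_of_eq (by ring)) hbig
    · show 2 * (lam / (16384 * b)) ≤ lam
      rw [← mul_div_assoc, div_le_iff₀ (by positivity), mul_comm 2 lam]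
      exact mul_le_mul_of_nonneg_left (by linarith) hlam0.le
    · show 32 * (lam * (b : ℝ)) ≤ 1
      refine le_trans ?_ hσ1
      rw [← hl]
      have := le_mul_of_one_le_right (by positivity : (0 : ℝ) ≤ lam * (32 * b))
        (one_le_pow₀ hH1 (n := 2))
      linarith
    · intro v
      show ((2 ^ (τ + 3) : ℕ) : ℝ) * X.hw v ≤ Hh
      push_cast
      have := mul_le_of_le_one_right (by positivity : (0 : ℝ) ≤ 2 ^ (τ + 3)) (hX.good.hw_le_one v)
      linarith
    · show 8 * (lam * Hh ^ 2 * ((4 : ℕ) : ℝ)) ≤ 1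
      refine le_trans ?_ hσ1
      rw [← hl]
      have := le_mul_of_one_le_right (by positivity : (0 : ℝ) ≤ lam * (32 * Hh ^ 2)) hbr
      push_cast; linarith
    · show 2 * (lam * Hh) ≤ σ
      rw [← hl]
      have h1 := mul_le_mul (mul_le_mul (show (2 : ℝ) ≤ 32 by norm_num) hbr (by norm_num)
        (by norm_num)) (le_self_pow₀ hH1 two_ne_zero) (by positivity) (by positivity)
      have h2 := mul_le_mul_of_nonneg_left h1 hlam0.le
      linarith
    · show 256 * (lam / (256 * 2 ^ (τ + 3)) * ((2 ^ (τ + 3) : ℕ) : ℝ)) ≤ lam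
      push_cast
      refine le_of_eq ?_
      field_simp
    · show 256 * (16 * (lam / (16384 * b)) * (b : ℝ) * ((4 : ℕ) : ℝ)) ≤ 1
      refine le_trans (le_of_eq ?_) hl1
      push_cast
      field_simp
      ring
  have hgood := UData.good H (σU := σ / (32 * Hh)) (by positivity)
    (by
      show 8 * (σ / (32 * Hh)) ≤ σ
      rw [← mul_div_assoc, div_le_iff₀ (by positivity), mul_comm 8 σ]
      exact mul_le_mul_of_nonneg_left (by linarith) hσ0.le)
    (by
      show 8 * (σ / (32 * Hh) * Hh * ((4 : ℕ) : ℝ)) ≤ 1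
      refine le_trans (le_of_eq ?_) hσ1
      push_cast
      field_simp
      ring)
  have hN := UData.NS_unit H
  have hE := UData.NE_unit H
  have hM := UData.m_unit H
  simp only [D'] at hN hE hM
  refine ⟨D'.unit.toCfg, ⟨_, _, hgood⟩, ?_, ?_⟩
  · have e : D'.unit.toCfg.n = D'.unit.NS + (D'.unit.NS + D'.unit.NE) := by
      simp only [Cfg.n, Gad.NS, Gad.NE, Gad.toCfg, Fintype.sum_sum_type, Sum.elim_inl,
        Sum.elim_inr]
    have := Nat.div_mul_le_self K (16 * X.n)
    rw [← hbdef] at this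
    rw [e]
    simp only [D']
    have h16 : b * (16 * X.n) = 16 * (b * X.n) := by ring
    have h4 : 4 * b * X.n = 4 * (b * X.n) := by ring
    have h3 : 3 * b * X.n = 3 * (b * X.n) := by ring
    omega
  · have h1 : K ≤ 32 * (b * X.n) := by
      have h3 : K < 16 * X.n * (b + 1) := by
        rw [mul_comm, hbdef]; exact (Nat.div_lt_iff_lt_mul (by omega)).mp (Nat.lt_succ_self _)
      calc K ≤ 16 * X.n * (b + 1) := h3.le
        _ ≤ 16 * X.n * (2 * b) := by gcongr; omega
        _ = _ := by ring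
    calc 2 ^ D * K ≤ 2 ^ D * (32 * (b * X.n)) := Nat.mul_le_mul_left _ h1
      _ = 4 * b * (2 ^ (D + 3) * X.n) := by ring
      _ ≤ 4 * b * (2 * X.m) := Nat.mul_le_mul_left _ hX.hG
      _ = 2 * D'.unit.m := by rw [hM]; ring
      _ = _ := rfl

end Vale.Agent.P065c
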