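import Vale.Agent.P065.Toth
import Vale.Agent.P065c.Dense

/-!
# A starting configuration: five iterated elementary steps, in slope coordinates
-/

namespace Vale.Agent.P065c

open Finset Filter Topology Vale.Agent.P065
open scoped Classical

/-- A combination with ratio in `[1/256, 256]` has the common sign. -/
lemma comb_pos {A B P ra rb : ℝ} (h1 : 0 < (256 * A + B) * P) (h2 : 0 < (A + 256 * B) * P)
    (ha : 0 < ra) (h3 : ra ≤ 64 * rb) (h4 : rb ≤ 64 * ra) : 0 < (ra * A + rb * B) * P := by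
  have e : 65535 * ((ra * A + rb * B) * P)
      = (256 * ra - rb) * ((256 * A + B) * P) + (256 * rb - ra) * ((A + 256 * B) * P) := by ring
  have p1 : 0 < 256 * ra - rb := by linarith
  have p2 : 0 < 256 * rb - ra := by linarith
  nlinarith [mul_pos p1 h1, mul_pos p2 h2]

/-- Slope of a functional. -/
noncomputable def fsl (φ : Aff) : ℝ := (φ.2.1 - φ.1) / (φ.1 + φ.2.1)

/-- A gadget in slope coordinates. -/
noncomputable abbrev ofGad (X : Vale.Agent.P065.Gad) (B : ℝ) : Cfg where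
  L := X.Ln
  V := X.V
  sl := fun l => fsl (X.lin l)
  ic := fun l => 2 * (X.lin l).2.2 / ((X.lin l).1 + (X.lin l).2.1) / B
  c := X.c
  w := X.w
  x := fun v => ((X.pt v).1 - (X.pt v).2) / B
  y := fun v => ((X.pt v).1 + (X.pt v).2) / B
  la := fun v => if fsl (X.lin (X.la v)) < fsl (X.lin (X.lb v)) then X.la v else X.lb v
  lb := fun v => if fsl (X.lin (X.la v)) < fsl (X.lin (X.lb v)) then X.lb v else X.la v

/-- The starting configuration. -/
theorem exists_base : ∃ (C : Cfg) (A F Z τ η S Q : ℕ),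
    F ≤ A ∧ Z ≤ A ∧ τ ≤ A ∧ Q + 8 ≤ A ∧ Stat C F Z τ η S Q (1 + 3) := by
  obtain ⟨X, hX, hsep⟩ := exists_block 32 5 256 (by norm_num)
  have hok := hX.ok
  -- coefficient sums
  have hs : ∀ l, (1 : ℝ) ≤ (X.lin l).1 + (X.lin l).2.1 ∧
      (X.lin l).1 + (X.lin l).2.1 ≤ 64 := by
    intro l
    obtain ⟨α, β, e1, e2, h1, h2⟩ := hX.hint l
    have hpos : 0 < (X.lin l).1 + (X.lin l).2.1 := by
      rcases l with s | s | e
      · simp [Gad.lin]
      · simp [Gad.lin]
      · exact add_pos (hok.epos e).1 (hok.epos e).2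
    rw [e1, e2] at hpos ⊢
    norm_num at h1 h2
    constructor
    · have : 0 < α + β := by exact_mod_cast hpos
      exact_mod_cast this
    · have : α + β ≤ 64 := by omega
      exact_mod_cast this
  have hs0 : ∀ l, (0 : ℝ) < (X.lin l).1 + (X.lin l).2.1 := fun l => by linarith [(hs l).1]
  set B : ℝ := 2 * (1 + (∑ v, (|(X.pt v).1| + |(X.pt v).2|))
    + ∑ l, |2 * (X.lin l).2.2 / ((X.lin l).1 + (X.lin l).2.1)|) with hB
  have hB1 : 1 ≤ B := by
    rw [hB]
    have h1 : (0 : ℝ) ≤ ∑ v, (|(X.pt v).1| + |(X.pt v).2|) := by positivity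
    have h2 : (0 : ℝ) ≤ ∑ l, |2 * (X.lin l).2.2 / ((X.lin l).1 + (X.lin l).2.1)| := by positivity
    linarith
  have hB0 : 0 < B := by linarith
  set C := ofGad X B with hC
  have hval : ∀ (l : X.Ln) (v : X.V), (ofGad X B).val l v
      = 2 / (((X.lin l).1 + (X.lin l).2.1) * B) * ev (X.lin l) (X.pt v) := by
    intro l v
    have := (hs0 l).ne'
    simp only [Cfg.val, fsl, ev]
    field_simp
    ring
  have hord : ∀ v, ((ofGad X B).la v = X.la v ∧ (ofGad X B).lb v = X.lb v) ∨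
      ((ofGad X B).la v = X.lb v ∧ (ofGad X B).lb v = X.la v) := by
    intro v
    simp only
    split_ifs
    · exact Or.inl ⟨rfl, rfl⟩
    · exact Or.inr ⟨rfl, rfl⟩
  have hslne : ∀ v, fsl (X.lin (X.la v)) ≠ fsl (X.lin (X.lb v)) := by
    intro v h
    apply hok.det_ne v
    rw [fsl, fsl, div_eq_div_iff (hs0 _).ne' (hs0 _).ne'] at h
    unfold Gad.det
    linarith
  have hhw : ∀ v, 0 < (ofGad X B).hw v := by
    intro v
    have hne := hslne v
    simp only [Cfg.hw]
    split_ifs with h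
    · linarith
    · have := lt_of_le_of_ne (not_lt.mp h) (fun e => hne e.symm)
      linarith
  have za : ∀ v, (ofGad X B).val ((ofGad X B).la v) v = 0 := by
    intro v
    rcases hord v with ⟨e, -⟩ | ⟨e, -⟩ <;> rw [e, hval] <;> simp [hok.za, hok.zb]
  have zb : ∀ v, (ofGad X B).val ((ofGad X B).lb v) v = 0 := by
    intro v
    rcases hord v with ⟨-, e⟩ | ⟨-, e⟩ <;> rw [e, hval] <;> simp [hok.za, hok.zb]
  have hpv : ∀ u v, (ofGad X B).pval u v
      = ((ofGad X B).val (X.la u) v + (ofGad X B).val (X.lb u) v) / 2 := by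
    intro u v
    have a := za u
    have b := zb u
    rcases hord u with ⟨e1, e2⟩ | ⟨e1, e2⟩ <;> rw [e1] at a <;> rw [e2] at b <;>
      simp only [Cfg.pval, Cfg.mid, Cfg.val] at * <;> rw [e1, e2] <;> linarith
  have hcomb : ∀ u v, u ≠ v → 0 < (ofGad X B).pval u v * ev (X.pen u) (X.pt v) := by
    intro u v huv
    obtain ⟨h1, h2⟩ := hsep u v huv
    simp only [ev_add, ev_smul] at h1 h2
    have hb := hs (X.la u)
    have hc := hs (X.lb u)
    have sa0 := hs0 (X.la u)
    have sb0 := hs0 (X.lb u)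
    have bound : ∀ s t : ℝ, 0 < s → 0 < t → t ≤ 64 → 1 ≤ s →
        1 / (s * B) ≤ 64 * (1 / (t * B)) := by
      intro s t hs ht ht64 hs1
      rw [mul_one_div, div_le_div_iff₀ (mul_pos hs hB0) (mul_pos ht hB0)]
      have := mul_le_mul_of_nonneg_right (by linarith : t ≤ 64 * s) hB0.le
      linarith
    have := comb_pos (ra := 1 / (((X.lin (X.la u)).1 + (X.lin (X.la u)).2.1) * B))
      (rb := 1 / (((X.lin (X.lb u)).1 + (X.lin (X.lb u)).2.1) * B)) h1 h2
      (by positivity) (bound _ _ sa0 sb0 hc.2 hb.1) (bound _ _ sb0 sa0 hb.2 hc.1)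
    rw [hpv, hval, hval]
    refine lt_of_lt_of_eq this ?_
    ring
  have hl0 : ∀ v l, l ≠ (ofGad X B).la v → l ≠ (ofGad X B).lb v →
      0 < |(ofGad X B).val l v| := by
    intro v l h1 h2
    rw [abs_pos, hval]
    refine mul_ne_zero (div_ne_zero two_ne_zero (mul_ne_zero (hs0 l).ne' hB0.ne'))
      (hok.nz v l ?_ ?_) <;> rcases hord v with ⟨e1, e2⟩ | ⟨e1, e2⟩
    · exact fun h => h1 (h.trans e1.symm)
    · exact fun h => h2 (h.trans e2.symm)
    · exact fun h => h2 (h.trans e2.symm)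
    · exact fun h => h1 (h.trans e1.symm)
  have ev1 : ∀ (a c : ℝ), 0 < c → ∀ᶠ Z in atTop, hf ^ Z * a ≤ c := by
    intro a c hc
    have ht : Tendsto (fun Z : ℕ => hf ^ Z * a) atTop (𝓝 0) := by
      simpa using (tendsto_pow_atTop_nhds_zero_of_lt_one hf_pos.le
        (by norm_num [hf] : hf < 1)).mul_const a
    exact (ht.eventually_lt_const hc).mono fun Z h => h.le
  have eA : ∀ᶠ Z in atTop, ∀ v, hf ^ Z ≤ (ofGad X B).hw v := by
    rw [eventually_all]; intro v
    simpa using ev1 1 _ (hhw v)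
  have eB : ∀ᶠ Z in atTop, ∀ v l, l ≠ (ofGad X B).la v → l ≠ (ofGad X B).lb v →
      hf ^ Z * (|(ofGad X B).sl l - (ofGad X B).mid v| + (ofGad X B).hw v)
        ≤ |(ofGad X B).val l v| * (ofGad X B).hw v := by
    rw [eventually_all]; intro v
    rw [eventually_all]; intro l
    by_cases h1 : l = (ofGad X B).la v
    · exact Eventually.of_forall fun _ h => absurd h1 h
    by_cases h2 : l = (ofGad X B).lb v
    · exact Eventually.of_forall fun _ _ h => absurd h2 h
    exact (ev1 _ _ (mul_pos (hl0 v l h1 h2) (hhw v))).mono fun Z h _ _ => h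
  have hpne : ∀ u v, u ≠ v → 0 < |(ofGad X B).pval u v| := fun u v h =>
    abs_pos.mpr (left_ne_zero_of_mul (hcomb u v h).ne')
  have eC : ∀ᶠ Z in atTop, ∀ u v, u ≠ v → hf ^ Z *
      (|(ofGad X B).mid u - (ofGad X B).mid v| + (ofGad X B).hw u + (ofGad X B).hw v)
        ≤ |(ofGad X B).pval u v| * (ofGad X B).hw v := by
    rw [eventually_all]; intro u
    rw [eventually_all]; intro v
    by_cases h : u = v
    · exact Eventually.of_forall fun _ hh => absurd h hh
    exact (ev1 _ _ (mul_pos (hpne u v h) (hhw v))).mono fun Z hZ _ => hZ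
  have eD : ∀ᶠ Z in atTop, ∀ u v, u ≠ v →
      hf ^ Z * (ofGad X B).hw u * |(ofGad X B).x v - (ofGad X B).x u|
        ≤ |(ofGad X B).pval u v| := by
    rw [eventually_all]; intro u
    rw [eventually_all]; intro v
    by_cases h : u = v
    · exact Eventually.of_forall fun _ hh => absurd h hh
    exact (ev1 _ _ (hpne u v h)).mono fun Z hZ _ => by rw [mul_assoc]; exact hZ
  obtain ⟨Z, hA', hB', hC', hD', hZn⟩ :=
    (eA.and (eB.and (eC.and (eD.and (eventually_ge_atTop ((ofGad X B).n + (ofGad X B).m + 9)))))).exists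
  have hsl : ∀ l, |(ofGad X B).sl l| ≤ 1 := by
    intro l
    obtain ⟨h1, h2⟩ := hok.lin_nonneg l
    simp only [fsl]
    rw [abs_div, abs_of_pos (hs0 l), div_le_one (hs0 l), abs_le]
    constructor <;> linarith
  have hsum : ∀ v, 2 * (|(X.pt v).1| + |(X.pt v).2|) ≤ B := by
    intro v
    have := Finset.single_le_sum (f := fun v => |(X.pt v).1| + |(X.pt v).2|)
      (fun x _ => by positivity) (mem_univ v)
    have h2 : (0 : ℝ) ≤ ∑ l, |2 * (X.lin l).2.2 / ((X.lin l).1 + (X.lin l).2.1)| := by positivity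
    rw [hB]; linarith
  have hs2 : ∀ v, |(ofGad X B).x v| ≤ 1 / 2 ∧ |(ofGad X B).y v| ≤ 1 / 2 := by
    intro v
    simp only
    rw [abs_div, abs_div, abs_of_pos hB0, div_le_iff₀ hB0, div_le_iff₀ hB0]
    constructor <;>
      linarith [hsum v, abs_sub (X.pt v).1 (X.pt v).2, abs_add_le (X.pt v).1 (X.pt v).2]
  have hgood : (ofGad X B).Good (hf ^ Z) (hf ^ Z) := by
    refine ⟨pow_pos hf_pos _, pow_le_one₀ hf_pos.le hf_le_one, pow_pos hf_pos _,
      pow_le_one₀ hf_pos.le hf_le_one, za, zb, hA', ?_, ?_, hB', hC',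
      fun u v h => Or.inl (hD' u v h), hsl, ?_, fun v => le_trans (hs2 v).1 (by norm_num),
      fun v => le_trans (hs2 v).2 (by norm_num), ?_, ?_⟩
    · intro v
      rcases hord v with ⟨e, -⟩ | ⟨e, -⟩ <;> rw [e]
      · exact hok.cla v
      · exact hok.clb v
    · intro v
      rcases hord v with ⟨-, e⟩ | ⟨-, e⟩ <;> rw [e]
      · exact hok.clb v
      · exact hok.cla v
    · intro l
      simp only
      rw [abs_div, abs_of_pos hB0, div_le_iff₀ hB0]
      have := Finset.single_le_sum (f := fun l => |2 * (X.lin l).2.2 / ((X.lin l).1 + (X.lin l).2.1)|)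
        (fun x _ => abs_nonneg _) (mem_univ l)
      have h1 : (0 : ℝ) ≤ ∑ v, (|(X.pt v).1| + |(X.pt v).2|) := by positivity
      linarith [hB]
    · have e : ∀ v, (ofGad X B).cnt v = X.cnt v := fun v => by
        unfold Cfg.cnt Gad.cnt
        refine Finset.sum_congr rfl fun l _ => ?_
        rw [hval, pos01_mul (div_pos two_pos (mul_pos (hs0 l) hB0))]
      intro u v; rw [e, e, hok.cc u v]
    · have e : ∀ v, (ofGad X B).psi v = X.psi v := fun v => by
        unfold Cfg.psi Gad.psi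
        refine congrArg₂ (· + ·) (Finset.sum_congr rfl fun u _ => ?_)
          (Finset.sum_congr rfl fun l _ => ?_)
        · by_cases h : u = v
          · subst h; rw [Cfg.pval_self, hok.pen_self]
          · exact pos01_of_same (hcomb u v h)
        · rw [hval, pos01_mul (div_pos two_pos (mul_pos (hs0 l) hB0))]
      intro u v; rw [e, e, hok.pc u v]
  set τ := 2 * Z + 6 with hτ
  set sl' : X.Ln → ℝ := fun l => (⌊(ofGad X B).sl l * 2 ^ τ⌋ : ℝ) * hf ^ τ with hsl'
  have hP : Cfg.Pert (ofGad X B) sl' (hf ^ Z) (hf ^ Z) (hf ^ τ) := by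
    have e1 : (2 : ℝ) ^ τ * hf ^ τ = 1 := by simpa using two_hf_eq τ 0
    have hp := pow_pos hf_pos τ
    refine ⟨hgood, fun l => ?_, fun l => ?_, ?_,
      fun v => ⟨le_trans (hs2 v).1 (by norm_num), le_trans (hs2 v).2 (by norm_num)⟩⟩
    · set x := (ofGad X B).sl l
      have h1 := mul_le_mul_of_nonneg_right (Int.floor_le (x * 2 ^ τ)) hp.le
      have h2 := mul_le_mul_of_nonneg_right (Int.lt_floor_add_one (x * 2 ^ τ)).le hp.le
      rw [mul_assoc, e1, mul_one] at h1 h2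
      show |(⌊x * 2 ^ τ⌋ : ℝ) * hf ^ τ - x| ≤ hf ^ τ
      rw [abs_le]; constructor <;> linarith
    · set x := (ofGad X B).sl l
      obtain ⟨l1, l2⟩ := abs_le.mp (hsl l)
      have h2 : ((⌊x * 2 ^ τ⌋ : ℤ) : ℝ) ≤ x * 2 ^ τ := Int.floor_le _
      have h3 : (-(2 : ℤ) ^ τ) ≤ ⌊x * 2 ^ τ⌋ := by
        rw [Int.le_floor]; push_cast
        linarith [mul_le_mul_of_nonneg_right l1 (by positivity : (0 : ℝ) ≤ 2 ^ τ)]
      have h3' : -(2 : ℝ) ^ τ ≤ ((⌊x * 2 ^ τ⌋ : ℤ) : ℝ) := by exact_mod_cast h3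
      have h2' : ((⌊x * 2 ^ τ⌋ : ℤ) : ℝ) ≤ 2 ^ τ :=
        h2.trans (mul_le_of_le_one_left (by positivity) l2)
      show |(⌊x * 2 ^ τ⌋ : ℝ) * hf ^ τ| ≤ 1
      rw [abs_mul, abs_of_pos hp, ← e1]
      exact mul_le_mul_of_nonneg_right (abs_le.mpr ⟨h3', h2'⟩) hp.le
    · rw [show (64 : ℝ) = 2 ^ 6 by norm_num]; exact two_hf (by omega)
  have hC' : ((ofGad X B).reslope sl').Good (hf ^ (Z + 2)) (hf ^ (Z + 3)) := by
    refine Cfg.Good.mono (ζ := hf ^ Z / 4) (σ := hf ^ Z / 8) hP.good' (pow_pos hf_pos _) ?_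
      (pow_pos hf_pos _) ?_ <;> rw [pow_add] <;> norm_num [hf] <;> exact le_of_eq (by ring)
  refine ⟨(ofGad X B).reslope sl', 3 * Z + 20, Z, Z + 2, τ, Z + 2, Z + 3,
    Z + 2 + (ofGad X B).m, by omega, by omega, by omega, by omega,
    ⟨hC', fun l => ⟨_, rfl⟩, hC'.hhw, ?_, by omega, ?_, ?_, ?_, ?_⟩⟩
  · intro v
    refine le_trans (hC'.hw_le_one v) (le_trans (le_of_eq ?_) (mul_le_mul_of_nonneg_right
      (pow_le_pow_right₀ one_le_two (Nat.le_add_right (Z + 2) _)) (pow_nonneg hf_pos.le _)))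
    simpa using (two_hf_eq (Z + 2) 0).symm
  · have hN : 0 < X.NS := by rw [hX.hNS]; positivity
    show 1 ≤ X.n
    rw [Gad.n_eq]; omega
  · show (ofGad X B).n ≤ _
    exact le_trans (by omega) Nat.lt_two_pow_self.le
  · have h0 : (ofGad X B).W = 0 := Finset.sum_eq_zero fun l _ => hX.w0 l
    have hN : 0 < X.NS := by rw [hX.hNS]; positivity
    have hn : 1 ≤ (ofGad X B).n := by show 1 ≤ X.n; rw [Gad.n_eq]; omega
    show (ofGad X B).W + (ofGad X B).m ≤ _ * (ofGad X B).n
    rw [h0, zero_add]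
    exact le_trans (le_trans (Nat.le_add_left _ (Z + 2)) Nat.lt_two_pow_self.le)
      (Nat.le_mul_of_pos_right _ hn)
  · show 2 ^ (1 + 3) * X.n ≤ 2 * X.m
    rw [Gad.n_eq, hX.hNS, hX.hm]
    have := hX.hNE
    norm_num at this ⊢
    omega

end Vale.Agent.P065c
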