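import Vale.Agent.P065.Basic

/-!
# Weighted line arrangements with quantitative margins

A configuration consists of non-vertical lines `y = sl * x + ic` with multiplicities `c` and
charges `w`, and of marked points, each on two of the lines. The line through a marked point
whose slope is the average of the slopes of its two lines is its midline.
-/

namespace Vale.Agent.P065c

open Finset Vale.Agent.P065

/-- A weighted configuration. -/
structure Cfg : Type 1 where
  L : Type
  V : Type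
  [finL : Fintype L]
  [finV : Fintype V]
  sl : L → ℝ
  ic : L → ℝ
  c : L → ℕ
  w : L → ℕ
  x : V → ℝ
  y : V → ℝ
  la : V → L
  lb : V → L

attribute [instance] Cfg.finL Cfg.finV

namespace Cfg

variable (C : Cfg)

/-- Height of the marked point `v` over the line `l`. -/
def val (l : C.L) (v : C.V) : ℝ := C.y v - C.sl l * C.x v - C.ic l

/-- Slope of the midline. -/
noncomputable def mid (v : C.V) : ℝ := (C.sl (C.la v) + C.sl (C.lb v)) / 2

/-- Half the difference of the two slopes at a marked point. -/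
noncomputable def hw (v : C.V) : ℝ := (C.sl (C.lb v) - C.sl (C.la v)) / 2

/-- Height of the marked point `v` over the midline of `u`. -/
noncomputable def pval (u v : C.V) : ℝ := C.y v - C.y u - C.mid u * (C.x v - C.x u)

/-- Weighted number of lines below a marked point. -/
noncomputable def cnt (v : C.V) : ℕ := ∑ l, C.c l * pos01 (C.val l v)

/-- Number of midlines below a marked point, plus the charge below it. -/
noncomputable def psi (v : C.V) : ℕ :=
  ∑ u, pos01 (C.pval u v) + ∑ l, C.w l * pos01 (C.val l v)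

/-- Total multiplicity. -/
def n : ℕ := ∑ l, C.c l
/-- Total charge. -/
def W : ℕ := ∑ l, C.w l
/-- Number of marked points. -/
def m : ℕ := Fintype.card C.V

/-- The configuration is exact, with margins `ζ` and `σ`. -/
structure Good (ζ σ : ℝ) : Prop where
  ζpos : 0 < ζ
  ζle : ζ ≤ 1
  σpos : 0 < σ
  σle : σ ≤ 1
  za : ∀ v, C.val (C.la v) v = 0
  zb : ∀ v, C.val (C.lb v) v = 0
  hhw : ∀ v, ζ ≤ C.hw v
  cla : ∀ v, C.c (C.la v) = 1
  clb : ∀ v, C.c (C.lb v) = 1
  line : ∀ v l, l ≠ C.la v → l ≠ C.lb v →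
    ζ * (|C.sl l - C.mid v| + C.hw v) ≤ |C.val l v| * C.hw v
  pen : ∀ u v, u ≠ v →
    ζ * (|C.mid u - C.mid v| + C.hw u + C.hw v) ≤ |C.pval u v| * C.hw v
  sep : ∀ u v, u ≠ v →
    σ * C.hw u * |C.x v - C.x u| ≤ |C.pval u v| ∨ C.pval u v * (C.x v - C.x u) ≤ 0
  bsl : ∀ l, |C.sl l| ≤ 1
  bic : ∀ l, |C.ic l| ≤ 4
  bx : ∀ v, |C.x v| ≤ 1
  bdy : ∀ v, |C.y v| ≤ 1
  cc : ∀ u v, C.cnt u = C.cnt v
  pc : ∀ u v, C.psi u = C.psi v

variable {C} {ζ σ : ℝ}

lemma Good.hw_pos (h : C.Good ζ σ) (v : C.V) : 0 < C.hw v :=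
  lt_of_lt_of_le h.ζpos (h.hhw v)

lemma Good.hw_le_one (h : C.Good ζ σ) (v : C.V) : C.hw v ≤ 1 := by
  have h1 := abs_le.mp (h.bsl (C.la v))
  have h2 := abs_le.mp (h.bsl (C.lb v))
  unfold hw; linarith [h1.1, h2.2]

lemma Good.abs_mid_le (h : C.Good ζ σ) (v : C.V) : |C.mid v| ≤ 1 := by
  have h1 := abs_le.mp (h.bsl (C.la v))
  have h2 := abs_le.mp (h.bsl (C.lb v))
  unfold mid; rw [abs_le]; constructor <;> linarith [h1.1, h1.2, h2.1, h2.2]

lemma Good.la_ne_lb (h : C.Good ζ σ) (v : C.V) : C.la v ≠ C.lb v := by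
  intro he
  have h1 := h.hw_pos v
  unfold hw at h1
  rw [he] at h1
  simp at h1

lemma Good.val_lb (h : C.Good ζ σ) (v : C.V) (l : C.L) (h1 : l ≠ C.la v) (h2 : l ≠ C.lb v) :
    ζ ≤ |C.val l v| := by
  have hl := h.line v l h1 h2
  have hp := h.hw_pos v
  have : ζ * C.hw v ≤ |C.val l v| * C.hw v :=
    le_trans (mul_le_mul_of_nonneg_left (le_add_of_nonneg_left (abs_nonneg _)) h.ζpos.le) hl
  exact le_of_mul_le_mul_right this hp

lemma Good.pval_lb (h : C.Good ζ σ) (u v : C.V) (huv : u ≠ v) : ζ ≤ |C.pval u v| := by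
  have hl := h.pen u v huv
  have hp := h.hw_pos v
  have hu := h.hw_pos u
  have : ζ * C.hw v ≤ |C.pval u v| * C.hw v := by
    refine le_trans (mul_le_mul_of_nonneg_left ?_ h.ζpos.le) hl
    have := abs_nonneg (C.mid u - C.mid v)
    linarith
  exact le_of_mul_le_mul_right this hp

lemma pval_self (v : C.V) : C.pval v v = 0 := by simp [pval]

lemma Good.mono {ζ' σ' : ℝ} (h : C.Good ζ σ) (hz0 : 0 < ζ') (hz : ζ' ≤ ζ) (hs0 : 0 < σ')
    (hs : σ' ≤ σ) : C.Good ζ' σ' where
  ζpos := hz0
  ζle := le_trans hz h.ζle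
  σpos := hs0
  σle := le_trans hs h.σle
  za := h.za
  zb := h.zb
  hhw := fun v => le_trans hz (h.hhw v)
  cla := h.cla
  clb := h.clb
  line := fun v l h1 h2 => le_trans (mul_le_mul_of_nonneg_right hz
    (add_nonneg (abs_nonneg _) (h.hw_pos v).le)) (h.line v l h1 h2)
  pen := fun u v huv => le_trans (mul_le_mul_of_nonneg_right hz
    (add_nonneg (add_nonneg (abs_nonneg _) (h.hw_pos u).le) (h.hw_pos v).le)) (h.pen u v huv)
  sep := fun u v huv => (h.sep u v huv).imp (fun hh => le_trans (mul_le_mul_of_nonneg_right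
    (mul_le_mul_of_nonneg_right hs (h.hw_pos u).le) (abs_nonneg _)) hh) id
  bsl := h.bsl
  bic := h.bic
  bx := h.bx
  bdy := h.bdy
  cc := h.cc
  pc := h.pc

end Cfg

/-- A gadget: two bundles of slopes `-1` and `1` with common offsets, and further lines, with
all marked points on further lines. -/
structure Gad : Type 1 where
  S : Type
  E : Type
  V : Type
  [finS : Fintype S]
  [finE : Fintype E]
  [finV : Fintype V]
  off : S → ℝ
  sl : E → ℝ
  ic : E → ℝ
  cS : S → ℕ
  wS : S → ℕ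
  cE : E → ℕ
  wE : E → ℕ
  x : V → ℝ
  y : V → ℝ
  la : V → E
  lb : V → E

attribute [instance] Gad.finS Gad.finE Gad.finV

namespace Gad

variable (G : Gad)

/-- The configuration of a gadget. -/
abbrev toCfg : Cfg where
  L := G.S ⊕ (G.S ⊕ G.E)
  V := G.V
  sl := Sum.elim (fun _ => -1) (Sum.elim (fun _ => 1) G.sl)
  ic := Sum.elim G.off (Sum.elim G.off G.ic)
  c := Sum.elim G.cS (Sum.elim G.cS G.cE)
  w := Sum.elim G.wS (Sum.elim G.wS G.wE)
  x := G.x
  y := G.y
  la := fun v => Sum.inr (Sum.inr (G.la v))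
  lb := fun v => Sum.inr (Sum.inr (G.lb v))

/-- Total multiplicity in one bundle. -/
def NS : ℕ := ∑ s, G.cS s
/-- Total multiplicity of the further lines. -/
def NE : ℕ := ∑ e, G.cE e
/-- Total charge in one bundle. -/
def WS : ℕ := ∑ s, G.wS s
/-- Total charge of the further lines. -/
def WE : ℕ := ∑ e, G.wE e
/-- Number of marked points. -/
def m : ℕ := Fintype.card G.V

/-- Size conditions on a gadget: further lines have slopes in `[0, τ]`. -/
structure Fits (τ : ℝ) : Prop where
  bsl : ∀ e, 0 ≤ G.sl e ∧ G.sl e ≤ τ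
  boff : ∀ s, |G.off s| ≤ 1
  bic : ∀ e, |G.ic e| ≤ 2

/-- The gadget with new slopes of the further lines and recomputed marked points. -/
noncomputable abbrev reslope (t : G.E → ℝ) : Gad where
  S := G.S
  E := G.E
  V := G.V
  off := G.off
  sl := t
  ic := G.ic
  cS := G.cS
  wS := G.wS
  cE := G.cE
  wE := G.wE
  x := fun v => (G.ic (G.la v) - G.ic (G.lb v)) / (t (G.lb v) - t (G.la v))
  y := fun v => t (G.la v) * ((G.ic (G.la v) - G.ic (G.lb v)) / (t (G.lb v) - t (G.la v)))
    + G.ic (G.la v)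
  la := G.la
  lb := G.lb

end Gad

end Vale.Agent.P065c
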