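import Vale.Agent.P065c.CompGood
import Vale.Agent.P065c.AmpGood

/-!
# One round: composing with a rounded unit

The slope grid exponent `τ` of a configuration is carried separately from its margin
exponent `Z`: the unit built from a configuration needs only `2 ^ τ` classes, and rounding
happens only inside the new unit, relative to the half width of the outer configuration.
-/

namespace Vale.Agent.P065c

open Finset Vale.Agent.P065

/-- `1/2`, as a real number. -/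
noncomputable def hf : ℝ := 1 / 2

lemma hf_pos : 0 < hf := by norm_num [hf]
lemma hf_le_one : hf ≤ 1 := by norm_num [hf]

lemma hf_pow_le {m n : ℕ} (h : m ≤ n) : hf ^ n ≤ hf ^ m :=
  pow_le_pow_of_le_one hf_pos.le hf_le_one h

lemma hf_eq (n : ℕ) : hf ^ n = 1 / 2 ^ n := by rw [hf, div_pow, one_pow]

/-- `2 ^ m * hf ^ n` is at most `hf ^ p` when `m + p ≤ n`. -/
lemma two_hf {m n p : ℕ} (h : m + p ≤ n) : (2 : ℝ) ^ m * hf ^ n ≤ hf ^ p := by
  calc (2 : ℝ) ^ m * hf ^ n ≤ 2 ^ m * hf ^ (m + p) :=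
        mul_le_mul_of_nonneg_left (hf_pow_le h) (by positivity)
    _ = hf ^ p := by rw [pow_add, ← mul_assoc, ← mul_pow]; norm_num [hf]

lemma two_hf_one {m n : ℕ} (h : m ≤ n) : (2 : ℝ) ^ m * hf ^ n ≤ 1 := by
  simpa using two_hf (p := 0) (by omega : m + 0 ≤ n)

lemma two_hf_eq (m p : ℕ) : (2 : ℝ) ^ m * hf ^ (m + p) = hf ^ p := by
  rw [pow_add, ← mul_assoc, ← mul_pow]; norm_num [hf]

/-- A configuration with summarised parameters. -/
structure Stat (C : Cfg) (N Z τ η S P G : ℕ) : Prop where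
  good : C.Good (hf ^ Z) (hf ^ S)
  grid : ∀ l, ∃ z : ℤ, C.sl l = z * hf ^ τ
  hlo : ∀ v, hf ^ η ≤ C.hw v
  hhi : ∀ v, C.hw v ≤ 2 ^ P * hf ^ η
  free : η + S ≤ τ
  one_le : 1 ≤ C.n
  hn : C.n ≤ 2 ^ N
  hW : C.W + C.m ≤ 2 ^ P * C.n
  hG : 2 ^ G * C.n ≤ 2 * C.m

/-- Slopes on a grid as lattice slopes. -/
lemma exists_index {X : Cfg} {ζ σ : ℝ} (h : X.Good ζ σ) {τ : ℕ}
    (hg : ∀ l, ∃ z : ℤ, X.sl l = z * hf ^ τ) :
    ∃ hb : X.L → ℕ, ∀ l, X.sl l = 1 - 4 * ((2 * hb l : ℕ) : ℝ) / ((2 ^ (τ + 3) : ℕ) : ℝ) := by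
  choose z hz using hg
  refine ⟨fun l => ((2 : ℤ) ^ τ - z l).toNat, fun l => ?_⟩
  have hle : z l ≤ (2 : ℤ) ^ τ := by
    have h1 := (abs_le.mp (h.bsl l)).2
    rw [hz l, hf_eq, mul_one_div, div_le_one (by positivity)] at h1
    exact_mod_cast h1
  have hnat : (((((2 : ℤ) ^ τ - z l).toNat : ℕ) : ℤ) : ℝ) = (2 : ℝ) ^ τ - z l := by
    rw [Int.toNat_of_nonneg (by linarith)]; push_cast; ring
  rw [hz l, hf_eq]
  push_cast at hnat ⊢
  rw [hnat]
  field_simp
  ring

/-- Exponent of the curvature parameter. -/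
def eL (τ pa P η : ℕ) : ℕ := max τ (2 * (τ + P - η)) + pa + 9

/-- Exponent of the slope scale. -/
def eV (τ pa P η So : ℕ) : ℕ := τ + max So (2 * (τ + P - η) - τ) + 2 * pa + 16

/-- Exponent of the margin of a unit. -/
def eU (Z τ pa P η So : ℕ) : ℕ := pa + 21 + 2 * eV τ pa P η So + eL τ pa P η + Z

/-- A unit built from a configuration, with the data needed for rounding it. -/
theorem exists_unit {X : Cfg} {N Z τ η S P G : ℕ} (hX : Stat X N Z τ η S P G) (pa So : ℕ) :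
    ∃ (U : Gad) (κ : ℝ),
      U.toCfg.Good (hf ^ eU Z τ pa P η So) (hf ^ (τ + P - η + pa + 6)) ∧
      (∀ v, |U.x v| ≤ 7 / 8 ∧ |U.y v| ≤ 7 / 8) ∧ U.Fits κ ∧
      32 * κ ≤ hf ^ So ∧ hf ^ eU Z τ pa P η So ≤ κ ∧
      (∀ v, hf ^ (max So (2 * (τ + P - η) - τ) + η + 2 * pa + 17) ≤ U.toCfg.hw v) ∧
      (∀ v, U.toCfg.hw v
        ≤ 2 ^ (P + 3) * hf ^ (max So (2 * (τ + P - η) - τ) + η + 2 * pa + 17)) ∧
      U.NS = 2 ^ pa * 2 ^ (τ + 3 + pa) * X.n ∧ U.NE ≤ 3 * 2 ^ (τ + 3 + pa) * X.n ∧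
      U.m = 2 ^ pa * 2 ^ (τ + 3 + pa) * X.m ∧
      U.WS = 2 ^ pa * 2 ^ (τ + 3 + pa) * (X.W + 2 * 2 ^ pa * X.m) ∧
      U.WE ≤ 3 * 2 ^ (τ + 3 + pa) * X.W + 7 * (2 ^ pa * 2 ^ (τ + 3 + pa)) * X.m := by
  obtain ⟨hb, hgrid⟩ := exists_index hX.good hX.grid
  have hfree := hX.free
  set e := τ + P - η with he
  set Bo := max So (2 * e - τ) with hBo
  have hL : eL τ pa P η = max τ (2 * e) + pa + 9 := rfl
  have hV : eV τ pa P η So = τ + Bo + 2 * pa + 16 := rfl
  set L := eL τ pa P η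
  set V := eV τ pa P η So
  have h2e : (((2 ^ (e + 3) : ℕ)) : ℝ) = (2 : ℝ) ^ (e + 3) := by push_cast; ring
  let D : UData :=
    { X := X, hb := hb, a := 2 ^ pa, b := 2 ^ (τ + 3 + pa), T := 2 ^ (τ + 3), ν := hf ^ V,
      lam := hf ^ L, ρ := hf ^ (L + τ + 11), ζ := hf ^ Z, σ := hf ^ S, Hh := 2 ^ (e + 3) }
  have hTle : ∀ v, (2 : ℝ) ^ (τ + 3) * X.hw v ≤ 2 ^ (e + 3) := by
    intro v
    refine le_trans (mul_le_mul_of_nonneg_left (hX.hhi v) (by positivity)) ?_
    rw [← mul_assoc, ← pow_add, show τ + 3 + P = (e + 3) + η by omega, pow_add, mul_assoc]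
    exact mul_le_of_le_one_right (by positivity) (two_hf_one le_rfl)
  have H : D.Hyp := by
    refine ⟨hX.good, hgrid, Nat.one_le_two_pow, Nat.one_le_two_pow,
      le_of_eq (pow_add _ _ _).symm, pow_pos hf_pos _, pow_pos hf_pos _, pow_pos hf_pos _,
      ?_, ?_, ?_, ?_, ?_, ?_, ?_, ?_⟩
    · show 2 * hf ^ V ≤ hf ^ L
      simpa using two_hf (m := 1) (p := L) (n := V) (by omega)
    · show 32 * (hf ^ L * ((2 ^ (τ + 3 + pa) : ℕ) : ℝ)) ≤ 1
      push_cast
      rw [show 32 * (hf ^ L * (2 : ℝ) ^ (τ + 3 + pa)) = 2 ^ (5 + (τ + 3 + pa)) * hf ^ L by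
        rw [pow_add _ 5]; ring]
      exact two_hf_one (by omega)
    · intro v
      show ((2 ^ (τ + 3) : ℕ) : ℝ) * X.hw v ≤ 2 ^ (e + 3)
      push_cast; exact hTle v
    · exact one_le_pow₀ one_le_two
    · show 8 * (hf ^ L * ((2 : ℝ) ^ (e + 3)) ^ 2 * ((2 ^ pa : ℕ) : ℝ)) ≤ 1
      push_cast
      rw [show 8 * (hf ^ L * ((2 : ℝ) ^ (e + 3)) ^ 2 * 2 ^ pa)
          = 2 ^ (3 + (e + 3) * 2 + pa) * hf ^ L by simp only [pow_add, pow_mul]; ring]
      exact two_hf_one (by omega)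
    · show 2 * (hf ^ L * (2 : ℝ) ^ (e + 3)) ≤ hf ^ S
      rw [show 2 * (hf ^ L * (2 : ℝ) ^ (e + 3)) = 2 ^ (1 + (e + 3)) * hf ^ L by
        rw [pow_add _ 1]; ring]
      exact two_hf (by omega)
    · show 256 * (hf ^ (L + τ + 11) * ((2 ^ (τ + 3) : ℕ) : ℝ)) ≤ hf ^ L
      push_cast
      rw [show 256 * (hf ^ (L + τ + 11) * (2 : ℝ) ^ (τ + 3))
          = 2 ^ (8 + (τ + 3)) * hf ^ (L + τ + 11) by rw [pow_add _ 8]; ring]
      exact two_hf (by omega)
    · show 256 * (16 * hf ^ V * ((2 ^ (τ + 3 + pa) : ℕ) : ℝ) * ((2 ^ pa : ℕ) : ℝ)) ≤ 1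
      push_cast
      rw [show 256 * (16 * hf ^ V * (2 : ℝ) ^ (τ + 3 + pa) * 2 ^ pa)
          = 2 ^ (12 + (τ + 3 + pa) + pa) * hf ^ V by rw [pow_add _ (12 + _), pow_add _ 12]; ring]
      exact two_hf_one (by omega)
  have hσU := UData.good H (σU := hf ^ (e + pa + 6)) (pow_pos hf_pos _) (by
      show 8 * hf ^ (e + pa + 6) ≤ hf ^ S
      rw [show (8 : ℝ) = 2 ^ 3 by norm_num]
      exact two_hf (by omega)) (by
      show 8 * (hf ^ (e + pa + 6) * 2 ^ (e + 3) * ((2 ^ pa : ℕ) : ℝ)) ≤ 1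
      push_cast
      rw [show 8 * (hf ^ (e + pa + 6) * (2 : ℝ) ^ (e + 3) * 2 ^ pa)
          = 2 ^ (3 + (e + 3) + pa) * hf ^ (e + pa + 6) by simp only [pow_add]; ring]
      exact two_hf_one (by omega))
  have hκ : D.κ = hf ^ V * 2 ^ (τ + 3 + pa + 4) := by
    show 16 * hf ^ V * ((2 ^ (τ + 3 + pa) : ℕ) : ℝ) = _
    push_cast; rw [pow_add _ _ 4]; ring
  have hz : hf ^ eU Z τ pa P η So ≤ D.margin * D.ν / 16 := by
    have hs0 : hf ^ (pa + 3) ≤ D.s₀ := by
      show hf ^ (pa + 3) ≤ 1 / (4 * (((2 ^ pa : ℕ) : ℝ) + 1))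
      push_cast
      rw [hf_eq]
      refine one_div_le_one_div_of_le (by positivity) ?_
      rw [pow_add]
      linarith [one_le_pow₀ one_le_two (M₀ := ℝ) (n := pa)]
    have hq : hf ^ (L + 10) = D.q := by
      show _ = hf ^ (L + τ + 11) * ((2 ^ (τ + 3) : ℕ) : ℝ) / 4
      push_cast
      rw [mul_comm, show L + τ + 11 = (τ + 3) + (L + 8) by omega, two_hf_eq,
        show L + 10 = (L + 8) + 2 by omega, pow_add _ (L + 8)]
      norm_num [hf]; ring
    have h16 : (1 : ℝ) / 16 = hf ^ 4 := by norm_num [hf]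
    calc hf ^ eU Z τ pa P η So = hf ^ (pa + 3) * (hf ^ V * hf ^ (L + 10) * hf ^ Z * hf ^ 4)
          * hf ^ V * hf ^ 4 := by
          rw [eU]; simp only [← pow_add]; congr 1; omega
      _ ≤ D.s₀ * (hf ^ V * hf ^ (L + 10) * hf ^ Z * hf ^ 4) * hf ^ V * hf ^ 4 := by
          have := hf_pos
          gcongr
      _ = _ := by rw [hq, ← h16]; unfold UData.margin; ring
  refine ⟨D.unit, 4 * D.κ,
    hσU.mono (pow_pos hf_pos _) hz (pow_pos hf_pos _) le_rfl,
    UData.unit_bx H, UData.fits H, ?_, ?_, ?_, ?_, ?_, ?_, ?_, ?_, ?_⟩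
  · rw [hκ, show 32 * (4 * (hf ^ V * (2 : ℝ) ^ (τ + 3 + pa + 4)))
      = 2 ^ (7 + (τ + 3 + pa + 4)) * hf ^ V by rw [pow_add _ 7]; ring]
    exact two_hf (by omega)
  · rw [hκ]
    refine le_trans (hf_pow_le (m := V) (by rw [eU]; omega)) ?_
    have h0 : 0 ≤ hf ^ V := pow_nonneg hf_pos.le _
    have := one_le_pow₀ one_le_two (M₀ := ℝ) (n := τ + 3 + pa + 4)
    nlinarith
  · rintro ⟨w, u⟩
    refine le_trans ?_ (UData.hw_bd H (w, u)).2.1
    show _ ≤ hf ^ V * (((2 ^ (τ + 3) : ℕ) : ℝ) * X.hw u) / 16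
    push_cast
    calc hf ^ (Bo + η + 2 * pa + 17) = (2 : ℝ) ^ (τ + 3) * hf ^ ((τ + 3) + (Bo + η + 2 * pa + 17)) :=
          (two_hf_eq _ _).symm
      _ = hf ^ V * (2 ^ (τ + 3) * hf ^ η) / 16 := by
          rw [show (τ + 3) + (Bo + η + 2 * pa + 17) = V + η + 4 by omega, pow_add _ _ 4,
            pow_add _ V η]
          norm_num [hf]; ring
      _ ≤ _ := by
          have := hf_pos
          gcongr
          exact hX.hlo u
  · rintro ⟨w, u⟩
    refine le_trans (UData.hw_bd H (w, u)).2.2 ?_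
    show hf ^ V * (((2 ^ (τ + 3) : ℕ) : ℝ) * X.hw u) / 2 ≤ _
    push_cast
    calc hf ^ V * ((2 : ℝ) ^ (τ + 3) * X.hw u) / 2
        ≤ hf ^ V * (2 ^ (τ + 3) * (2 ^ P * hf ^ η)) / 2 := by
          have := hf_pos
          gcongr
          exact hX.hhi u
      _ = 2 ^ P * ((2 : ℝ) ^ (τ + 3) * hf ^ (V + η + 1)) := by
          rw [pow_add hf (V + η) 1, pow_add hf V η]; norm_num [hf]; ring
      _ = _ := by
          rw [show V + η + 1 = (τ + 3) + (Bo + η + 2 * pa + 14) by omega, two_hf_eq,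
            pow_add _ P 3, show Bo + η + 2 * pa + 17 = 3 + (Bo + η + 2 * pa + 14) by omega,
            pow_add hf 3]
          norm_num [hf]; ring
  · exact UData.NS_unit H
  · exact UData.NE_unit H
  · exact UData.m_unit H
  · exact UData.WS_unit H
  · exact UData.WE_unit H

/-- A configuration with one marked point. -/
noncomputable abbrev triv : Cfg where
  L := Bool
  V := Unit
  sl := fun l => cond l (1 / 2) (-(1 / 2))
  ic := fun _ => 0
  c := fun _ => 1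
  w := fun _ => 0
  x := fun _ => 0
  y := fun _ => 0
  la := fun _ => false
  lb := fun _ => true

lemma triv_stat : Stat triv 1 1 1 1 0 0 0 := by
  refine ⟨⟨pow_pos hf_pos _, by norm_num [hf], by norm_num, by norm_num, ?_, ?_, ?_, fun _ => rfl,
    fun _ => rfl, ?_, fun u v h => absurd rfl h, fun u v h => absurd rfl h, ?_, ?_, ?_, ?_,
    fun u v => rfl, fun u v => rfl⟩, ?_, ?_, ?_, le_rfl, ?_, ?_, ?_, ?_⟩
  · intro v; simp [Cfg.val]
  · intro v; simp [Cfg.val]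
  · intro v; norm_num [triv, Cfg.hw, hf]
  · intro v l h1 h2
    cases l
    · exact absurd rfl h1
    · exact absurd rfl h2
  · intro l; cases l <;> norm_num [triv]
  · intro l; norm_num [triv]
  · intro v; norm_num [triv]
  · intro v; norm_num [triv]
  · intro l
    cases l
    · exact ⟨-1, by norm_num [triv, hf]⟩
    · exact ⟨1, by norm_num [triv, hf]⟩
  · intro v; norm_num [triv, Cfg.hw, hf]
  · intro v; norm_num [triv, Cfg.hw, hf]
  all_goals simp [Cfg.n, Cfg.W, Cfg.m, triv]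

/-- Rounding a slope of a copy up to the grid. -/
noncomputable def rnd (C : Cfg) (U : Gad) (τ : ℕ) (v : C.V) (e : U.E) : ℝ :=
  ((⌈(C.mid v + C.hw v * U.sl e) * 2 ^ τ⌉ : ℝ) * hf ^ τ - C.mid v) / C.hw v

/-- One round. -/
theorem exists_step {C X : Cfg} {N Z τ η S P G NX ZX τX ηX SX PX D : ℕ}
    (hC : Stat C N Z τ η S P G) (hX : Stat X NX ZX τX ηX SX PX (D + 3)) :
    ∃ C' : Cfg, Stat C' (N + NX + τX + 2 * P + 10) (Z + eU ZX τX (P + 2) PX ηX S + 10)
      (max τ (η + eU ZX τX (P + 2) PX ηX S + 6))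
      (η + (max S (2 * (τX + PX - ηX) - τX) + ηX + 2 * (P + 2) + 18))
      (τX + PX - ηX + P + 11) (P + PX + 5) (G + D + 1) := by
  obtain ⟨U, κ, hU, hslack, hfit, hκ, hκz, hlo, hhi, hNS, hNE, hm, hWS, hWE⟩ :=
    exists_unit hX (P + 2) S
  set eu := eU ZX τX (P + 2) PX ηX S with heu
  set ηU := max S (2 * (τX + PX - ηX) - τX) + ηX + 2 * (P + 2) + 17 with hηU
  set τ' := max τ (η + eu + 6) with hτ'
  set t : C.V → U.E → ℝ := rnd C U τ'
  have hp := hf_pos
  have hnear : ∀ v e, U.sl e ≤ t v e ∧ t v e - U.sl e ≤ hf ^ (eu + 6) := by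
    intro v e
    have hv := lt_of_lt_of_le (pow_pos hf_pos _) (hC.hlo v)
    set z := (C.mid v + C.hw v * U.sl e) * 2 ^ τ'
    have hz1 := Int.le_ceil z
    have hz2 := (Int.ceil_lt_add_one z).le
    have e0 : z * hf ^ τ' = C.mid v + C.hw v * U.sl e := by
      simp only [z, mul_assoc, hf_eq]; field_simp
    have h1 := mul_le_mul_of_nonneg_right hz1 (pow_nonneg hp.le τ')
    have h2 := mul_le_mul_of_nonneg_right hz2 (pow_nonneg hp.le τ')
    show U.sl e ≤ rnd C U τ' v e ∧ rnd C U τ' v e - U.sl e ≤ hf ^ (eu + 6)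
    unfold rnd
    constructor
    · rw [le_div_iff₀ hv]; linarith
    · rw [sub_le_iff_le_add, div_le_iff₀ hv]
      have : hf ^ τ' ≤ hf ^ (eu + 6) * C.hw v := by
        refine le_trans (hf_pow_le (m := eu + 6 + η) (by omega)) ?_
        rw [pow_add]
        exact mul_le_mul_of_nonneg_left (hC.hlo v) (pow_nonneg hp.le _)
      linarith
  have hδκ : hf ^ (eu + 6) ≤ κ := le_trans (hf_pow_le (by omega)) hκz
  have hκ1 : 32 * κ ≤ 1 := le_trans hκ (pow_le_one₀ hp.le hf_le_one)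
  have hfit' : ∀ v, (U.reslope (t v)).Fits (2 * κ) := fun v =>
    ⟨fun e => ⟨le_trans (hfit.bsl e).1 (hnear v e).1,
      show t v e ≤ _ by linarith [(hfit.bsl e).2, (hnear v e).2]⟩, hfit.boff, hfit.bic⟩
  have hpert : ∀ v, Cfg.Pert U.toCfg
      (Sum.elim (fun _ => -1) (Sum.elim (fun _ => 1) (t v))) (hf ^ eu)
      (hf ^ (τX + PX - ηX + (P + 2) + 6)) (hf ^ (eu + 6)) := by
    intro v
    refine ⟨hU, ?_, ?_, ?_, hslack⟩
    · rintro (s | s | e)
      · simpa using pow_nonneg hp.le _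
      · simpa using pow_nonneg hp.le _
      · show |t v e - U.sl e| ≤ _
        rw [abs_of_nonneg (by linarith [(hnear v e).1])]
        exact (hnear v e).2
    · rintro (s | s | e)
      · simp
      · simp
      · show |t v e| ≤ 1
        obtain ⟨h1, h2⟩ := (hfit' v).bsl e
        rw [abs_of_nonneg h1]
        exact le_trans h2 (by linarith)
    · rw [show (64 : ℝ) = 2 ^ 6 by norm_num]
      exact two_hf (by omega)
  have hgood : ∀ v, (U.reslope (t v)).toCfg.Good (hf ^ (eu + 2))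
      (hf ^ (τX + PX - ηX + (P + 2) + 9)) := by
    intro v
    refine Cfg.Good.mono (ζ := hf ^ eu / 4) (σ := hf ^ (τX + PX - ηX + (P + 2) + 6) / 8)
      (hpert v).good' (pow_pos hp _) ?_ (pow_pos hp _) ?_
    · rw [pow_add]; norm_num [hf]; exact le_of_eq (by ring)
    · rw [pow_add _ _ 9, pow_add _ _ 6]; norm_num [hf]; exact le_of_eq (by ring)
  have hH : CompHyp C U t (hf ^ Z) (hf ^ S) (hf ^ (eu + 2))
      (hf ^ (τX + PX - ηX + (P + 2) + 9)) (2 * κ) (hf ^ Z / 64) := by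
    refine ⟨hC.good, hgood, hfit', by linarith, rfl, ?_, ?_⟩
    · intro u v g
      exact ((hpert u).cnt_eq g).trans ((hpert v).cnt_eq g).symm
    · intro u v g
      exact ((hpert u).psi_eq g).trans ((hpert v).psi_eq g).symm
  set a := 2 ^ (P + 2) with ha
  set b := 2 ^ (τX + 3 + (P + 2)) with hb
  obtain ⟨v0⟩ : Nonempty C.V := by
    rcases isEmpty_or_nonempty C.V with h | h
    · exfalso
      have h1 := hC.hG
      have h2 : C.m = 0 := by simp [Cfg.m]
      rw [h2] at h1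
      have := Nat.mul_pos (Nat.two_pow_pos G) hC.one_le
      omega
    · exact h
  refine ⟨C.comp U t (hf ^ Z / 64), ?_, ?_, ?_, ?_, ?_, ?_, ?_, ?_, ?_⟩
  · refine (hH.good v0).mono (pow_pos hp _) ?_ (pow_pos hp _) (hf_pow_le (by omega))
    rw [show Z + eu + 10 = Z + (eu + 2) + 8 by omega, pow_add _ _ 8, pow_add _ Z]
    norm_num [hf]; exact le_of_eq (by ring)
  · have old : ∀ l, ∃ z : ℤ, C.sl l = z * hf ^ τ' := by
      intro l
      obtain ⟨z, hz⟩ := hC.grid l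
      refine ⟨z * 2 ^ (τ' - τ), ?_⟩
      rw [hz]; push_cast
      rw [mul_assoc, show hf ^ τ' = hf ^ ((τ' - τ) + τ) by rw [Nat.sub_add_cancel (le_max_left _ _)],
        two_hf_eq]
    rintro (⟨l, s⟩ | l | ⟨u, e⟩)
    · exact old l
    · exact old l
    · refine ⟨⌈(C.mid u + C.hw u * U.sl e) * 2 ^ τ'⌉, ?_⟩
      have hv := lt_of_lt_of_le (pow_pos hp _) (hC.hlo u)
      show C.frSl u (rnd C U τ' u e) = _
      unfold Cfg.frSl rnd
      field_simp
      ring
  · rintro ⟨v, g⟩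
    rw [Cfg.hw_comp, pow_add]
    refine mul_le_mul (hC.hlo v) ?_ (pow_nonneg hp.le _) (hC.good.hw_pos v).le
    have h1 := ((hpert v).hw_bounds g).1
    have h2 := hlo g
    have e1 : hf ^ (ηU + 1) = hf ^ ηU / 2 := by rw [pow_succ]; unfold hf; ring
    rw [show max S (2 * (τX + PX - ηX) - τX) + ηX + 2 * (P + 2) + 18 = ηU + 1 from rfl, e1]
    exact le_trans (by linarith [pow_pos hp ηU]) h1
  · rintro ⟨v, g⟩
    rw [Cfg.hw_comp]
    have h1 := ((hpert v).hw_bounds g).2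
    have h2 := hhi g
    calc C.hw v * (U.reslope (t v)).toCfg.hw g
        ≤ (2 ^ P * hf ^ η) * (2 * (2 ^ (PX + 3) * hf ^ ηU)) := by
          refine mul_le_mul (hC.hhi v) ?_ ((hgood v).hw_pos g).le (by positivity)
          refine le_trans h1 ?_
          have : (0 : ℝ) ≤ U.toCfg.hw g := (hU.hw_pos g).le
          linarith
      _ = _ := by
          rw [show η + (max S (2 * (τX + PX - ηX) - τX) + ηX + 2 * (P + 2) + 18)
            = η + ηU + 1 by omega, pow_add hf (η + ηU), pow_add hf η ηU,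
            show P + PX + 5 = P + (PX + 3) + 2 by omega, pow_add, pow_add]
          norm_num [hf]; ring
  · have := hX.free
    have := hC.free
    rw [hτ', heu, eU, eV, eL]
    omega
  all_goals simp only [Cfg.n_comp, Cfg.W_comp, Cfg.m_comp]
  all_goals have hge : C.n * (a * b * X.n) ≤ C.n * U.NS + (C.W + C.m) * U.NE := by
              rw [hNS]; exact Nat.le_add_right _ _
  all_goals have hle : C.n * U.NS + (C.W + C.m) * U.NE ≤ 2 * (C.n * (a * b * X.n)) := by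
              rw [hNS]
              have : (C.W + C.m) * U.NE ≤ C.n * (a * b * X.n) := by
                calc (C.W + C.m) * U.NE ≤ (2 ^ P * C.n) * (3 * b * X.n) :=
                      Nat.mul_le_mul hC.hW hNE
                  _ ≤ (2 ^ P * C.n) * (4 * b * X.n) := by gcongr; norm_num
                  _ = _ := by rw [ha, pow_add]; ring
              omega
  · exact le_trans (Nat.mul_pos hC.one_le (Nat.mul_pos (Nat.mul_pos (Nat.two_pow_pos _)
      (Nat.two_pow_pos _)) hX.one_le)) hge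
  · calc C.n * U.NS + (C.W + C.m) * U.NE ≤ 2 * (C.n * (a * b * X.n)) := hle
      _ ≤ 2 * (2 ^ N * (a * b * 2 ^ NX)) := by gcongr; exact hC.hn; exact hX.hn
      _ = 2 ^ (1 + N + (P + 2) + (τX + 3 + (P + 2)) + NX) := by
          rw [ha, hb]; simp only [pow_add]; ring
      _ ≤ _ := Nat.pow_le_pow_right (by norm_num) (by omega)
  · calc C.n * U.WS + C.W * (U.m + U.WE) + C.m * U.WE + C.m * U.m
        = C.n * U.WS + (C.W + C.m) * (U.m + U.WE) := by ring
      _ ≤ C.n * (a * b * (X.W + 2 * a * X.m))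
            + (2 ^ P * C.n) * (a * b * X.m + (4 * b * X.W + 7 * (a * b) * X.m)) := by
          rw [hWS, hm]; gcongr
          · exact hC.hW
          · exact hWE.trans (by gcongr; norm_num)
      _ = C.n * (a * b) * (2 * X.W + 16 * 2 ^ P * X.m) := by rw [ha, pow_add]; ring
      _ ≤ C.n * (a * b) * (16 * 2 ^ P * (X.W + X.m)) := by
          refine Nat.mul_le_mul_left _ ?_
          rw [Nat.mul_add]
          refine Nat.add_le_add_right (Nat.mul_le_mul_right _ ?_) _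
          have := Nat.one_le_two_pow (n := P)
          omega
      _ ≤ C.n * (a * b) * (16 * 2 ^ P * (2 ^ PX * X.n)) := by gcongr; exact hX.hW
      _ ≤ C.n * (a * b) * (32 * 2 ^ P * (2 ^ PX * X.n)) := by gcongr; norm_num
      _ = 2 ^ (P + PX + 5) * (C.n * (a * b * X.n)) := by simp only [pow_add]; ring
      _ ≤ _ := Nat.mul_le_mul_left _ hge
  · rw [hm]
    calc 2 ^ (G + D + 1) * (C.n * U.NS + (C.W + C.m) * U.NE)
        ≤ 2 ^ (G + D + 1) * (2 * (C.n * (a * b * X.n))) := Nat.mul_le_mul_left _ hle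
      _ = a * b * ((2 ^ G * C.n) * (2 ^ (D + 2) * X.n)) := by simp only [pow_add]; ring
      _ ≤ a * b * ((2 * C.m) * X.m) := by
          refine Nat.mul_le_mul_left _ (Nat.mul_le_mul hC.hG ?_)
          have h2 : 2 * (2 ^ (D + 2) * X.n) ≤ 2 * X.m := by
            calc 2 * (2 ^ (D + 2) * X.n) = 2 ^ (D + 3) * X.n := by ring
              _ ≤ _ := hX.hG
          omega
      _ = _ := by ring

end Vale.Agent.P065c
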