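import Vale.Agent.P065c.Reslope

/-!
# Composition with explicit margins

Every line is replaced by a thin bundle of parallel lines and every marked point by a small
affine copy of a gadget, its two bundles being those of the two lines at the point. The slopes
`t v` of the copy at `v` may depend on `v`.
-/

namespace Vale.Agent.P065c

open Finset Vale.Agent.P065

namespace Cfg

variable (C : Cfg) (G : Gad) (t : C.V → G.E → ℝ) (ε : ℝ)

/-- Slope in global coordinates of a line of slope `τ` of the copy at `u`. -/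
noncomputable def frSl (u : C.V) (τ : ℝ) : ℝ := C.mid u + τ * C.hw u

/-- Intercept in global coordinates, before halving. -/
noncomputable def frIc (u : C.V) (τ b : ℝ) : ℝ := C.y u - C.frSl u τ * C.x u + ε * b

/-- Abscissa in global coordinates, before halving. -/
noncomputable def frX (u : C.V) (p : ℝ) : ℝ := C.x u + ε * p / C.hw u

/-- Ordinate in global coordinates, before halving. -/
noncomputable def frY (u : C.V) (p q : ℝ) : ℝ :=
  C.y u + C.mid u * (ε * p / C.hw u) + ε * q

/-- Index of a line of the copy at `u`. -/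
def gmap (u : C.V) : G.toCfg.L → (C.L × G.S) ⊕ (C.L ⊕ (C.V × G.E)) :=
  Sum.elim (fun s => Sum.inl (C.la u, s))
    (Sum.elim (fun s => Sum.inl (C.lb u, s)) (fun e => Sum.inr (Sum.inr (u, e))))

/-- The composition, scaled by one half. -/
noncomputable abbrev comp : Cfg where
  L := (C.L × G.S) ⊕ (C.L ⊕ (C.V × G.E))
  V := C.V × G.V
  sl := Sum.elim (fun x => C.sl x.1)
    (Sum.elim C.sl (fun x => C.frSl x.1 (t x.1 x.2)))
  ic := Sum.elim (fun x => (C.ic x.1 + ε * G.off x.2) / 2)
    (Sum.elim (fun l => (C.ic l + ε * 3) / 2)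
      (fun x => C.frIc ε x.1 (t x.1 x.2) (G.ic x.2) / 2))
  c := Sum.elim (fun x => C.c x.1 * G.cS x.2)
    (Sum.elim (fun l => C.w l * G.NE) (fun x => G.cE x.2))
  w := Sum.elim (fun x => C.c x.1 * G.wS x.2)
    (Sum.elim (fun l => C.w l * (G.m + G.WE)) (fun x => G.wE x.2))
  x := fun p => C.frX ε p.1 ((G.reslope (t p.1)).x p.2) / 2
  y := fun p => C.frY ε p.1 ((G.reslope (t p.1)).x p.2) ((G.reslope (t p.1)).y p.2) / 2
  la := fun p => Sum.inr (Sum.inr (p.1, G.la p.2))
  lb := fun p => Sum.inr (Sum.inr (p.1, G.lb p.2))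

variable {C G t ε}

lemma mid_comp (v : C.V) (g : G.V) :
    (C.comp G t ε).mid (v, g) = C.frSl v ((G.reslope (t v)).toCfg.mid g) := by
  simp [mid, frSl]; ring

lemma hw_comp (v : C.V) (g : G.V) :
    (C.comp G t ε).hw (v, g) = C.hw v * (G.reslope (t v)).toCfg.hw g := by
  simp [hw, mid, frSl]; ring

/-- Height over a line of the copy at `u` at a point of the copy at `v`. -/
noncomputable def fval (ε : ℝ) (u v : C.V) (τ b p q : ℝ) : ℝ :=
  C.frY ε v p q - C.frSl u τ * C.frX ε v p - C.frIc ε u τ b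

lemma fval_eq (u v : C.V) (τ b p q : ℝ) :
    fval ε u v τ b p q = C.pval u v - τ * C.hw u * (C.x v - C.x u)
      + (C.mid v - C.mid u - τ * C.hw u) * (ε * p / C.hw v) + ε * (q - b) := by
  simp only [fval, pval, frY, frX, frIc, frSl]; ring

lemma fval_self (v : C.V) (hv : C.hw v ≠ 0) (τ b p q : ℝ) :
    fval ε v v τ b p q = ε * (q - τ * p - b) := by
  rw [fval_eq, pval_self]
  field_simp
  ring

lemma val_newE (u v : C.V) (e : G.E) (g : G.V) :
    (C.comp G t ε).val (Sum.inr (Sum.inr (u, e))) (v, g)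
      = fval ε u v (t u e) (G.ic e) ((G.reslope (t v)).x g) ((G.reslope (t v)).y g) / 2 := by
  simp [val, fval]; ring

lemma pval_comp (u v : C.V) (hu : C.hw u ≠ 0) (g' g : G.V) :
    (C.comp G t ε).pval (u, g') (v, g)
      = fval ε u v ((G.reslope (t u)).toCfg.mid g')
          ((G.reslope (t u)).y g' - (G.reslope (t u)).toCfg.mid g' * (G.reslope (t u)).x g')
          ((G.reslope (t v)).x g) ((G.reslope (t v)).y g) / 2 := by
  simp only [pval, mid_comp, fval, frY, frX, frIc, frSl]; field_simp; ring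

lemma val_shift (l : C.L) (v : C.V) (g : G.V) (o : ℝ) :
    C.frY ε v ((G.reslope (t v)).x g) ((G.reslope (t v)).y g) - C.sl l * C.frX ε v ((G.reslope (t v)).x g) - (C.ic l + ε * o)
      = C.val l v + (ε * ((G.reslope (t v)).y g - o) + (C.mid v - C.sl l) * (ε * (G.reslope (t v)).x g / C.hw v)) := by
  simp only [frY, frX, val]; ring

lemma val_sub (l : C.L) (s : G.S) (v : C.V) (g : G.V) :
    (C.comp G t ε).val (Sum.inl (l, s)) (v, g)
      = (C.val l v + (ε * ((G.reslope (t v)).y g - G.off s)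
          + (C.mid v - C.sl l) * (ε * (G.reslope (t v)).x g / C.hw v))) / 2 := by
  rw [← val_shift]; simp [val]; ring

lemma val_dum (l : C.L) (v : C.V) (g : G.V) :
    (C.comp G t ε).val (Sum.inr (Sum.inl l)) (v, g)
      = (C.val l v + (ε * ((G.reslope (t v)).y g - 3)
          + (C.mid v - C.sl l) * (ε * (G.reslope (t v)).x g / C.hw v))) / 2 := by
  rw [← val_shift]; simp [val]; ring

end Cfg

/-- Hypotheses of a composition. -/
structure CompHyp (C : Cfg) (G : Gad) (t : C.V → G.E → ℝ) (ζ σ ζG σG τ ε : ℝ) : Prop where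
  hC : C.Good ζ σ
  hG : ∀ v, (G.reslope (t v)).toCfg.Good ζG σG
  fits : ∀ v, (G.reslope (t v)).Fits τ
  hτ : 16 * τ ≤ σ
  hε : ε = ζ / 64
  hcnt : ∀ u v g, (G.reslope (t u)).toCfg.cnt g = (G.reslope (t v)).toCfg.cnt g
  hpsi : ∀ u v g, (G.reslope (t u)).toCfg.psi g = (G.reslope (t v)).toCfg.psi g

namespace CompHyp

open Cfg

variable {C : Cfg} {G : Gad} {t : C.V → G.E → ℝ} {ζ σ ζG σG τ ε : ℝ}
  (H : CompHyp C G t ζ σ ζG σG τ ε)

include H

lemma εpos : 0 < ε := by rw [H.hε]; linarith [H.hC.ζpos]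

lemma gx (v : C.V) (g : G.V) : |(G.reslope (t v)).x g| ≤ 1 := (H.hG v).bx g

lemma gy (v : C.V) (g : G.V) : |(G.reslope (t v)).y g| ≤ 1 := (H.hG v).bdy g

lemma gmid (v : C.V) (g : G.V) :
    0 ≤ (G.reslope (t v)).toCfg.mid g ∧ (G.reslope (t v)).toCfg.mid g ≤ τ := by
  have h1 := (H.fits v).bsl (G.la g)
  have h2 := (H.fits v).bsl (G.lb g)
  show 0 ≤ (t v (G.la g) + t v (G.lb g)) / 2 ∧ (t v (G.la g) + t v (G.lb g)) / 2 ≤ τ
  constructor <;> linarith [h1.1, h1.2, h2.1, h2.2]

lemma ghw (v : C.V) (g : G.V) : (G.reslope (t v)).toCfg.hw g ≤ τ := by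
  have h1 := (H.fits v).bsl (G.la g)
  have h2 := (H.fits v).bsl (G.lb g)
  show (t v (G.lb g) - t v (G.la g)) / 2 ≤ τ
  linarith [h1.1, h1.2, h2.1, h2.2]

lemma ζG_le_τ (v : C.V) (g : G.V) : ζG ≤ τ := le_trans ((H.hG v).hhw g) (H.ghw v g)

lemma tau_le : τ ≤ 1 / 16 := by linarith [H.hτ, H.hC.σle]

/-- The displacement term is small. -/
lemma disp (v : C.V) (g : G.V) (D : ℝ) :
    |D * (ε * (G.reslope (t v)).x g / C.hw v)| ≤ |D| * ε / C.hw v := by
  have hv := H.hC.hw_pos v
  have hε := H.εpos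
  rw [abs_mul D, abs_div, abs_mul ε, abs_of_pos hε, abs_of_pos hv, mul_div_assoc |D|]
  have hx : ε * |(G.reslope (t v)).x g| ≤ ε := mul_le_of_le_one_right hε.le (H.gx v g)
  exact mul_le_mul_of_nonneg_left (div_le_div_of_nonneg_right hx hv.le) (abs_nonneg D)

/-- A line elsewhere moves by at most an eighth of its margin. -/
lemma shift_small (v : C.V) (g : G.V) (l : C.L) (o : ℝ) (ho : |o| ≤ 3) (h1 : l ≠ C.la v)
    (h2 : l ≠ C.lb v) :
    |ε * ((G.reslope (t v)).y g - o) + (C.mid v - C.sl l) * (ε * (G.reslope (t v)).x g / C.hw v)|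
      ≤ |C.val l v| / 8 := by
  have hv := H.hC.hw_pos v
  have hε := H.εpos
  have hd := H.disp v g (C.mid v - C.sl l)
  have hy : |ε * ((G.reslope (t v)).y g - o)| ≤ 4 * ε := by
    rw [abs_mul, abs_of_pos hε]
    have : |(G.reslope (t v)).y g - o| ≤ 4 := by
      linarith [abs_sub ((G.reslope (t v)).y g) o, H.gy v g]
    nlinarith
  refine le_trans (abs_add_le _ _) (le_trans (add_le_add hy hd) ?_)
  have hl := H.hC.line v l h1 h2
  rw [abs_sub_comm] at hl
  rw [← le_sub_iff_add_le', div_le_iff₀ hv]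
  have e : ζ = 64 * ε := by rw [H.hε]; ring
  rw [e] at hl
  have := abs_nonneg (C.mid v - C.sl l)
  nlinarith

/-- A line of another copy stays on the side of the midline. -/
lemma fval_main (u v : C.V) (huv : u ≠ v) (g : G.V) (s b : ℝ) (hs : 0 ≤ s ∧ s ≤ τ)
    (hb : |b| ≤ 3) :
    0 < fval ε u v s b ((G.reslope (t v)).x g) ((G.reslope (t v)).y g) * C.pval u v ∧
      |C.pval u v| / 2 ≤ |fval ε u v s b ((G.reslope (t v)).x g) ((G.reslope (t v)).y g)| := by
  have hv := H.hC.hw_pos v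
  have hu := H.hC.hw_pos u
  have hε := H.εpos
  have hd := H.disp v g (C.mid v - C.mid u - s * C.hw u)
  have hy : |ε * ((G.reslope (t v)).y g - b)| ≤ 4 * ε := by
    rw [abs_mul, abs_of_pos hε]
    have : |(G.reslope (t v)).y g - b| ≤ 4 := by
      linarith [abs_sub ((G.reslope (t v)).y g) b, H.gy v g]
    nlinarith
  have h2 : |C.mid v - C.mid u - s * C.hw u| ≤ |C.mid u - C.mid v| + C.hw u := by
    refine le_trans (abs_sub _ _) ?_
    rw [abs_sub_comm, abs_mul, abs_of_nonneg hs.1, abs_of_pos hu]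
    gcongr
    exact mul_le_of_le_one_left hu.le (by linarith [H.tau_le, hs.2])
  have h3 : |C.mid v - C.mid u - s * C.hw u| * ε / C.hw v + 4 * ε ≤ |C.pval u v| / 16 := by
    rw [← le_sub_iff_add_le, div_le_iff₀ hv]
    have hp := H.hC.pen u v huv
    have e : ζ = 64 * ε := by rw [H.hε]; ring
    rw [e] at hp
    have := mul_le_mul_of_nonneg_right h2 hε.le
    have := abs_nonneg (C.mid u - C.mid v)
    nlinarith
  rw [fval_eq]
  set small := (C.mid v - C.mid u - s * C.hw u) * (ε * (G.reslope (t v)).x g / C.hw v)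
    + ε * ((G.reslope (t v)).y g - b) with hsm
  have hsmall : |small| ≤ |C.pval u v| / 16 := le_trans (abs_add_le _ _) (by linarith)
  set main := -(s * C.hw u * (C.x v - C.x u)) with hmain
  have e : C.pval u v - s * C.hw u * (C.x v - C.x u)
      + (C.mid v - C.mid u - s * C.hw u) * (ε * (G.reslope (t v)).x g / C.hw v)
      + ε * ((G.reslope (t v)).y g - b) = C.pval u v + main + small := by
    rw [hsm, hmain]; ring
  rw [e]
  have hne : C.pval u v ≠ 0 := fun h => by
    have := H.hC.pval_lb u v huv; rw [h, abs_zero] at this; linarith [H.hC.ζpos]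
  have hcase : |main| ≤ |C.pval u v| / 8 ∨ 0 ≤ main * C.pval u v := by
    rcases H.hC.sep u v huv with h | h
    · left
      rw [hmain, abs_neg, abs_mul, abs_mul, abs_of_nonneg hs.1, abs_of_pos hu]
      have : 16 * s ≤ σ := by linarith [H.hτ, hs.2]
      have := mul_le_mul_of_nonneg_right this (mul_nonneg hu.le (abs_nonneg (C.x v - C.x u)))
      linarith [abs_nonneg (C.pval u v)]
    · right
      have := mul_nonpos_of_nonneg_of_nonpos (mul_nonneg hs.1 hu.le) h
      rw [hmain]; linarith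
  have hsm' := abs_le.mp hsmall
  rcases lt_or_gt_of_ne hne with hp | hp
  · rw [abs_of_neg hp] at hcase hsm' ⊢
    have hm : main ≤ -C.pval u v / 8 := by
      rcases hcase with h | h
      · exact (abs_le.mp h).2
      · by_contra hc
        push Not at hc
        have := mul_neg_of_pos_of_neg (by linarith : 0 < main) hp
        linarith
    have hneg : C.pval u v + main + small < 0 := by linarith [hsm'.2]
    exact ⟨mul_pos_of_neg_of_neg hneg hp, by rw [abs_of_neg hneg]; linarith [hsm'.2]⟩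
  · rw [abs_of_pos hp] at hcase hsm' ⊢
    have hm : -(C.pval u v / 8) ≤ main := by
      rcases hcase with h | h
      · exact (abs_le.mp h).1
      · by_contra hc
        push Not at hc
        have := mul_neg_of_neg_of_pos (by linarith : main < 0) hp
        linarith
    have hpos : 0 < C.pval u v + main + small := by linarith [hsm'.1]
    exact ⟨mul_pos hpos hp, by rw [abs_of_pos hpos]; linarith [hsm'.1]⟩

omit H in
lemma pos01_near {a b : ℝ} (hb : b ≠ 0) (h : |a - b| ≤ |b| / 4) : pos01 a = pos01 b := by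
  apply pos01_of_same
  rcases lt_or_gt_of_ne hb with hb | hb
  · rw [abs_of_neg hb] at h
    have := (abs_le.mp h).2
    exact mul_pos_of_neg_of_neg (by linarith) hb
  · rw [abs_of_pos hb] at h
    have := (abs_le.mp h).1
    exact mul_pos (by linarith) hb

omit H in
lemma abs_near {a b : ℝ} (h : |a - b| ≤ |b| / 4) : |b| / 2 ≤ |a| := by
  have := abs_sub_abs_le_abs_sub b a
  rw [abs_sub_comm] at this
  linarith [abs_nonneg b]

lemma val_sub_self_a (v : C.V) (g : G.V) (s : G.S) :
    (C.comp G t ε).val (Sum.inl (C.la v, s)) (v, g)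
      = ε * (G.reslope (t v)).toCfg.val (Sum.inl s) g / 2 := by
  have hv := (H.hC.hw_pos v).ne'
  rw [val_sub, H.hC.za v, show C.mid v - C.sl (C.la v) = C.hw v by simp [mid, hw]; ring]
  simp [Cfg.val]; field_simp; ring

lemma val_sub_self_b (v : C.V) (g : G.V) (s : G.S) :
    (C.comp G t ε).val (Sum.inl (C.lb v, s)) (v, g)
      = ε * (G.reslope (t v)).toCfg.val (Sum.inr (Sum.inl s)) g / 2 := by
  have hv := (H.hC.hw_pos v).ne'
  rw [val_sub, H.hC.zb v, show C.mid v - C.sl (C.lb v) = -C.hw v by simp [mid, hw]; ring]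
  simp [Cfg.val]; field_simp; ring

lemma val_dum_self (v : C.V) (g : G.V) (l : C.L) (hl : l = C.la v ∨ l = C.lb v) :
    (C.comp G t ε).val (Sum.inr (Sum.inl l)) (v, g) ≤ -ε / 2 := by
  have hv := (H.hC.hw_pos v).ne'
  have hε := H.εpos
  have h1 := abs_le.mp (H.gx v g)
  have h2 := abs_le.mp (H.gy v g)
  rcases hl with rfl | rfl
  · rw [val_dum, H.hC.za v, show C.mid v - C.sl (C.la v) = C.hw v by simp [mid, hw]; ring]
    rw [show C.hw v * (ε * (G.reslope (t v)).x g / C.hw v) = ε * (G.reslope (t v)).x g by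
      field_simp]
    nlinarith
  · rw [val_dum, H.hC.zb v, show C.mid v - C.sl (C.lb v) = -C.hw v by simp [mid, hw]; ring]
    rw [show -C.hw v * (ε * (G.reslope (t v)).x g / C.hw v) = -(ε * (G.reslope (t v)).x g) by
      field_simp]
    nlinarith

lemma val_newE_self (v : C.V) (g : G.V) (e : G.E) :
    (C.comp G t ε).val (Sum.inr (Sum.inr (v, e))) (v, g)
      = ε * (G.reslope (t v)).toCfg.val (Sum.inr (Sum.inr e)) g / 2 := by
  rw [val_newE, fval_self v (H.hC.hw_pos v).ne']; simp [Cfg.val]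

lemma pos_sub (v : C.V) (g : G.V) (l : C.L) (s : G.S) (h1 : l ≠ C.la v) (h2 : l ≠ C.lb v) :
    pos01 ((C.comp G t ε).val (Sum.inl (l, s)) (v, g)) = pos01 (C.val l v) ∧
      |C.val l v| / 4 ≤ |(C.comp G t ε).val (Sum.inl (l, s)) (v, g)| := by
  have hs := H.shift_small v g l (G.off s) (by linarith [((H.fits v).boff s : |G.off s| ≤ 1)]) h1 h2
  have hne : C.val l v ≠ 0 := fun h => by
    have := H.hC.val_lb v l h1 h2; rw [h, abs_zero] at this; linarith [H.hC.ζpos]
  rw [val_sub]
  set d := ε * ((G.reslope (t v)).y g - G.off s) + (C.mid v - C.sl l) * (ε * (G.reslope (t v)).x g / C.hw v)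
  have hd : |C.val l v + d - C.val l v| ≤ |C.val l v| / 4 := by
    rw [add_sub_cancel_left]; linarith [abs_nonneg (C.val l v)]
  refine ⟨?_, ?_⟩
  · rw [div_eq_inv_mul, pos01_mul (by norm_num)]; exact pos01_near hne hd
  · have := abs_near hd
    rw [abs_div, abs_of_pos (by norm_num : (0 : ℝ) < 2)]; linarith

lemma pos_dum (v : C.V) (g : G.V) (l : C.L) (h1 : l ≠ C.la v) (h2 : l ≠ C.lb v) :
    pos01 ((C.comp G t ε).val (Sum.inr (Sum.inl l)) (v, g)) = pos01 (C.val l v) ∧
      |C.val l v| / 4 ≤ |(C.comp G t ε).val (Sum.inr (Sum.inl l)) (v, g)| := by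
  have hs := H.shift_small v g l 3 (by norm_num) h1 h2
  have hne : C.val l v ≠ 0 := fun h => by
    have := H.hC.val_lb v l h1 h2; rw [h, abs_zero] at this; linarith [H.hC.ζpos]
  rw [val_dum]
  set d := ε * ((G.reslope (t v)).y g - 3) + (C.mid v - C.sl l) * (ε * (G.reslope (t v)).x g / C.hw v)
  have hd : |C.val l v + d - C.val l v| ≤ |C.val l v| / 4 := by
    rw [add_sub_cancel_left]; linarith [abs_nonneg (C.val l v)]
  refine ⟨?_, ?_⟩
  · rw [div_eq_inv_mul, pos01_mul (by norm_num)]; exact pos01_near hne hd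
  · have := abs_near hd
    rw [abs_div, abs_of_pos (by norm_num : (0 : ℝ) < 2)]; linarith

lemma pos_fval (u v : C.V) (huv : u ≠ v) (g : G.V) (s b : ℝ) (hs : 0 ≤ s ∧ s ≤ τ)
    (hb : |b| ≤ 3) :
    pos01 (fval ε u v s b ((G.reslope (t v)).x g) ((G.reslope (t v)).y g) / 2)
        = pos01 (C.pval u v) ∧
      |C.pval u v| / 4
        ≤ |fval ε u v s b ((G.reslope (t v)).x g) ((G.reslope (t v)).y g) / 2| := by
  obtain ⟨h1, h2⟩ := H.fval_main u v huv g s b hs hb
  refine ⟨?_, ?_⟩
  · rw [div_eq_inv_mul, pos01_mul (by norm_num)]; exact pos01_of_same h1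
  · rw [abs_div, abs_of_pos (by norm_num : (0 : ℝ) < 2)]; linarith

lemma gpen_ic (v : C.V) (g' : G.V) :
    |(G.reslope (t v)).y g' - (G.reslope (t v)).toCfg.mid g' * (G.reslope (t v)).x g'| ≤ 3 := by
  refine le_trans (abs_sub _ _) ?_
  rw [abs_mul, abs_of_nonneg (H.gmid v g').1]
  have h1 := (H.gmid v g').2
  have h2 := H.gx v g'
  have h3 := H.gy v g'
  have : (G.reslope (t v)).toCfg.mid g' * |(G.reslope (t v)).x g'| ≤ 1 * 1 :=
    mul_le_mul (by linarith [H.tau_le]) h2 (abs_nonneg _) zero_le_one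
  linarith

lemma pos_pval (u v : C.V) (huv : u ≠ v) (g' g : G.V) :
    pos01 ((C.comp G t ε).pval (u, g') (v, g)) = pos01 (C.pval u v) ∧
      |C.pval u v| / 4 ≤ |(C.comp G t ε).pval (u, g') (v, g)| := by
  rw [pval_comp u v (H.hC.hw_pos u).ne']
  exact H.pos_fval u v huv g _ _ (H.gmid u g') (H.gpen_ic u g')

lemma pval_self_comp (v : C.V) (g' g : G.V) :
    (C.comp G t ε).pval (v, g') (v, g) = ε * (G.reslope (t v)).toCfg.pval g' g / 2 := by
  rw [pval_comp v v (H.hC.hw_pos v).ne', fval_self v (H.hC.hw_pos v).ne']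
  simp only [Cfg.pval]; ring

end CompHyp

end Vale.Agent.P065c
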