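import Vale.Agent.P065c.Comp

/-!
# Composition preserves exactness, with margins `ζ ζG / 256`
-/

namespace Vale.Agent.P065c

open Finset Vale.Agent.P065
open scoped Classical

namespace Cfg

variable {C : Cfg} {G : Gad} {t : C.V → G.E → ℝ} {ε : ℝ}

lemma sum_comp (F : (C.comp G t ε).L → ℕ) :
    ∑ l, F l = (∑ l : C.L, ∑ s, F (Sum.inl (l, s))) + (∑ l : C.L, F (Sum.inr (Sum.inl l)))
      + ∑ u : C.V, ∑ e, F (Sum.inr (Sum.inr (u, e))) := by
  have g : ∀ F : (C.L × G.S) ⊕ (C.L ⊕ (C.V × G.E)) → ℕ,
      ∑ l, F l = (∑ l : C.L, ∑ s, F (Sum.inl (l, s))) + (∑ l : C.L, F (Sum.inr (Sum.inl l)))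
        + ∑ u : C.V, ∑ e, F (Sum.inr (Sum.inr (u, e))) := by
    intro F
    simp only [Fintype.sum_sum_type, Fintype.sum_prod_type]
    ring
  exact g F

lemma n_comp : (C.comp G t ε).n = C.n * G.NS + (C.W + C.m) * G.NE := by
  unfold n
  rw [sum_comp]
  simp only [Sum.elim_inl, Sum.elim_inr, ← Finset.mul_sum, ← Finset.sum_mul, Finset.sum_const,
    Finset.card_univ, smul_eq_mul]
  simp only [W, m, Gad.NS, Gad.NE]
  ring

lemma W_comp : (C.comp G t ε).W = C.n * G.WS + C.W * (G.m + G.WE) + C.m * G.WE := by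
  unfold W
  rw [sum_comp]
  simp only [Sum.elim_inl, Sum.elim_inr, ← Finset.mul_sum, ← Finset.sum_mul, Finset.sum_const,
    Finset.card_univ, smul_eq_mul]
  simp only [n, m, Gad.WS, Gad.WE]

lemma m_comp : (C.comp G t ε).m = C.m * G.m := by
  simp [m, Gad.m]

end Cfg

namespace CompHyp

open Cfg

variable {C : Cfg} {G : Gad} {t : C.V → G.E → ℝ} {ζ σ ζG σG τ ε : ℝ}
  (H : CompHyp C G t ζ σ ζG σG τ ε)

include H

/-- Weighted number of lines below, in terms of the two factors. -/
lemma weighted (v : C.V) (g : G.V) (f fD : C.L → ℕ) (fS : G.S → ℕ) (fE : G.E → ℕ)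
    (hfa : f (C.la v) = 1) (hfb : f (C.lb v) = 1) :
    (∑ l : C.L, ∑ s, f l * fS s * pos01 ((C.comp G t ε).val (Sum.inl (l, s)) (v, g)))
      + (∑ l : C.L, fD l * pos01 ((C.comp G t ε).val (Sum.inr (Sum.inl l)) (v, g)))
      + ∑ u : C.V, ∑ e, fE e * pos01 ((C.comp G t ε).val (Sum.inr (Sum.inr (u, e))) (v, g))
    = (∑ s, fS s) * (∑ l, f l * pos01 (C.val l v))
      + (∑ l, fD l * pos01 (C.val l v))
      + (∑ e, fE e) * (∑ u, pos01 (C.pval u v))
      + ((∑ s, fS s * pos01 ((G.reslope (t v)).toCfg.val (Sum.inl s) g))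
        + (∑ s, fS s * pos01 ((G.reslope (t v)).toCfg.val (Sum.inr (Sum.inl s)) g))
        + ∑ e, fE e * pos01 ((G.reslope (t v)).toCfg.val (Sum.inr (Sum.inr e)) g)) := by
  have hne := H.hC.la_ne_lb v
  have hε := H.εpos
  have h2 : ∀ a : ℝ, pos01 (ε * a / 2) = pos01 a := fun a => by
    rw [show ε * a / 2 = (ε / 2) * a by ring]; exact pos01_mul (by linarith) a
  have hA : ∀ l : C.L,
      (∑ s, f l * fS s * pos01 ((C.comp G t ε).val (Sum.inl (l, s)) (v, g)))
      = (∑ s, fS s) * (f l * pos01 (C.val l v))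
        + ((if l = C.la v then ∑ s, fS s * pos01 ((G.reslope (t v)).toCfg.val (Sum.inl s) g) else 0)
        + (if l = C.lb v then ∑ s, fS s * pos01 ((G.reslope (t v)).toCfg.val (Sum.inr (Sum.inl s)) g)
            else 0)) := by
    intro l
    by_cases ha : l = C.la v
    · subst ha
      rw [if_pos rfl, if_neg hne, H.hC.za v, pos01_zero, hfa]
      simp only [H.val_sub_self_a, h2, mul_zero, zero_add, add_zero, one_mul]
    by_cases hb : l = C.lb v
    · subst hb
      rw [if_neg ha, if_pos rfl, H.hC.zb v, pos01_zero, hfb]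
      simp only [H.val_sub_self_b, h2, mul_zero, zero_add, one_mul]
    rw [if_neg ha, if_neg hb, add_zero, add_zero, Finset.sum_mul]
    refine Finset.sum_congr rfl fun s _ => ?_
    rw [(H.pos_sub v g l s ha hb).1]; ring
  have hD : ∀ l : C.L, fD l * pos01 ((C.comp G t ε).val (Sum.inr (Sum.inl l)) (v, g))
      = fD l * pos01 (C.val l v) := by
    intro l
    by_cases hl : l = C.la v ∨ l = C.lb v
    · have h := H.val_dum_self v g l hl
      rw [pos01_of_nonpos (le_trans h (by linarith))]
      rcases hl with rfl | rfl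
      · rw [H.hC.za v, pos01_zero]
      · rw [H.hC.zb v, pos01_zero]
    push Not at hl
    rw [(H.pos_dum v g l hl.1 hl.2).1]
  have hB : ∀ u : C.V,
      ∑ e, fE e * pos01 ((C.comp G t ε).val (Sum.inr (Sum.inr (u, e))) (v, g))
      = (∑ e, fE e) * pos01 (C.pval u v)
        + (if u = v then ∑ e, fE e * pos01 ((G.reslope (t v)).toCfg.val (Sum.inr (Sum.inr e)) g) else 0) := by
    intro u
    by_cases h : u = v
    · subst h
      rw [if_pos rfl, pval_self, pos01_zero]
      simp only [H.val_newE_self, h2, mul_zero, zero_add]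
    · rw [if_neg h, add_zero, Finset.sum_mul]
      refine Finset.sum_congr rfl fun e _ => ?_
      rw [val_newE,
        (H.pos_fval u v h g _ _ ((H.fits u).bsl e)
          (by linarith [((H.fits u).bic e : |G.ic e| ≤ 2)])).1]
  rw [Finset.sum_congr rfl (fun l _ => hA l), Finset.sum_congr rfl (fun l _ => hD l),
    Finset.sum_congr rfl (fun u _ => hB u)]
  simp only [Finset.sum_add_distrib, Finset.sum_ite_eq', Finset.mem_univ, if_true,
    ← Finset.mul_sum]
  ring

lemma cnt_comp (v : C.V) (g : G.V) :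
    (C.comp G t ε).cnt (v, g) = G.NS * C.cnt v + G.NE * C.psi v + (G.reslope (t v)).toCfg.cnt g := by
  unfold cnt
  rw [sum_comp]
  simp only [Sum.elim_inl, Sum.elim_inr]
  refine (H.weighted v g C.c (fun l => C.w l * G.NE) G.cS G.cE (H.hC.cla v) (H.hC.clb v)).trans ?_
  have h1 : ∑ l, C.w l * G.NE * pos01 (C.val l v)
      = G.NE * ∑ l, C.w l * pos01 (C.val l v) := by
    rw [Finset.mul_sum]; exact Finset.sum_congr rfl fun l _ => by ring
  rw [h1]
  simp only [psi, Gad.NS, Gad.NE, Fintype.sum_sum_type, Sum.elim_inl, Sum.elim_inr]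
  ring

lemma psi_comp (v : C.V) (g : G.V) :
    (C.comp G t ε).psi (v, g)
      = G.WS * C.cnt v + (G.m + G.WE) * C.psi v + (G.reslope (t v)).toCfg.psi g := by
  unfold psi
  rw [sum_comp]
  simp only [Sum.elim_inl, Sum.elim_inr]
  have hp : ∑ x : (C.comp G t ε).V, pos01 ((C.comp G t ε).pval x (v, g))
      = G.m * (∑ u, pos01 (C.pval u v)) + ∑ g', pos01 ((G.reslope (t v)).toCfg.pval g' g) := by
    show ∑ x : C.V × G.V, pos01 ((C.comp G t ε).pval x (v, g)) = _
    rw [Fintype.sum_prod_type]
    have hB : ∀ u : C.V, ∑ g', pos01 ((C.comp G t ε).pval (u, g') (v, g))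
        = G.m * pos01 (C.pval u v)
          + (if u = v then ∑ g', pos01 ((G.reslope (t v)).toCfg.pval g' g) else 0) := by
      intro u
      by_cases h : u = v
      · subst h
        rw [if_pos rfl, pval_self, pos01_zero, mul_zero, zero_add]
        refine Finset.sum_congr rfl fun g' _ => ?_
        rw [H.pval_self_comp, show ∀ a : ℝ, ε * a / 2 = (ε / 2) * a from fun a => by ring]
        exact pos01_mul (by linarith [H.εpos]) _
      · rw [if_neg h, add_zero, Finset.sum_congr rfl (fun g' _ => (H.pos_pval u v h g' g).1)]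
        simp [Gad.m]
    rw [Finset.sum_congr rfl (fun u _ => hB u)]
    simp [Finset.sum_add_distrib, Finset.mul_sum]
  refine (congrArg₂ (· + ·) hp (H.weighted v g C.c (fun l => C.w l * (G.m + G.WE)) G.wS G.wE
    (H.hC.cla v) (H.hC.clb v))).trans ?_
  have h1 : ∑ l, C.w l * (G.m + G.WE) * pos01 (C.val l v)
      = (G.m + G.WE) * ∑ l, C.w l * pos01 (C.val l v) := by
    rw [Finset.mul_sum]; exact Finset.sum_congr rfl fun l _ => by ring
  rw [h1]
  simp only [cnt, Gad.WS, Gad.WE, Fintype.sum_sum_type, Sum.elim_inl, Sum.elim_inr]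
  ring

/-- The marginal facts about the copy at `v`. -/
lemma gG (v : C.V) : 0 < ζG ∧ ζG ≤ 1 ∧ 0 < σG ∧ σG ≤ 1 :=
  ⟨(H.hG v).ζpos, (H.hG v).ζle, (H.hG v).σpos, (H.hG v).σle⟩

/-- Margins of the composition. -/
theorem good (v0 : C.V) : (C.comp G t ε).Good (ζ * ζG / 256) σG := by
  have hε := H.εpos
  have hζ := H.hC.ζpos
  obtain ⟨hζG, hζG1, hσG, hσG1⟩ := H.gG v0
  have hτ := H.tau_le
  have eζ : ζ = 64 * ε := by rw [H.hε]; ring
  -- a margin of the outer configuration gives one of the composition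
  have key : ∀ (v : C.V) (g : G.V) (A A' x x' : ℝ), 0 ≤ A → A' ≤ 2 * (A + C.hw v) →
      ζ * (A + C.hw v) ≤ x * C.hw v → x / 4 ≤ x' →
      ζ * ζG / 256 * A' ≤ x' * (C.hw v * (G.reslope (t v)).toCfg.hw g) := by
    intro v g A A' x x' hA hA' hx hx'
    have hv := H.hC.hw_pos v
    have hg := (H.hG v).hhw g
    have hx0 : 0 ≤ x := by
      by_contra hc; push Not at hc
      nlinarith [mul_neg_of_neg_of_pos hc hv, mul_nonneg hζ.le (add_nonneg hA hv.le)]
    calc ζ * ζG / 256 * A' ≤ ζ * ζG / 256 * (2 * (A + C.hw v)) :=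
          mul_le_mul_of_nonneg_left hA' (by positivity)
      _ ≤ ζG * (x * C.hw v) / 128 := by
          have := mul_le_mul_of_nonneg_left hx hζG.le; linarith
      _ ≤ (G.reslope (t v)).toCfg.hw g * (x * C.hw v) / 4 := by
          have := mul_le_mul_of_nonneg_right hg (mul_nonneg hx0 hv.le)
          nlinarith [mul_nonneg hζG.le (mul_nonneg hx0 hv.le)]
      _ ≤ _ := by
          have := mul_le_mul_of_nonneg_right hx'
            (mul_nonneg hv.le (le_trans hζG.le hg))
          linarith
  -- a margin of the gadget gives one of the composition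
  have keyG : ∀ (v : C.V) (g : G.V) (A A' x : ℝ), A' ≤ C.hw v * A →
      ζG * A ≤ x * (G.reslope (t v)).toCfg.hw g → 0 ≤ x →
      ζ * ζG / 256 * A' ≤ ε * x / 2 * (C.hw v * (G.reslope (t v)).toCfg.hw g) := by
    intro v g A A' x hA' hx hx0
    have hv := H.hC.hw_pos v
    calc ζ * ζG / 256 * A' ≤ ζ * ζG / 256 * (C.hw v * A) :=
          mul_le_mul_of_nonneg_left hA' (by positivity)
      _ = ε / 4 * C.hw v * (ζG * A) := by rw [eζ]; ring
      _ ≤ ε / 4 * C.hw v * (x * (G.reslope (t v)).toCfg.hw g) := mul_le_mul_of_nonneg_left hx (by positivity)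
      _ ≤ _ := by
          have := mul_nonneg (mul_nonneg hε.le hv.le)
            (mul_nonneg hx0 (le_trans hζG.le ((H.hG v).hhw g)))
          linarith
  have hfr : ∀ (u : C.V) (t : ℝ), |t| ≤ 1 → |C.frSl u t| ≤ 1 := by
    intro u t ht
    have h1 := abs_le.mp (H.hC.bsl (C.la u))
    have h2 := abs_le.mp (H.hC.bsl (C.lb u))
    have hu := H.hC.hw_pos u
    have ht' := abs_le.mp ht
    simp only [frSl, abs_le, mid, hw] at *
    constructor <;> nlinarith
  have hmid : ∀ (v : C.V) (g : G.V), |(C.comp G t ε).mid (v, g) - C.mid v| ≤ C.hw v / 8 := by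
    intro v g
    rw [mid_comp, frSl, add_sub_cancel_left, abs_mul, abs_of_pos (H.hC.hw_pos v),
      abs_of_nonneg (H.gmid v g).1]
    have := mul_le_mul_of_nonneg_right (le_trans (H.gmid v g).2 hτ) (H.hC.hw_pos v).le
    linarith [H.hC.hw_pos v]
  have hhw : ∀ (v : C.V) (g : G.V), (C.comp G t ε).hw (v, g) ≤ C.hw v / 8 := by
    intro v g
    rw [hw_comp]
    have := mul_le_mul_of_nonneg_left (le_trans (H.ghw v g) hτ) (H.hC.hw_pos v).le
    linarith [H.hC.hw_pos v]
  refine ⟨by positivity, ?_, hσG, hσG1, ?_, ?_, ?_, ?_, ?_, ?_, ?_, ?_, ?_, ?_, ?_, ?_,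
    ?_, ?_⟩
  · nlinarith [H.hC.ζle, hζG1, mul_pos hζ hζG]
  · rintro ⟨v, g⟩
    rw [H.val_newE_self v g (G.la g)]
    have := (H.hG v).za g
    rw [show (G.reslope (t v)).toCfg.val (Sum.inr (Sum.inr (G.la g))) g = 0 from this]; simp
  · rintro ⟨v, g⟩
    rw [H.val_newE_self v g (G.lb g)]
    have := (H.hG v).zb g
    rw [show (G.reslope (t v)).toCfg.val (Sum.inr (Sum.inr (G.lb g))) g = 0 from this]; simp
  · rintro ⟨v, g⟩
    rw [hw_comp]
    calc ζ * ζG / 256 ≤ ζ * ζG := by linarith [mul_pos hζ hζG]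
      _ ≤ _ := mul_le_mul (H.hC.hhw v) ((H.hG v).hhw g) hζG.le (H.hC.hw_pos v).le
  · rintro ⟨v, g⟩
    exact (H.hG v).cla g
  · rintro ⟨v, g⟩
    exact (H.hG v).clb g
  · rintro ⟨v, g⟩ L h1 h2
    have e1 := hmid v g
    have e2 := hhw v g
    have hv := H.hC.hw_pos v
    have outer : ∀ (sT : ℝ) (l : C.L), l ≠ C.la v → l ≠ C.lb v → sT = C.sl l →
        |sT - (C.comp G t ε).mid (v, g)| + (C.comp G t ε).hw (v, g)
          ≤ 2 * (|C.sl l - C.mid v| + C.hw v) := by
      intro sT l _ _ ht
      subst ht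
      have := abs_sub_le (C.sl l) (C.mid v) ((C.comp G t ε).mid (v, g))
      rw [abs_sub_comm (C.mid v)] at this
      have := abs_nonneg (C.sl l - C.mid v)
      linarith
    have inner : ∀ (ℓ : G.toCfg.L), ℓ ≠ G.toCfg.la g → ℓ ≠ G.toCfg.lb g →
        ∀ sT : ℝ, sT = C.mid v + (G.reslope (t v)).toCfg.sl ℓ * C.hw v →
        ζ * ζG / 256 * (|sT - (C.comp G t ε).mid (v, g)| + (C.comp G t ε).hw (v, g))
          ≤ ε * |(G.reslope (t v)).toCfg.val ℓ g| / 2 * (C.hw v * (G.reslope (t v)).toCfg.hw g) := by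
      intro ℓ n1 n2 sT ht
      refine keyG v g (|(G.reslope (t v)).toCfg.sl ℓ - (G.reslope (t v)).toCfg.mid g| + (G.reslope (t v)).toCfg.hw g) _ _ (le_of_eq ?_)
        ((H.hG v).line g ℓ n1 n2) (abs_nonneg _)
      subst ht
      rw [mid_comp, hw_comp, frSl,
        show C.mid v + (G.reslope (t v)).toCfg.sl ℓ * C.hw v - (C.mid v + (G.reslope (t v)).toCfg.mid g * C.hw v)
          = C.hw v * ((G.reslope (t v)).toCfg.sl ℓ - (G.reslope (t v)).toCfg.mid g) by ring,
        abs_mul, abs_of_pos hv]
      ring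
    have absε : ∀ a : ℝ, |ε * a / 2| = ε * |a| / 2 := fun a => by
      rw [abs_div, abs_mul, abs_of_pos hε, abs_of_pos (by norm_num : (0 : ℝ) < 2)]
    rw [hw_comp (v := v) (g := g)] at *
    rcases L with ⟨l, s⟩ | l | ⟨u, e⟩
    · by_cases ha : l = C.la v
      · subst ha
        rw [H.val_sub_self_a, absε]
        have := inner (Sum.inl s) (by simp) (by simp) (C.sl (C.la v))
          (by simp [mid, hw]; ring)
        exact this
      by_cases hb : l = C.lb v
      · subst hb
        rw [H.val_sub_self_b, absε]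
        have := inner (Sum.inr (Sum.inl s)) (by simp) (by simp) (C.sl (C.lb v))
          (by simp [mid, hw]; ring)
        exact this
      have o := outer (C.sl l) l ha hb rfl
      exact key v g _ _ _ _ (abs_nonneg _) o (H.hC.line v l ha hb) (H.pos_sub v g l s ha hb).2
    · by_cases hl : l = C.la v ∨ l = C.lb v
      · have hneg := H.val_dum_self v g l hl
        have hge : ε / 2 ≤ |(C.comp G t ε).val (Sum.inr (Sum.inl l)) (v, g)| := by
          rw [abs_of_neg (by linarith)]; linarith
        have hd : |C.sl l - C.mid v| = C.hw v := by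
          rcases hl with rfl | rfl
          · rw [show C.sl (C.la v) - C.mid v = -C.hw v by simp [mid, hw]; ring, abs_neg,
              abs_of_pos hv]
          · rw [show C.sl (C.lb v) - C.mid v = C.hw v by simp [mid, hw]; ring, abs_of_pos hv]
        have tri := abs_sub_le (C.sl l) (C.mid v) ((C.comp G t ε).mid (v, g))
        rw [abs_sub_comm (C.mid v), hd] at tri
        calc ζ * ζG / 256 * (|C.sl l - (C.comp G t ε).mid (v, g)| + C.hw v * (G.reslope (t v)).toCfg.hw g)
            ≤ ζ * ζG / 256 * (2 * C.hw v) :=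
              mul_le_mul_of_nonneg_left (by linarith) (by positivity)
          _ = ε / 2 * (C.hw v * ζG) := by rw [eζ]; ring
          _ ≤ _ := mul_le_mul hge (mul_le_mul_of_nonneg_left ((H.hG v).hhw g) hv.le) (by positivity)
              (abs_nonneg _)
      push Not at hl
      have o := outer (C.sl l) l hl.1 hl.2 rfl
      exact key v g _ _ _ _ (abs_nonneg _) o (H.hC.line v l hl.1 hl.2)
        (H.pos_dum v g l hl.1 hl.2).2
    · by_cases h : v = u
      · subst h
        rw [H.val_newE_self, absε]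
        have := inner (Sum.inr (Sum.inr e))
          (fun hh => h1 (by simp at hh; simp [hh])) (fun hh => h2 (by simp at hh; simp [hh]))
          (C.frSl v (t v e)) (by simp [frSl])
        exact this
      · have hu := H.hC.hw_pos u
        have he : |t u e| ≤ 1 := by
          have := (H.fits u).bsl e
          rw [abs_of_nonneg this.1]; linarith [this.2]
        have tri := abs_sub_le (C.frSl u (t u e)) (C.mid v) ((C.comp G t ε).mid (v, g))
        rw [abs_sub_comm (C.mid v)] at tri
        have tri2 : |C.frSl u (t u e) - C.mid v| ≤ |C.mid u - C.mid v| + C.hw u := by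
          rw [show C.frSl u (t u e) - C.mid v = (C.mid u - C.mid v) + t u e * C.hw u by
            simp [frSl]; ring]
          refine le_trans (abs_add_le _ _) ?_
          rw [abs_mul, abs_of_pos hu]
          have := mul_le_of_le_one_left hu.le he
          linarith
        rw [val_newE]
        have := abs_nonneg (C.mid u - C.mid v)
        show ζ * ζG / 256 * (|C.frSl u (t u e) - _| + _) ≤ _
        refine key v g (|C.mid u - C.mid v| + C.hw u) _ _ _ (by linarith) (by linarith)
          (H.hC.pen u v (Ne.symm h)) ?_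
        exact (H.pos_fval u v (Ne.symm h) g _ _ ((H.fits u).bsl e) (by linarith [((H.fits u).bic e : |G.ic e| ≤ 2)])).2
  · rintro ⟨u, g'⟩ ⟨v, g⟩ hne
    have hv := H.hC.hw_pos v
    have hu := H.hC.hw_pos u
    by_cases h : v = u
    · subst h
      rw [H.pval_self_comp, abs_div, abs_mul, abs_of_pos hε,
        abs_of_pos (by norm_num : (0 : ℝ) < 2), hw_comp, hw_comp, mid_comp, mid_comp]
      refine keyG v g (|(G.reslope (t v)).toCfg.mid g' - (G.reslope (t v)).toCfg.mid g| + (G.reslope (t v)).toCfg.hw g' + (G.reslope (t v)).toCfg.hw g) _ _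
        (le_of_eq ?_) ((H.hG v).pen g' g (fun hh => hne (by rw [hh]))) (abs_nonneg _)
      simp only [frSl]
      rw [show C.mid v + (G.reslope (t v)).toCfg.mid g' * C.hw v - (C.mid v + (G.reslope (t v)).toCfg.mid g * C.hw v)
          = C.hw v * ((G.reslope (t v)).toCfg.mid g' - (G.reslope (t v)).toCfg.mid g) by ring, abs_mul, abs_of_pos hv]
      ring
    · have e1 := hmid v g
      have e2 := hhw v g
      have e3 := hmid u g'
      have e4 := hhw u g'
      have tri := abs_sub_le ((C.comp G t ε).mid (u, g')) (C.mid v) ((C.comp G t ε).mid (v, g))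
      rw [abs_sub_comm (C.mid v)] at tri
      have tri2 := abs_sub_le ((C.comp G t ε).mid (u, g')) (C.mid u) (C.mid v)
      have h0 := abs_nonneg (C.mid u - C.mid v)
      rw [hw_comp (v := v) (g := g)] at e2 ⊢
      exact key v g (|C.mid u - C.mid v| + C.hw u) _ _ _ (by linarith) (by linarith)
        (H.hC.pen u v (Ne.symm h)) (H.pos_pval u v (Ne.symm h) g' g).2
  · rintro ⟨u, g'⟩ ⟨v, g⟩ hne
    have hv := H.hC.hw_pos v
    have hu := H.hC.hw_pos u
    rw [hw_comp]
    by_cases h : v = u
    · subst h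
      rw [H.pval_self_comp]
      set p := (G.reslope (t v)).toCfg.pval g' g
      set D := (G.reslope (t v)).x g - (G.reslope (t v)).x g'
      have ex : (C.comp G t ε).x (v, g) - (C.comp G t ε).x (v, g') = ε / 2 * D / C.hw v := by
        simp only [frX, D]; field_simp; ring
      rw [ex]
      rcases (H.hG v).sep g' g (fun hh => hne (by rw [hh])) with hs | hs
      · left
        rw [show |ε / 2 * D / C.hw v| = ε / 2 * |D| / C.hw v by
            rw [abs_div, abs_mul, abs_of_pos (by positivity : 0 < ε / 2), abs_of_pos hv],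
          show |ε * p / 2| = ε * |p| / 2 by
            rw [abs_div, abs_mul, abs_of_pos hε, abs_of_pos (by norm_num : (0 : ℝ) < 2)]]
        calc σG * (C.hw v * (G.reslope (t v)).toCfg.hw g') * (ε / 2 * |D| / C.hw v)
            = ε / 2 * (σG * (G.reslope (t v)).toCfg.hw g' * |D|) := by field_simp
          _ ≤ ε / 2 * |p| := mul_le_mul_of_nonneg_left hs (by positivity)
          _ = _ := by ring
      · right
        rw [show ε * p / 2 * (ε / 2 * D / C.hw v) = ε * ε / (4 * C.hw v) * (p * D) by ring]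
        exact mul_nonpos_of_nonneg_of_nonpos (by positivity) hs
    · replace h : u ≠ v := Ne.symm h
      have hσ := H.hC.σpos
      have hpn := H.hC.pen u v h
      set dv := ε * (G.reslope (t v)).x g / C.hw v
      set du := ε * (G.reslope (t u)).x g' / C.hw u
      set Dx := C.x v - C.x u
      set Dn := (C.comp G t ε).x (v, g) - (C.comp G t ε).x (u, g')
      have eDn : Dn = (Dx + dv + -du) / 2 := by simp only [Dn, Dx, dv, du, frX]; ring
      have hD : C.hw u * |dv| ≤ |C.pval u v| := by
        rw [abs_div, abs_mul, abs_of_pos hε, abs_of_pos hv, ← mul_div_assoc, div_le_iff₀ hv]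
        have h1 : C.hw u * (ε * |(G.reslope (t v)).x g|) ≤ C.hw u * (ε * 1) :=
          mul_le_mul_of_nonneg_left (mul_le_mul_of_nonneg_left (H.gx v g) hε.le) hu.le
        rw [eζ] at hpn
        have := abs_nonneg (C.mid u - C.mid v)
        nlinarith
      have hD' : C.hw u * |du| ≤ |C.pval u v| := by
        rw [abs_div, abs_mul, abs_of_pos hε, abs_of_pos hu, mul_div_cancel₀ _ hu.ne']
        have := mul_le_of_le_one_right hε.le (H.gx u g')
        linarith [H.hC.pval_lb u v h]
      obtain ⟨hpos, h4⟩ := H.pos_pval u v h g' g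
      have hne' : C.pval u v ≠ 0 := fun hh => by
        have := H.hC.pval_lb u v h; rw [hh, abs_zero] at this; linarith
      have mag : σ * (C.hw u * |Dx|) ≤ 3 * |C.pval u v| →
          σG * (C.hw u * (G.reslope (t u)).toCfg.hw g') * |Dn|
            ≤ |(C.comp G t ε).pval (u, g') (v, g)| := by
        intro hm
        have t3 := mul_le_mul_of_nonneg_left (abs_add_three Dx dv (-du)) (mul_nonneg hσ.le hu.le)
        rw [abs_neg] at t3
        have := mul_le_mul_of_nonneg_left hD hσ.le
        have := mul_le_mul_of_nonneg_left hD' hσ.le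
        have := mul_le_of_le_one_left (abs_nonneg (C.pval u v)) H.hC.σle
        have hx : σ * (C.hw u * |Dn|) ≤ 5 / 2 * |C.pval u v| := by
          rw [eDn, abs_div, abs_of_pos (by norm_num : (0 : ℝ) < 2)]
          nlinarith
        calc σG * (C.hw u * (G.reslope (t u)).toCfg.hw g') * |Dn|
            = σG * (G.reslope (t u)).toCfg.hw g' * (C.hw u * |Dn|) := by ring
          _ ≤ 1 * τ * (C.hw u * |Dn|) := by
              refine mul_le_mul_of_nonneg_right (mul_le_mul hσG1 (H.ghw u g') ?_ zero_le_one)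
                (mul_nonneg hu.le (abs_nonneg _))
              exact le_trans hζG.le ((H.hG u).hhw g')
          _ ≤ σ / 16 * (C.hw u * |Dn|) := by
              refine mul_le_mul_of_nonneg_right ?_ (mul_nonneg hu.le (abs_nonneg _))
              linarith [H.hτ]
          _ ≤ |C.pval u v| / 4 := by linarith [abs_nonneg (C.pval u v)]
          _ ≤ _ := h4
      rcases H.hC.sep u v h with hs | hs
      · exact Or.inl (mag (by
          have := abs_nonneg (C.pval u v)
          rw [← mul_assoc]; linarith))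
      by_cases hc : C.hw u * |Dx| ≤ 3 * |C.pval u v|
      · exact Or.inl (mag (le_trans (mul_le_of_le_one_left
          (mul_nonneg hu.le (abs_nonneg _)) H.hC.σle) hc))
      push Not at hc
      right
      have hdd : |dv| + |du| < |Dx| := by
        have : C.hw u * (|dv| + |du|) < C.hw u * |Dx| := by
          linarith [abs_nonneg (C.pval u v)]
        exact lt_of_mul_lt_mul_left this hu.le
      have a1 := le_abs_self dv; have a2 := neg_abs_le dv
      have a3 := le_abs_self du; have a4 := neg_abs_le du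
      rw [eDn]
      rcases lt_or_gt_of_ne hne' with hp | hp
      · have hq : (C.comp G t ε).pval (u, g') (v, g) ≤ 0 := by
          by_contra hq; push Not at hq
          rw [pos01_of_pos hq, pos01_of_nonpos hp.le] at hpos
          exact absurd hpos one_ne_zero
        have hDx : 0 ≤ Dx := by
          by_contra hh; push Not at hh
          have := mul_pos_of_neg_of_neg hp hh
          linarith
        rw [abs_of_nonneg hDx] at hdd
        exact mul_nonpos_of_nonpos_of_nonneg hq (by linarith)
      · have hq : 0 < (C.comp G t ε).pval (u, g') (v, g) := by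
          by_contra hq; push Not at hq
          rw [pos01_of_nonpos hq, pos01_of_pos hp] at hpos
          exact absurd hpos zero_ne_one
        have hDx : Dx ≤ 0 := by
          by_contra hh; push Not at hh
          have := mul_pos hp hh
          linarith
        rw [abs_of_nonpos hDx] at hdd
        exact mul_nonpos_of_nonneg_of_nonpos hq.le (by linarith)
  · rintro (⟨l, s⟩ | l | ⟨u, e⟩)
    · exact H.hC.bsl l
    · exact H.hC.bsl l
    · exact hfr u _ (by
        have := (H.fits u).bsl e
        rw [abs_of_nonneg this.1]; linarith [this.2])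
  · have hε1 : ∀ u : C.V, ε ≤ 1 / 64 := fun u => by
      linarith [H.hC.hhw u, H.hC.hw_le_one u]
    have hb : ∀ a : ℝ, ∀ l : C.L, |a| ≤ 3 → ε ≤ 1 → |(C.ic l + ε * a) / 2| ≤ 4 := by
      intro a l ha h1
      rw [abs_div, abs_of_pos (by norm_num : (0 : ℝ) < 2)]
      have := abs_add_le (C.ic l) (ε * a)
      rw [abs_mul, abs_of_pos hε] at this
      have := H.hC.bic l
      nlinarith [abs_nonneg a]
    have hε' : ∀ l : C.L, ε ≤ 1 / 64 := by
      intro l
      linarith [H.hC.ζle]
    rintro (⟨l, s⟩ | l | ⟨u, e⟩)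
    · exact hb _ l (by linarith [((H.fits v0).boff s : |G.off s| ≤ 1)]) (le_trans (hε' l) (by norm_num))
    · exact hb 3 l (by norm_num) (le_trans (hε' l) (by norm_num))
    · show |C.frIc ε u (t u e) (G.ic e) / 2| ≤ 4
      rw [abs_div, abs_of_pos (by norm_num : (0 : ℝ) < 2)]
      unfold frIc
      have h1 := hfr u (t u e) (by
        have := (H.fits u).bsl e
        rw [abs_of_nonneg this.1]; linarith [this.2])
      have h2 := H.hC.bdy u
      have h3 := H.hC.bx u
      have h4 : |G.ic e| ≤ 2 := (H.fits u).bic e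
      have h5 := abs_add_le (C.y u - C.frSl u (t u e) * C.x u) (ε * G.ic e)
      have h6 := abs_sub (C.y u) (C.frSl u (t u e) * C.x u)
      rw [abs_mul] at h6
      rw [abs_mul, abs_of_pos hε] at h5
      have := mul_le_mul h1 h3 (abs_nonneg _) zero_le_one
      have := hε1 u
      nlinarith [abs_nonneg (G.ic e)]
  · rintro ⟨v, g⟩
    show |C.frX ε v ((G.reslope (t v)).x g) / 2| ≤ 1
    rw [abs_div, abs_of_pos (by norm_num : (0 : ℝ) < 2)]
    unfold frX
    have hv := H.hC.hw_pos v
    have h1 : |ε * (G.reslope (t v)).x g / C.hw v| ≤ 1 := by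
      rw [abs_div, abs_mul, abs_of_pos hε, abs_of_pos hv, div_le_one hv]
      have := mul_le_of_le_one_right hε.le (H.gx v g)
      linarith [H.hC.hhw v]
    linarith [abs_add_le (C.x v) (ε * (G.reslope (t v)).x g / C.hw v), H.hC.bx v]
  · rintro ⟨v, g⟩
    show |C.frY ε v ((G.reslope (t v)).x g) ((G.reslope (t v)).y g) / 2| ≤ 1
    rw [abs_div, abs_of_pos (by norm_num : (0 : ℝ) < 2)]
    unfold frY
    have hv := H.hC.hw_pos v
    have h1 : |ε * (G.reslope (t v)).x g / C.hw v| ≤ 1 / 64 := by
      rw [abs_div, abs_mul, abs_of_pos hε, abs_of_pos hv, div_le_iff₀ hv]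
      have := mul_le_of_le_one_right hε.le (H.gx v g)
      linarith [H.hC.hhw v]
    have h2 : |C.mid v * (ε * (G.reslope (t v)).x g / C.hw v)| ≤ 1 * (1 / 64) := by
      rw [abs_mul]; exact mul_le_mul (H.hC.abs_mid_le v) h1 (abs_nonneg _) zero_le_one
    have h3 : |ε * (G.reslope (t v)).y g| ≤ ε := by
      rw [abs_mul, abs_of_pos hε]; exact mul_le_of_le_one_right hε.le (H.gy v g)
    linarith [abs_add_three (C.y v) (C.mid v * (ε * (G.reslope (t v)).x g / C.hw v)) (ε * (G.reslope (t v)).y g), H.hC.bdy v,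
      H.hC.hhw v, H.hC.hw_le_one v]
  · rintro ⟨u, g'⟩ ⟨v, g⟩
    rw [H.cnt_comp, H.cnt_comp, H.hC.cc u v, H.hC.pc u v, H.hcnt u v g', (H.hG v).cc g' g]
  · rintro ⟨u, g'⟩ ⟨v, g⟩
    rw [H.psi_comp, H.psi_comp, H.hC.cc u v, H.hC.pc u v, H.hpsi u v g', (H.hG v).pc g' g]

end CompHyp

end Vale.Agent.P065c
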