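import Vale.Agent.P065c.Chain

/-!
# Rounds, levels and the recursion

All levels use `I ^ 2` rounds, except possibly the last one. The potential `I * τ + Z` grows by
a factor `I ^ 2 * (1 + 13 / I)` per level, up to an additive term.
-/

namespace Vale.Agent.P065c

open Finset Vale.Agent.P065

lemma round_arith {τ η S Q S' Z PP Pi : ℕ} (hfree : η + S ≤ τ) (hQ : Pi + Q + 5 ≤ PP)
    (hS : S' ≤ τ + Q - η + PP + 11) :
    max S' (2 * (τ + Q - η) - τ) + η ≤ τ + Q + PP + 11 ∧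
      eU Z τ (Pi + 2) Q η S' ≤ Z + 6 * τ + 12 * PP + 96 := by
  have h1 : 2 * (τ + Q - η) - τ ≤ τ + Q - η + PP + 11 := by omega
  have hm : max S' (2 * (τ + Q - η) - τ) ≤ τ + Q - η + PP + 11 := max_le hS h1
  have hmL : max τ (2 * (τ + Q - η)) ≤ 2 * τ + 2 * Q := max_le (by omega) (by omega)
  generalize hA : max S' (2 * (τ + Q - η) - τ) = A at hm
  generalize hB : max τ (2 * (τ + Q - η)) = B at hmL
  refine ⟨by omega, ?_⟩
  rw [eU, eV, eL, hA, hB]
  omega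

/-- Several rounds with the same configuration. -/
theorem exists_rounds {X : Cfg} {F Z τ η S Q D : ℕ} (hX : Stat X F Z τ η S Q (D + 3))
    (k : ℕ) : ∀ i, i ≤ k → ∃ (C : Cfg) (N' Z' τ' η' S' : ℕ),
      N' ≤ 1 + i * (F + τ + 2 * (k * (Q + 5)) + 10) ∧
      Z' ≤ 1 + i * (Z + 6 * τ + 12 * (k * (Q + 5)) + 106) ∧
      τ' ≤ 1 + k * (τ + 5 * (k * (Q + 5)) + 40) + (Z + 6 * τ + 12 * (k * (Q + 5)) + 102) ∧
      η' ≤ 1 + i * (τ + 5 * (k * (Q + 5)) + 40) ∧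
      S' ≤ τ + Q - η + k * (Q + 5) + 11 ∧
      Stat C N' Z' τ' η' S' (i * (Q + 5)) (i * (D + 1)) := by
  intro i
  induction i with
  | zero =>
    intro _
    exact ⟨triv, 1, 1, 1, 1, 0, by omega, by omega, by omega, by omega, Nat.zero_le _,
      by simpa using triv_stat⟩
  | succ i ih =>
    intro hi
    obtain ⟨C, N', Z', τ', η', S', hN, hZ, hτ, hη, hS, hC⟩ := ih (by omega)
    obtain ⟨C', h⟩ := exists_step hC hX
    have hP : i * (Q + 5) + (Q + 5) ≤ k * (Q + 5) := by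
      rw [← add_one_mul]; exact Nat.mul_le_mul_right _ hi
    have hfree := hX.free
    have hik : i * (τ + 5 * (k * (Q + 5)) + 40) ≤ k * (τ + 5 * (k * (Q + 5)) + 40) :=
      Nat.mul_le_mul_right _ (by omega)
    set PP := k * (Q + 5)
    set Pi := i * (Q + 5)
    obtain ⟨hm, hU⟩ := round_arith (Z := Z) (Pi := Pi) hfree (by omega) hS
    generalize eU Z τ (Pi + 2) Q η S' = U at h hU
    generalize max S' (2 * (τ + Q - η) - τ) = M at h hm
    refine ⟨C', _, _, _, _, _, ?_, ?_, max_le hτ ?_, ?_, ?_,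
      by rw [add_one_mul i (Q + 5), add_one_mul i (D + 1)]; simpa [add_assoc] using h⟩
    · rw [add_one_mul]; omega
    · rw [add_one_mul]; omega
    · omega
    · rw [add_one_mul]; omega
    · omega

/-- One level. -/
theorem exists_level {X : Cfg} {F Z τ η S Q D : ℕ} (hX : Stat X F Z τ η S Q (D + 3))
    (k : ℕ) (hk : 3 ≤ k) : ∃ (C : Cfg) (F' Z' τ' η' S' Q' : ℕ),
      Q' + 8 ≤ k * (Q + 8) ∧
      τ' ≤ (k + 6) * τ + Z + 13 * (k * k * (Q + 8)) ∧
      Z' ≤ k * (Z + 6 * τ + 17 * (k * (Q + 8))) ∧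
      F' ≤ k * (F + τ + 3 * (k * (Q + 8))) ∧
      Stat C F' Z' τ' η' S' Q' (k * D + 3) := by
  obtain ⟨C, N', Z', τ', η', S', hN, hZ, hτ, -, -, hC⟩ := exists_rounds hX k k le_rfl
  have hq : k * (Q + 5) + 3 * k = k * (Q + 8) := by ring
  have h24 : 24 ≤ k * (Q + 8) := Nat.mul_le_mul hk (Nat.le_add_left 8 Q)
  refine ⟨C, N', Z', τ', η', S', k * (Q + 5), by omega, ?_, ?_, ?_,
    { hC with hG := le_trans (Nat.mul_le_mul_right _ (Nat.pow_le_pow_right (by norm_num)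
        (by rw [Nat.mul_add]; omega))) hC.hG }⟩
  · set R := k * (Q + 8)
    set PP := k * (Q + 5)
    have h2 : k * 24 ≤ k * R := Nat.mul_le_mul_left _ h24
    have h3 : k * PP ≤ k * R := Nat.mul_le_mul_left _ (by omega)
    have h4 : 3 * R ≤ k * R := Nat.mul_le_mul_right _ hk
    have e1 : k * k * (Q + 8) = k * R := mul_assoc _ _ _
    have e2 : k * (τ + 5 * PP + 40) = k * τ + 5 * (k * PP) + 40 * k := by ring
    have e3 : (k + 6) * τ = k * τ + 6 * τ := add_mul _ _ _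
    omega
  · calc Z' ≤ 1 + k * (Z + 6 * τ + 12 * (k * (Q + 5)) + 106) := hZ
      _ ≤ k * 1 + k * (Z + 6 * τ + 12 * (k * (Q + 5)) + 106) := by omega
      _ = k * (Z + 6 * τ + 12 * (k * (Q + 5)) + 107) := by ring
      _ ≤ _ := Nat.mul_le_mul_left _ (by omega)
  · calc N' ≤ 1 + k * (F + τ + 2 * (k * (Q + 5)) + 10) := hN
      _ ≤ k * 1 + k * (F + τ + 2 * (k * (Q + 5)) + 10) := by omega
      _ = k * (F + τ + 2 * (k * (Q + 5)) + 11) := by ring
      _ ≤ _ := Nat.mul_le_mul_left _ (by omega)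

lemma pow_shift_le {I i : ℕ} (hI : 1 ≤ I) (hi : i ≤ I) : (I + 13) ^ i ≤ 3 ^ 13 * I ^ i := by
  have hI' : (0 : ℝ) < I := by exact_mod_cast hI
  have h : ((I : ℝ) + 13) ^ i ≤ 3 ^ 13 * (I : ℝ) ^ i := by
    calc ((I : ℝ) + 13) ^ i ≤ ((I : ℝ) + 13) ^ i * 1 := by rw [mul_one]
      _ = (I : ℝ) ^ i * (13 / I + 1) ^ i := by
          rw [mul_one, ← mul_pow]; congr 1; field_simp; ring
      _ ≤ (I : ℝ) ^ i * (Real.exp (13 / I)) ^ i :=
          mul_le_mul_of_nonneg_left (pow_le_pow_left₀ (by positivity) (Real.add_one_le_exp _) i)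
            (by positivity)
      _ ≤ (I : ℝ) ^ i * Real.exp 13 := by
          rw [← Real.exp_nat_mul]
          refine mul_le_mul_of_nonneg_left (Real.exp_le_exp.mpr ?_) (by positivity)
          rw [mul_div_assoc', div_le_iff₀ hI', mul_comm]
          exact mul_le_mul_of_nonneg_left (by exact_mod_cast hi) (by norm_num)
      _ ≤ _ := by
          rw [mul_comm, show (13 : ℝ) = ((13 : ℕ) : ℝ) * 1 by norm_num, Real.exp_nat_mul]
          refine mul_le_mul_of_nonneg_right (pow_le_pow_left₀ (Real.exp_pos _).le ?_ _)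
            (by positivity)
          have := Real.exp_one_lt_d9
          linarith
  exact_mod_cast h

/-- Up to `I` levels of `I ^ 2` rounds. -/
theorem exists_main {X : Cfg} {A F Z τ η S Q : ℕ} (hX : Stat X F Z τ η S Q (1 + 3))
    (hF : F ≤ A) (hZ : Z ≤ A) (hτ : τ ≤ A) (hQ : Q + 8 ≤ A) (I : ℕ) (hI : 3 ≤ I) :
    ∀ i, i ≤ I - 1 → ∃ (C : Cfg) (F' Z' τ' η' S' Q' : ℕ),
      Q' + 8 ≤ (I ^ 2) ^ i * A ∧
      (I * τ' + Z') * I ^ i ≤ (I ^ 2) ^ i * (i + 1) * (I + 13) ^ i * (30 * I ^ 3 * A) ∧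
      τ' ≤ 30 * 3 ^ 13 * I ^ 3 * ((I ^ 2) ^ i * A) ∧
      Z' ≤ 30 * 3 ^ 13 * I ^ 4 * ((I ^ 2) ^ i * A) ∧
      F' ≤ (1 + i * ((30 * 3 ^ 13 + 3) * I ^ 3)) * ((I ^ 2) ^ i * A) ∧
      Stat C F' Z' τ' η' S' Q' ((I ^ 2) ^ i + 3) := by
  have hk : 3 ≤ I ^ 2 := le_trans hI (Nat.le_self_pow (by norm_num) I)
  have hA : 0 < A := by omega
  have fin : ∀ i τ' Z', i ≤ I - 1 →
      (I * τ' + Z') * I ^ i ≤ (I ^ 2) ^ i * (i + 1) * (I + 13) ^ i * (30 * I ^ 3 * A) →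
      τ' ≤ 30 * 3 ^ 13 * I ^ 3 * ((I ^ 2) ^ i * A) ∧
      Z' ≤ 30 * 3 ^ 13 * I ^ 4 * ((I ^ 2) ^ i * A) := by
    intro i τ' Z' hi h
    have h1 : (I * τ' + Z') * I ^ i
        ≤ I * (30 * 3 ^ 13 * I ^ 3 * ((I ^ 2) ^ i * A)) * I ^ i := by
      refine h.trans ?_
      calc (I ^ 2) ^ i * (i + 1) * (I + 13) ^ i * (30 * I ^ 3 * A)
          ≤ (I ^ 2) ^ i * I * (3 ^ 13 * I ^ i) * (30 * I ^ 3 * A) := by
            gcongr
            · omega
            · exact pow_shift_le (by omega) (by omega)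
        _ = _ := by ring
    have h2 := Nat.le_of_mul_le_mul_right h1 (by positivity)
    refine ⟨Nat.le_of_mul_le_mul_left (le_trans (Nat.le_add_right _ _) h2) (by omega), ?_⟩
    refine le_trans (le_trans (Nat.le_add_left _ _) h2) (le_of_eq ?_)
    ring
  intro i
  induction i with
  | zero =>
    intro _
    have h0 : (I * τ + Z) * I ^ 0 ≤ (I ^ 2) ^ 0 * (0 + 1) * (I + 13) ^ 0 * (30 * I ^ 3 * A) := by
      simp only [pow_zero, mul_one, one_mul, zero_add]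
      calc I * τ + Z ≤ I * A + A := Nat.add_le_add (Nat.mul_le_mul_left _ hτ) hZ
        _ ≤ I * A + I * A := by
            have := Nat.le_mul_of_pos_left A (by omega : 0 < I); omega
        _ = 2 * I * A := by ring
        _ ≤ _ := by
            refine Nat.mul_le_mul_right _ (Nat.mul_le_mul (by norm_num) ?_)
            exact Nat.le_self_pow (by norm_num) I
    obtain ⟨a, b⟩ := fin 0 τ Z (by omega) h0
    exact ⟨X, F, Z, τ, η, S, Q, by simpa using hQ, h0, a, b, by simpa using hF,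
      by simpa using hX⟩
  | succ i ih =>
    intro hi
    obtain ⟨C, F', Z', τ', η', S', Q', hQ', hV, hτ', hZ', hF', hC⟩ := ih (by omega)
    obtain ⟨C', F₁, Z₁, τ₁, η₁, S₁, Q₁, hQ₁, hτ₁, hZ₁, hF₁, hC₁⟩ := exists_level hC (I ^ 2) hk
    set k := I ^ 2 with hkdef
    have hq : k * (Q' + 8) ≤ k * (k ^ i * A) := Nat.mul_le_mul_left _ hQ'
    have hV1 : (I * τ₁ + Z₁) * I ^ (i + 1)
        ≤ k ^ (i + 1) * (i + 1 + 1) * (I + 13) ^ (i + 1) * (30 * I ^ 3 * A) := by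
      have hA1 : I * (I * τ₁ + Z₁)
          ≤ k * (I + 13) * (I * τ' + Z') + 30 * I ^ 2 * (k * k * (k ^ i * A)) := by
        have hq2 : k * k * (Q' + 8) ≤ k * k * (k ^ i * A) := Nat.mul_le_mul_left _ hQ'
        calc I * (I * τ₁ + Z₁)
            ≤ I * (I * ((k + 6) * τ' + Z' + 13 * (k * k * (Q' + 8)))
              + k * (Z' + 6 * τ' + 17 * (k * (Q' + 8)))) :=
              Nat.mul_le_mul_left _ (Nat.add_le_add (Nat.mul_le_mul_left _ hτ₁) hZ₁)
          _ = (k * I * I + 6 * I * I + 6 * k * I) * τ' + (k * I + I * I) * Z'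
              + (13 * (I * I) + 17 * I) * (k * k * (Q' + 8)) := by ring
          _ ≤ (k * I * I + 7 * k * I + 6 * k * I) * τ' + (k * I + 13 * k) * Z'
              + (13 * (I * I) + 17 * (I * I)) * (k * k * (k ^ i * A)) := by
              have e : I * I = k := by rw [hkdef]; ring
              have h1 : I ≤ k := by rw [hkdef]; exact Nat.le_self_pow (by norm_num) I
              have h2 : I * I ≤ 13 * k := by omega
              gcongr
              · norm_num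
              · exact Nat.le_mul_self I
          _ = _ := by ring
      calc (I * τ₁ + Z₁) * I ^ (i + 1) = (I * (I * τ₁ + Z₁)) * I ^ i := by ring
        _ ≤ (k * (I + 13) * (I * τ' + Z') + 30 * I ^ 2 * (k * k * (k ^ i * A))) * I ^ i :=
            Nat.mul_le_mul_right _ hA1
        _ = k * (I + 13) * ((I * τ' + Z') * I ^ i)
            + k ^ (i + 1) * I ^ (i + 1) * (30 * (I * k) * A) := by ring
        _ ≤ k * (I + 13) * (k ^ i * (i + 1) * (I + 13) ^ i * (30 * I ^ 3 * A))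
            + k ^ (i + 1) * (I + 13) ^ (i + 1) * (30 * (I * k) * A) := by
            gcongr
            omega
        _ = _ := by rw [hkdef]; ring
    obtain ⟨a, b⟩ := fin (i + 1) τ₁ Z₁ hi hV1
    refine ⟨C', F₁, Z₁, τ₁, η₁, S₁, Q₁, ?_, hV1, a, b, ?_, ?_⟩
    · exact hQ₁.trans (hq.trans (le_of_eq (by ring)))
    · calc F₁ ≤ k * (F' + τ' + 3 * (k * (Q' + 8))) := hF₁
        _ ≤ k * ((1 + i * ((30 * 3 ^ 13 + 3) * I ^ 3)) * (k ^ i * A)
            + 30 * 3 ^ 13 * I ^ 3 * (k ^ i * A) + 3 * (I ^ 3 * (k ^ i * A))) := by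
            gcongr
            rw [hkdef]; exact Nat.pow_le_pow_right (by omega) (by norm_num)
        _ = _ := by ring
    · rw [pow_succ, mul_comm]; exact hC₁

/-- The constant in the bound on the size exponent. -/
def bigK (A : ℕ) : ℕ := (6 * (30 * 3 ^ 13) + 40) * A

/-- All levels, the last one with any number `k` of rounds up to `I ^ 2`. -/
theorem exists_levels {X : Cfg} {A F Z τ η S Q : ℕ} (hX : Stat X F Z τ η S Q (1 + 3))
    (hF : F ≤ A) (hZ : Z ≤ A) (hτ : τ ≤ A) (hQ : Q + 8 ≤ A) (I : ℕ) (hI : 3 ≤ I)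
    (i : ℕ) (hi : i ≤ I - 1) (k : ℕ) (hk : 3 ≤ k) (hk' : k ≤ I ^ 2) :
    ∃ (C : Cfg) (F' Z' τ' η' S' Q' : ℕ),
      F' + τ' ≤ bigK A * I ^ 4 * (k * (I ^ 2) ^ i) ∧
      Stat C F' Z' τ' η' S' Q' (k * (I ^ 2) ^ i + 3) := by
  obtain ⟨C, F₀, Z₀, τ₀, η₀, S₀, Q₀, hQ₀, -, hτ₀, hZ₀, hF₀, hC⟩ :=
    exists_main hX hF hZ hτ hQ I hI i hi
  obtain ⟨C', F₁, Z₁, τ₁, η₁, S₁, Q₁, -, hτ₁, -, hF₁, hC₁⟩ := exists_level hC k hk
  refine ⟨C', F₁, Z₁, τ₁, η₁, S₁, Q₁, ?_, hC₁⟩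
  set P := (I ^ 2) ^ i * A with hP
  set K0 := 30 * 3 ^ 13 with hK0
  have h34 : I ^ 3 ≤ I ^ 4 := Nat.pow_le_pow_right (by omega) (by norm_num)
  have hkI : k ≤ I ^ 4 := hk'.trans (Nat.pow_le_pow_right (by omega) (by norm_num))
  have hiI : i * ((K0 + 3) * I ^ 3) ≤ (K0 + 3) * I ^ 4 := by
    calc i * ((K0 + 3) * I ^ 3) ≤ I * ((K0 + 3) * I ^ 3) := Nat.mul_le_mul_right _ (by omega)
      _ = _ := by ring
  have h1 : 1 ≤ I ^ 4 := Nat.one_le_pow _ _ (by omega)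
  calc F₁ + τ₁ ≤ k * (F₀ + τ₀ + 3 * (k * (Q₀ + 8))) + ((k + 6) * τ₀ + Z₀ + 13 * (k * k * (Q₀ + 8))) :=
        Nat.add_le_add hF₁ hτ₁
    _ ≤ k * ((1 + i * ((K0 + 3) * I ^ 3)) * P + K0 * I ^ 3 * P + 3 * (k * P))
        + ((k + 2 * k) * (K0 * I ^ 3 * P) + k * (K0 * I ^ 4 * P) + 13 * (k * k * P)) := by
        gcongr
        · omega
        · exact hZ₀.trans (Nat.le_mul_of_pos_left _ (by omega))
    _ ≤ k * ((I ^ 4 + (K0 + 3) * I ^ 4) * P + K0 * I ^ 4 * P + 3 * (I ^ 4 * P))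
        + ((k + 2 * k) * (K0 * I ^ 4 * P) + k * (K0 * I ^ 4 * P) + 13 * (k * I ^ 4 * P)) := by
        gcongr
    _ = (6 * K0 + 20) * (I ^ 4 * (k * P)) := by ring
    _ ≤ (6 * K0 + 40) * (I ^ 4 * (k * P)) := Nat.mul_le_mul_right _ (by omega)
    _ = _ := by rw [bigK, hP]; ring

end Vale.Agent.P065c
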