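import Vale.Agent.P065.Planar
import Vale.Agent.P065c.Base

/-!
# Planar point sets from configurations
-/

namespace Vale.Agent.P065c

open Finset Filter Topology Vale.Agent.P065
open scoped Classical

lemma exists_pconf {C : Cfg} {ζ σ : ℝ} (hC : C.Good ζ σ) (hm : 0 < C.m) (k : ℕ)
    (hn : C.n ≤ k) : ∃ B : PConf k, Fintype.card B.ι = 2 * k ∧ Fintype.card B.V = C.m := by
  obtain ⟨v0⟩ := Fintype.card_pos_iff.mp hm
  set K := C.cnt v0 with hK
  have hK2 : K + 2 ≤ C.n := by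
    have hne := hC.la_ne_lb v0
    have : ∀ l, C.c l * pos01 (C.val l v0) +
        ((if l = C.la v0 then C.c l else 0) + (if l = C.lb v0 then C.c l else 0)) ≤ C.c l := by
      intro l
      by_cases ha : l = C.la v0
      · subst ha; simp [hC.za, pos01_zero, hne]
      by_cases hb : l = C.lb v0
      · subst hb; simp [hC.zb, pos01_zero, ha]
      simp only [if_neg ha, if_neg hb, add_zero]
      exact Nat.le_trans (Nat.mul_le_mul_left _ (pos01_le_one _)) (by simp)
    have h := Finset.sum_le_sum (s := univ) (fun l _ => this l)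
    simp only [Finset.sum_add_distrib, Finset.sum_ite_eq', Finset.mem_univ, if_true, hC.cla,
      hC.clb] at h
    simpa [Cfg.cnt, Cfg.n, hK] using h
  set lo := k - 1 - K with hlo
  set hi := k - 1 - (C.n - 2 - K) with hhi
  let ι := (Σ l : C.L, Fin (C.c l)) ⊕ (Fin lo ⊕ Fin hi)
  let p : ι → ℝ × ℝ :=
    Sum.elim (fun x => (C.sl x.1, C.ic x.1)) (Sum.elim (fun _ => (0, -2)) (fun _ => (0, 2)))
  have hy : ∀ v, -2 - C.y v < 0 ∧ 0 < 2 - C.y v := fun v => by
    have := abs_le.mp (hC.bdy v); constructor <;> linarith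
  refine ⟨{
    ι := ι
    V := C.V
    p := p
    a := fun v => Sum.inl ⟨C.la v, ⟨0, by rw [hC.cla]; norm_num⟩⟩
    b := fun v => Sum.inl ⟨C.lb v, ⟨0, by rw [hC.clb]; norm_num⟩⟩
    g := fun v => -C.x v
    h := fun v => C.y v
    lt := ?_
    ona := ?_
    onb := ?_
    off := ?_
    below := ?_
    inj := ?_ }, ?_, rfl⟩
  · intro v
    show C.sl (C.la v) < C.sl (C.lb v)
    have := hC.hw_pos v
    unfold Cfg.hw at this
    linarith
  · intro v
    have := hC.za v
    simp only [Cfg.val] at this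
    show C.ic (C.la v) = -C.x v * C.sl (C.la v) + C.y v
    linarith
  · intro v
    have := hC.zb v
    simp only [Cfg.val] at this
    show C.ic (C.lb v) = -C.x v * C.sl (C.lb v) + C.y v
    linarith
  · rintro v (⟨l, j⟩ | j | j) h1 h2
    · show C.ic l - -C.x v * C.sl l - C.y v ≠ 0
      have hl1 : l ≠ C.la v := by
        intro hl
        subst hl
        have hj : j = ⟨0, by simp [hC.cla]⟩ := by
          apply Fin.ext; have := j.2; simp only [hC.cla] at this; simp; omega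
        exact h1 (by rw [hj])
      have hl2 : l ≠ C.lb v := by
        intro hl
        subst hl
        have hj : j = ⟨0, by simp [hC.clb]⟩ := by
          apply Fin.ext; have := j.2; simp only [hC.clb] at this; simp; omega
        exact h2 (by rw [hj])
      have := hC.val_lb v l hl1 hl2
      intro h0
      have e : C.val l v = 0 := by simp only [Cfg.val]; linarith
      rw [e, abs_zero] at this
      linarith [hC.ζpos]
    · show -2 - _ * (0 : ℝ) - _ ≠ 0
      have := (hy v).1; intro h; linarith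
    · show 2 - _ * (0 : ℝ) - _ ≠ 0
      have := (hy v).2; intro h; linarith
  · intro v
    rw [Finset.card_filter, Fintype.sum_sum_type, Fintype.sum_sum_type, Fintype.sum_sigma]
    have e1 : ∀ (l : C.L) (j : Fin (C.c l)),
        (if (p (Sum.inl ⟨l, j⟩)).2 - -C.x v * (p (Sum.inl ⟨l, j⟩)).1 - C.y v < 0 then 1 else 0)
          = pos01 (C.val l v) := by
      intro l j
      show (if C.ic l - -C.x v * C.sl l - C.y v < 0 then 1 else 0) = _
      unfold pos01
      simp only [Cfg.val]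
      exact if_congr ⟨fun h => by linarith, fun h => by linarith⟩ rfl rfl
    have e2 : ∀ j : Fin lo,
        (if (p (Sum.inr (Sum.inl j))).2 - -C.x v * (p (Sum.inr (Sum.inl j))).1 - C.y v < 0
          then 1 else 0) = 1 := by
      intro j
      rw [if_pos]
      show -2 - _ * (0 : ℝ) - _ < 0
      have := (hy v).1; linarith
    have e3 : ∀ j : Fin hi,
        (if (p (Sum.inr (Sum.inr j))).2 - -C.x v * (p (Sum.inr (Sum.inr j))).1 - C.y v < 0
          then 1 else 0) = 0 := by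
      intro j
      rw [if_neg]
      show ¬ (2 - _ * (0 : ℝ) - _ < 0)
      have := (hy v).2; linarith
    simp only [e1, e2, e3, Finset.sum_const, Finset.card_univ, Fintype.card_fin, smul_eq_mul,
      mul_one, mul_zero, add_zero]
    have : ∑ l, C.c l * pos01 (C.val l v) = K := hC.cc v v0
    rw [this]
    omega
  · intro u v hab1 hab2
    have h1 : C.la u = C.la v := (Sigma.mk.inj_iff.mp (Sum.inl_injective hab1)).1
    have h2 : C.lb u = C.lb v := (Sigma.mk.inj_iff.mp (Sum.inl_injective hab2)).1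
    by_contra hne
    have hp := hC.pval_lb u v hne
    have a := hC.za v; have b := hC.zb v
    have a' := hC.za u; have b' := hC.zb u
    rw [← h1] at a; rw [← h2] at b
    simp only [Cfg.val] at a b a' b'
    have e : C.pval u v = 0 := by simp only [Cfg.pval, Cfg.mid]; linarith
    rw [e, abs_zero] at hp
    linarith [hC.ζpos]
  · show Fintype.card ((Σ l : C.L, Fin (C.c l)) ⊕ (Fin lo ⊕ Fin hi)) = 2 * k
    simp only [Fintype.card_sum, Fintype.card_sigma, Fintype.card_fin]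
    have : ∑ l, C.c l = C.n := rfl
    omega

lemma exists_copies {k : ℕ} (B : PConf k) (r rest : ℕ) :
    ∃ D : PConf k, Fintype.card D.ι = r * Fintype.card B.ι + rest ∧
      Fintype.card D.V = r * Fintype.card B.V := by
  classical
  let X : ℝ → Fin r × B.ι → ℝ × ℝ := fun δ x =>
    (((x.1 : ℕ) : ℝ) + δ * (B.p x.2).1,
      ((x.1 : ℕ) : ℝ) ^ 2 + 2 * ((x.1 : ℕ) : ℝ) * δ * (B.p x.2).1 + δ ^ 2 * (B.p x.2).2)
  let G : ℝ → Fin r × B.V → ℝ := fun δ y => 2 * ((y.1 : ℕ) : ℝ) + δ * B.g y.2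
  let H : ℝ → Fin r × B.V → ℝ := fun δ y =>
    -((y.1 : ℕ) : ℝ) ^ 2 - δ * B.g y.2 * ((y.1 : ℕ) : ℝ) + δ ^ 2 * B.h y.2
  have own : ∀ δ q v i, (X δ (q, i)).2 - G δ (q, v) * (X δ (q, i)).1 - H δ (q, v)
      = δ ^ 2 * ((B.p i).2 - B.g v * (B.p i).1 - B.h v) := by
    intro δ q v i; simp only [X, G, H]; ring
  have ev : ∀ᶠ δ in 𝓝[>] (0 : ℝ), 0 < δ ∧ ∀ (q : Fin r) (v : B.V) (x : Fin r × B.ι), x.1 ≠ q →
      0 < (X δ x).2 - G δ (q, v) * (X δ x).1 - H δ (q, v) := by
    refine (eventually_nhdsWithin_of_forall fun x hx => hx).and ?_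
    simp only [eventually_all]
    intro q v x hx
    refine nhdsWithin_le_nhds (((by simp only [X, G, H]; fun_prop : Continuous fun δ =>
      (X δ x).2 - G δ (q, v) * (X δ x).1 - H δ (q, v)).tendsto 0).eventually_const_lt ?_)
    have hne : ((x.1 : ℕ) : ℝ) - ((q : ℕ) : ℝ) ≠ 0 :=
      sub_ne_zero.mpr fun h => hx (Fin.ext (Nat.cast_injective h))
    have := mul_self_pos.mpr hne
    simp only [X, G, H]; linarith
  obtain ⟨δ, hδ, hsep⟩ := ev.exists
  set T : ℝ := 1 + ∑ y, |H δ y| with hT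
  have hTy : ∀ y, H δ y < T := fun y => by
    have := Finset.single_le_sum (f := fun y => |H δ y|) (fun x _ => abs_nonneg _)
      (Finset.mem_univ y)
    have := le_abs_self (H δ y)
    rw [hT]; linarith
  let p : (Fin r × B.ι) ⊕ Fin rest → ℝ × ℝ := Sum.elim (X δ) (fun _ => (0, T))
  refine ⟨{
    ι := (Fin r × B.ι) ⊕ Fin rest
    V := Fin r × B.V
    p := p
    a := fun y => Sum.inl (y.1, B.a y.2)
    b := fun y => Sum.inl (y.1, B.b y.2)
    g := G δ
    h := H δ
    lt := ?_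
    ona := ?_
    onb := ?_
    off := ?_
    below := ?_
    inj := ?_ }, ?_, ?_⟩
  · rintro ⟨q, v⟩
    show (X δ (q, B.a v)).1 < (X δ (q, B.b v)).1
    simp only [X]
    have := mul_lt_mul_of_pos_left (B.lt v) hδ
    linarith
  · rintro ⟨q, v⟩
    have := own δ q v (B.a v)
    rw [B.ona] at this
    show (X δ (q, B.a v)).2 = G δ (q, v) * (X δ (q, B.a v)).1 + H δ (q, v)
    linear_combination this
  · rintro ⟨q, v⟩
    have := own δ q v (B.b v)
    rw [B.onb] at this
    show (X δ (q, B.b v)).2 = G δ (q, v) * (X δ (q, B.b v)).1 + H δ (q, v)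
    linear_combination this
  · rintro ⟨q, v⟩ (⟨q', i⟩ | j) h1 h2
    · show (X δ (q', i)).2 - G δ (q, v) * (X δ (q', i)).1 - H δ (q, v) ≠ 0
      by_cases hq : q' = q
      · subst hq
        rw [own]
        exact mul_ne_zero (pow_ne_zero 2 hδ.ne') (B.off v i (fun h => h1 (by rw [h]))
          (fun h => h2 (by rw [h])))
      · exact (hsep q v (q', i) hq).ne'
    · show T - _ * (0 : ℝ) - H δ (q, v) ≠ 0
      have := hTy (q, v); intro h; linarith
  · rintro ⟨q, v⟩
    refine Eq.trans ?_ (B.below v)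
    congr 1
    rw [Finset.card_filter, Finset.card_filter, Fintype.sum_sum_type, Fintype.sum_prod_type]
    have e1 : ∀ q' i, (if (p (Sum.inl (q', i))).2 - G δ (q, v) * (p (Sum.inl (q', i))).1
        - H δ (q, v) < 0 then 1 else 0)
        = if q' = q then (if (B.p i).2 - B.g v * (B.p i).1 - B.h v < 0 then 1 else 0) else 0 := by
      intro q' i
      show (if (X δ (q', i)).2 - G δ (q, v) * (X δ (q', i)).1 - H δ (q, v) < 0 then 1 else 0) = _
      by_cases hq : q' = q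
      · subst hq
        rw [if_pos rfl, own]
        by_cases h : (B.p i).2 - B.g v * (B.p i).1 - B.h v < 0
        · rw [if_pos h, if_pos (mul_neg_of_pos_of_neg (pow_pos hδ 2) h)]
        · rw [if_neg h, if_neg (not_lt.mpr (mul_nonneg (sq_nonneg δ) (not_lt.mp h)))]
      · rw [if_neg hq, if_neg (not_lt.mpr (hsep q v (q', i) hq).le)]
    have e2 : ∀ j, (if (p (Sum.inr j)).2 - G δ (q, v) * (p (Sum.inr j)).1 - H δ (q, v) < 0
        then 1 else 0) = 0 := by
      intro j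
      rw [if_neg]
      show ¬ (T - _ * (0 : ℝ) - H δ (q, v) < 0)
      have := hTy (q, v); linarith
    simp only [e1, e2, Finset.sum_const_zero, add_zero]
    rw [Finset.sum_comm]
    simp
  · rintro ⟨q, u⟩ ⟨q', v⟩ h1 h2
    simp only [Sum.inl.injEq, Prod.mk.injEq] at h1 h2
    exact Prod.ext h1.1 (B.inj u v h1.2 h2.2)
  · show Fintype.card ((Fin r × B.ι) ⊕ Fin rest) = _
    simp
  · show Fintype.card (Fin r × B.V) = _
    simp

lemma eventually_log_small (M : ℕ) :
    ∃ m₀ : ℕ, ∀ L : ℕ, 2 ^ m₀ ≤ L → M * (Nat.log 2 L + 3) ^ 4 ≤ L := by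
  have h := tendsto_pow_const_div_const_pow_of_one_lt 4 (r := (2 : ℝ)) (by norm_num)
  have h' := h.eventually_lt_const (show (0 : ℝ) < 1 / (256 * M + 1) by positivity)
  rw [eventually_atTop] at h'
  obtain ⟨a, ha⟩ := h'
  refine ⟨a + 1, fun L hL => ?_⟩
  have hL0 : L ≠ 0 := by have := lt_of_lt_of_le (Nat.two_pow_pos _) hL; omega
  set m := Nat.log 2 L
  have hm : a + 1 ≤ m := Nat.le_log_of_pow_le (by norm_num) hL
  refine le_trans ?_ (Nat.pow_log_le_self 2 hL0)
  have h1 := ha m (by omega)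
  rw [div_lt_div_iff₀ (by positivity) (by positivity), one_mul] at h1
  have h2 : m ^ 4 * (256 * M + 1) ≤ 2 ^ m := by exact_mod_cast h1.le
  calc M * (m + 3) ^ 4 ≤ M * (4 * m) ^ 4 := by gcongr; omega
    _ = m ^ 4 * (256 * M) := by ring
    _ ≤ m ^ 4 * (256 * M + 1) := Nat.mul_le_mul_left _ (by omega)
    _ ≤ _ := h2

/-- Configurations of every large size, with the gain exponent. -/
theorem exists_cfg : ∃ M k₀ : ℕ, 1 ≤ M ∧ ∀ K : ℕ, k₀ ≤ K →
    ∃ (C : Cfg) (D : ℕ), (∃ ζ σ, C.Good ζ σ) ∧ C.n ≤ K ∧ 2 ^ D * K ≤ 2 * C.m ∧ 6 ≤ D ∧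
      8 ≤ Nat.log 2 K ∧ Nat.log 2 K ≤ M * (Nat.log 2 (Nat.log 2 K) + 3) ^ 4 * D := by
  obtain ⟨X, A, F, Z, τ, η, S, Q, hF, hZ, hτ, hQ, hX⟩ := exists_base
  set M := bigK A + 9 with hM
  obtain ⟨m₀, hm₀⟩ := eventually_log_small (24 * M)
  refine ⟨8 * M, 2 ^ (2 ^ m₀ + 8), by omega, fun K hK => ?_⟩
  set L := Nat.log 2 K
  have hK0 : K ≠ 0 := by have := lt_of_lt_of_le (Nat.two_pow_pos _) hK; omega
  have hL : 2 ^ m₀ + 8 ≤ L := Nat.le_log_of_pow_le (by norm_num) hK
  set I := Nat.log 2 L + 3 with hI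
  have hsmall : 24 * M * I ^ 4 ≤ L := hm₀ L (by omega)
  set G := M * I ^ 4 with hG
  have hG0 : 0 < G := Nat.mul_pos (by omega) (by positivity)
  set T := L / G with hT
  have hT24 : 24 ≤ T := by
    rw [hT, Nat.le_div_iff_mul_le hG0, hG, ← mul_assoc]; exact hsmall
  have hbase : 1 < I ^ 2 := Nat.one_lt_pow two_ne_zero (by omega)
  set i := Nat.log (I ^ 2) (T / 3) with hi
  set p := (I ^ 2) ^ i with hp
  have hp1 : p ≤ T / 3 := Nat.pow_log_le_self _ (by omega)
  have hp2 : T / 3 < p * I ^ 2 := by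
    have := Nat.lt_pow_succ_log_self hbase (T / 3)
    rwa [← hi, pow_succ, ← hp] at this
  have hp0 : 0 < p := by rw [hp]; positivity
  have hiI : i ≤ I - 1 := by
    by_contra hc
    push Not at hc
    have h1 : 2 ^ (I - 1) ≤ p := le_trans (Nat.pow_le_pow_left hbase _)
      (Nat.pow_le_pow_right (by omega) hc.le)
    have h2 : L < 2 ^ (Nat.log 2 L + 1) := Nat.lt_pow_succ_log_self (by norm_num) L
    have h3 : 2 ^ (Nat.log 2 L + 1) ≤ 2 ^ (I - 1) := Nat.pow_le_pow_right (by norm_num) (by omega)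
    have h4 : T ≤ L := Nat.div_le_self _ _
    omega
  set k := min (T / p) (I ^ 2) with hk
  have hk3 : 3 ≤ k := by
    refine le_min ?_ ?_
    · rw [Nat.le_div_iff_mul_le hp0]; omega
    · exact le_trans (by omega : 3 ≤ I) (Nat.le_self_pow two_ne_zero I)
  have hkp : k * p ≤ T :=
    le_trans (Nat.mul_le_mul_right _ (min_le_left _ _)) (Nat.div_mul_le_self T p)
  have hlow : T ≤ 4 * (k * p) := by
    rcases min_choice (T / p) (I ^ 2) with h | h <;> rw [hk, h]
    · have h1 : T < p * (T / p + 1) := by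
        rw [mul_comm]; exact (Nat.div_lt_iff_lt_mul hp0).mp (Nat.lt_succ_self _)
      have h2 : p ≤ T / p * p := Nat.le_mul_of_pos_left _ (Nat.div_pos (by omega) hp0)
      have h3 : p * (T / p + 1) = T / p * p + p := by ring
      omega
    · have : I ^ 2 * p = p * I ^ 2 := mul_comm _ _
      omega
  obtain ⟨C, F', Z', τ', η', S', Q', hFτ, hC⟩ :=
    exists_levels hX hF hZ hτ hQ I (by omega) i hiI k hk3 (min_le_right _ _)
  rw [← hp] at hFτ hC
  have hdense : 2 ^ (F' + τ' + 9) ≤ K := by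
    refine le_trans (Nat.pow_le_pow_right (by norm_num) ?_) (Nat.pow_log_le_self 2 hK0)
    have h1 : G * T ≤ L := Nat.mul_div_le L G
    have h2 : G * (k * p) ≤ G * T := Nat.mul_le_mul_left _ hkp
    have h3 : G * (k * p) = bigK A * I ^ 4 * (k * p) + 9 * (I ^ 4 * (k * p)) := by
      rw [hG, hM]; ring
    have h4 : 1 ≤ I ^ 4 * (k * p) := Nat.mul_pos (by positivity) (Nat.mul_pos (by omega) hp0)
    show F' + τ' + 9 ≤ L
    omega
  obtain ⟨C', hgood, hn, hm⟩ := exists_dense hC K hdense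
  refine ⟨C', k * p, hgood, hn, hm, by omega, le_trans (Nat.le_add_left 8 _) hL, ?_⟩
  calc L ≤ G * (T + 1) := by
        have := Nat.lt_succ_self (L / G)
        rw [Nat.div_lt_iff_lt_mul hG0] at this
        rw [mul_comm]; exact this.le
    _ ≤ G * (2 * T) := Nat.mul_le_mul_left _ (by omega)
    _ ≤ G * (8 * (k * p)) := Nat.mul_le_mul_left _ (by omega)
    _ = _ := by rw [hG]; ring

/-- Point sets with many `k`-sets, and with many halving lines. -/
theorem exists_many : ∃ M k₀ : ℕ, 1 ≤ M ∧ ∀ k : ℕ, k₀ ≤ k → ∃ D : ℕ, 6 ≤ D ∧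
    8 ≤ Nat.log 2 k ∧ Nat.log 2 k ≤ M * (Nat.log 2 (Nat.log 2 k) + 3) ^ 4 * D ∧
    ∀ r rest : ℕ, ∃ P : Finset (ℝ × ℝ), P.card = 2 * k * r + rest ∧ NoThreeCollinear P ∧
      r * (2 ^ D * k) ≤ 2 * numKSets P k ∧
      (r = 1 → rest = 0 → 2 ^ D * k ≤ 2 * numHalving P) := by
  obtain ⟨M, k₀, hM, hcfg⟩ := exists_cfg
  refine ⟨M, k₀, hM, fun k hk => ?_⟩
  obtain ⟨C, D, ⟨ζ, σ, hC⟩, hn, hm, hD, hL, hLD⟩ := hcfg k hk
  refine ⟨D, hD, hL, hLD, fun r rest => ?_⟩
  have hk1 : 0 < k := by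
    rcases Nat.eq_zero_or_pos k with h | h
    · subst h; simp at hL
    · exact h
  have hm0 : 0 < C.m := by
    have := lt_of_lt_of_le (Nat.mul_pos (Nat.two_pow_pos _) hk1) hm
    omega
  obtain ⟨B, hB1, hB2⟩ := exists_pconf hC hm0 k hn
  obtain ⟨P', hD1, hD2⟩ := exists_copies B r rest
  obtain ⟨P, hP, hcol, hks, hh⟩ := P'.realize
  refine ⟨P, by rw [hP, hD1, hB1]; ring, hcol, ?_, ?_⟩
  · calc r * (2 ^ D * k) ≤ r * (2 * C.m) := Nat.mul_le_mul_left _ hm
      _ = 2 * Fintype.card P'.V := by rw [hD2, hB2]; ring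
      _ ≤ _ := Nat.mul_le_mul_left _ hks
  · intro hr hrest
    refine hm.trans (Nat.mul_le_mul_left _ ?_)
    refine le_trans ?_ (hh (by rw [hD1, hB1, hr, hrest]; ring))
    rw [hD2, hB2, hr, one_mul]

/-- Up to a factor eight, the gain dominates `exp (c log x / (log log x) ^ 4)`. -/
lemma gain_large {M k D : ℕ} (hM : 1 ≤ M) (hD : 6 ≤ D) (hL : 8 ≤ Nat.log 2 k)
    (hLD : Nat.log 2 k ≤ M * (Nat.log 2 (Nat.log 2 k) + 3) ^ 4 * D) (x : ℝ)
    (hx1 : (k : ℝ) ≤ x) (hx2 : x ≤ 2 * k) :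
    8 * Real.exp (1 / (2500 * M) * Real.log x / Real.log (Real.log x) ^ 4) ≤ (2 : ℝ) ^ D := by
  set L := Nat.log 2 k
  set m := Nat.log 2 L
  have hk0 : k ≠ 0 := by
    intro h
    simp [L, h] at hL
  have hk : 0 < k := Nat.pos_of_ne_zero hk0
  have hkr : (0 : ℝ) < k := by exact_mod_cast hk
  have hl2 : (0.69 : ℝ) ≤ Real.log 2 := by
    have := Real.log_two_gt_d9; linarith
  have hl21 : Real.log 2 ≤ 1 := by
    have := Real.log_le_sub_one_of_pos (show (0 : ℝ) < 2 by norm_num); linarith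
  have hLr : (8 : ℝ) ≤ L := by exact_mod_cast hL
  have hlo : (L : ℝ) * Real.log 2 ≤ Real.log x := by
    have h : ((2 ^ L : ℕ) : ℝ) ≤ (k : ℝ) := Nat.cast_le.mpr (Nat.pow_log_le_self 2 hk0)
    push_cast at h
    have h' := Real.log_le_log (by positivity) (h.trans hx1)
    rwa [Real.log_pow] at h'
  have hhi : Real.log x ≤ 2 * L * Real.log 2 := by
    have h : 2 * k ≤ 2 ^ (2 * L) := by
      have h1 : k < 2 ^ (L + 1) := Nat.lt_pow_succ_log_self (by norm_num : 1 < 2) k
      calc 2 * k ≤ 2 * 2 ^ (L + 1) := by omega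
        _ = 2 ^ (L + 2) := by ring
        _ ≤ _ := Nat.pow_le_pow_right (by norm_num) (by omega)
    have h' : (2 : ℝ) * k ≤ (2 : ℝ) ^ (2 * L) := by exact_mod_cast h
    have h'' := Real.log_le_log (lt_of_lt_of_le hkr hx1) (hx2.trans h')
    rw [Real.log_pow] at h''
    push_cast at h''
    exact h''
  have hm3 : (3 : ℝ) ≤ m := by
    exact_mod_cast (Nat.le_log_of_pow_le (by norm_num) hL : 3 ≤ m)
  have hll : ((m : ℝ) - 1) * Real.log 2 ≤ Real.log (Real.log x) := by
    have h : ((2 ^ m : ℕ) : ℝ) ≤ (L : ℝ) := Nat.cast_le.mpr (Nat.pow_log_le_self 2 (by omega))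
    push_cast at h
    have h1 : (2 : ℝ) ^ m / 2 ≤ Real.log x := by
      refine le_trans ?_ hlo
      have := mul_le_mul_of_nonneg_left hl2 (by linarith : (0 : ℝ) ≤ L)
      linarith
    have h' := Real.log_le_log (by positivity) h1
    rw [Real.log_div (by positivity) two_ne_zero, Real.log_pow] at h'
    linarith
  set ℓ := Real.log (Real.log x)
  have hmℓ : (m : ℝ) + 3 ≤ 5 * ℓ := by
    have := mul_le_mul_of_nonneg_left hl2 (by linarith : (0 : ℝ) ≤ (m : ℝ) - 1)
    linarith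
  have hℓ : 0 < ℓ := by linarith
  have hkey : (L : ℝ) ≤ M * D * (625 * ℓ ^ 4) := by
    have h : (L : ℝ) ≤ M * ((m : ℝ) + 3) ^ 4 * D := by exact_mod_cast hLD
    have h5 : ((m : ℝ) + 3) ^ 4 ≤ (5 * ℓ) ^ 4 := pow_le_pow_left₀ (by linarith) hmℓ 4
    have h6 := mul_le_mul_of_nonneg_left h5 (by positivity : (0 : ℝ) ≤ M * D)
    rw [mul_pow] at h6
    norm_num at h6
    linarith
  have hMr : (1 : ℝ) ≤ M := by exact_mod_cast hM
  have hDr : (6 : ℝ) ≤ D := by exact_mod_cast hD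
  have hexp : 1 / (2500 * (M : ℝ)) * Real.log x / ℓ ^ 4 ≤ ((D : ℝ) - 3) * Real.log 2 := by
    rw [div_le_iff₀ (by positivity), one_div_mul_eq_div, div_le_iff₀ (by positivity)]
    have h1 := mul_le_mul_of_nonneg_right hkey (by linarith : (0 : ℝ) ≤ 2 * Real.log 2)
    have h2 := mul_le_mul_of_nonneg_right (show 1250 * (D : ℝ) ≤ 2500 * ((D : ℝ) - 3) by linarith)
      (by positivity : (0 : ℝ) ≤ M * ℓ ^ 4 * Real.log 2)
    linarith
  calc 8 * Real.exp (1 / (2500 * M) * Real.log x / ℓ ^ 4)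
      ≤ 8 * Real.exp (((D : ℝ) - 3) * Real.log 2) := by gcongr
    _ = 2 ^ D := by
        rw [mul_comm ((D : ℝ) - 3), ← Real.rpow_def_of_pos two_pos, Real.rpow_sub two_pos,
          Real.rpow_natCast, show (3 : ℝ) = ((3 : ℕ) : ℝ) by norm_num, Real.rpow_natCast]
        norm_num
        ring

end Vale.Agent.P065c
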