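import Vale.Agent.P065c.Cfg

/-!
# Perturbing the slopes of a configuration

A change of slopes by at most a fixed fraction of the margin keeps a configuration exact.
-/

namespace Vale.Agent.P065c

open Finset Vale.Agent.P065

namespace Cfg

variable (C : Cfg) (sl' : C.L → ℝ)

/-- The configuration with new slopes and recomputed marked points. -/
noncomputable abbrev reslope : Cfg where
  L := C.L
  V := C.V
  sl := sl'
  ic := C.ic
  c := C.c
  w := C.w
  x := fun v => (C.ic (C.la v) - C.ic (C.lb v)) / (sl' (C.lb v) - sl' (C.la v))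
  y := fun v => sl' (C.la v) * ((C.ic (C.la v) - C.ic (C.lb v)) / (sl' (C.lb v) - sl' (C.la v)))
    + C.ic (C.la v)
  la := C.la
  lb := C.lb

variable {C sl'} {ζ σ δ : ℝ}

/-- The data of a small perturbation. -/
structure Pert (C : Cfg) (sl' : C.L → ℝ) (ζ σ δ : ℝ) : Prop where
  good : C.Good ζ σ
  near : ∀ l, |sl' l - C.sl l| ≤ δ
  bsl : ∀ l, |sl' l| ≤ 1
  small : 64 * δ ≤ ζ
  slack : ∀ v, |C.x v| ≤ 7 / 8 ∧ |C.y v| ≤ 7 / 8

namespace Pert

variable (P : Pert C sl' ζ σ δ)
include P

lemma δ_nonneg (l : C.L) : 0 ≤ δ := le_trans (abs_nonneg _) (P.near l)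

lemma hw_near (v : C.V) : |(C.reslope sl').hw v - C.hw v| ≤ δ := by
  have a := abs_le.mp (P.near (C.la v))
  have b := abs_le.mp (P.near (C.lb v))
  simp only [Cfg.hw]
  rw [abs_le]; constructor <;> linarith

lemma hw_bounds (v : C.V) :
    63 / 64 * C.hw v ≤ (C.reslope sl').hw v ∧ (C.reslope sl').hw v ≤ 65 / 64 * C.hw v := by
  have h := abs_le.mp (P.hw_near v)
  have := P.good.hhw v
  have := P.small
  constructor <;> linarith

lemma mid_near (v : C.V) : |(C.reslope sl').mid v - C.mid v| ≤ δ := by
  have a := abs_le.mp (P.near (C.la v))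
  have b := abs_le.mp (P.near (C.lb v))
  simp only [Cfg.mid]
  rw [abs_le]; constructor <;> linarith

lemma za (v : C.V) : (C.reslope sl').val ((C.reslope sl').la v) v = 0 := by
  have := P.small; simp [Cfg.val]

lemma zb (v : C.V) : (C.reslope sl').val ((C.reslope sl').lb v) v = 0 := by
  have h := (P.hw_bounds v).1
  have hp := P.good.hw_pos v
  simp only [Cfg.hw] at h hp
  have hne : sl' (C.lb v) - sl' (C.la v) ≠ 0 := by linarith
  simp only [Cfg.val]
  field_simp
  ring

/-- The abscissa of a marked point moves by at most `3 δ / hw`. -/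
lemma dx (v : C.V) : |(C.reslope sl').x v - C.x v| * C.hw v ≤ 2 * δ := by
  have hp := P.good.hw_pos v
  obtain ⟨h1, -⟩ := P.hw_bounds v
  have h0 : 0 < (C.reslope sl').hw v := by linarith
  have za := P.good.za v
  have zb := P.good.zb v
  have e : ((C.reslope sl').x v - C.x v) * (2 * (C.reslope sl').hw v)
      = 2 * C.x v * (C.hw v - (C.reslope sl').hw v) := by
    have : (C.reslope sl').x v * (2 * (C.reslope sl').hw v) = C.ic (C.la v) - C.ic (C.lb v) := by
      simp only [Cfg.hw] at h0 ⊢
      field_simp [show sl' (C.lb v) - sl' (C.la v) ≠ 0 by linarith]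
    simp only [Cfg.val] at za zb
    simp only [Cfg.hw] at this ⊢
    linear_combination this + (1 : ℝ) * zb - za
  have hb : |(C.reslope sl').x v - C.x v| * (2 * (C.reslope sl').hw v) ≤ 2 * δ := by
    rw [← abs_of_pos (by linarith : 0 < 2 * (C.reslope sl').hw v), ← abs_mul, e, abs_mul, abs_mul,
      abs_of_pos (by norm_num : (0 : ℝ) < 2), abs_sub_comm]
    have := mul_le_mul (P.good.bx v) (P.hw_near v) (abs_nonneg _) zero_le_one
    linarith
  refine le_trans (mul_le_mul_of_nonneg_left ?_ (abs_nonneg _)) hb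
  linarith

lemma xb (v : C.V) : |(C.reslope sl').x v - C.x v| ≤ 1 / 32 := by
  have h := P.dx v
  have hz := P.good.hhw v
  have := P.small
  have hp := P.good.hw_pos v
  by_contra hc
  push Not at hc
  have := mul_lt_mul_of_pos_right hc hp
  linarith

/-- The height over a fixed slope moves by little. -/
lemma height_near (v : C.V) (s s' : ℝ) (hs : |s' - s| ≤ δ) :
    |((C.reslope sl').y v - s' * (C.reslope sl').x v) - (C.y v - s * C.x v)| * C.hw v
      ≤ 6 * δ * (|s - C.mid v| + C.hw v) := by
  have hp := P.good.hw_pos v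
  have za := P.good.za v
  simp only [Cfg.val] at za
  have hy : C.y v = C.sl (C.la v) * C.x v + C.ic (C.la v) := by linarith
  have e : ((C.reslope sl').y v - s' * (C.reslope sl').x v) - (C.y v - s * C.x v)
      = ((sl' (C.la v) - C.sl (C.la v)) - (s' - s)) * (C.reslope sl').x v
        + (C.sl (C.la v) - s) * ((C.reslope sl').x v - C.x v) := by
    show (sl' (C.la v) * (C.reslope sl').x v + C.ic (C.la v)) - _ - _ = _
    rw [hy]; ring
  rw [e]
  refine le_trans (mul_le_mul_of_nonneg_right (abs_add_le _ _) hp.le) ?_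
  have hδ := P.δ_nonneg (C.la v)
  have hx : |(C.reslope sl').x v| ≤ 1 := by
    have := abs_sub_abs_le_abs_sub ((C.reslope sl').x v) (C.x v)
    linarith [P.xb v, (P.slack v).1]
  have t1 : |((sl' (C.la v) - C.sl (C.la v)) - (s' - s)) * (C.reslope sl').x v| ≤ 2 * δ := by
    rw [abs_mul]
    have := abs_sub (sl' (C.la v) - C.sl (C.la v)) (s' - s)
    have := mul_le_mul (le_trans this (add_le_add (P.near (C.la v)) hs)) hx (abs_nonneg _)
      (by linarith)
    linarith
  have t2 : |C.sl (C.la v) - s| ≤ |s - C.mid v| + C.hw v := by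
    have := abs_sub_le (C.sl (C.la v)) (C.mid v) s
    rw [show C.sl (C.la v) - C.mid v = -C.hw v by simp [Cfg.mid, Cfg.hw]; ring, abs_neg,
      abs_of_pos hp, abs_sub_comm (C.mid v)] at this
    linarith
  have t3 : |(C.sl (C.la v) - s) * ((C.reslope sl').x v - C.x v)| * C.hw v
      ≤ (|s - C.mid v| + C.hw v) * (2 * δ) := by
    rw [abs_mul, mul_assoc]
    exact mul_le_mul t2 (P.dx v) (mul_nonneg (abs_nonneg _) hp.le)
      (add_nonneg (abs_nonneg _) hp.le)
  have := mul_le_mul_of_nonneg_right t1 hp.le
  have := mul_nonneg hδ (abs_nonneg (s - C.mid v))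
  have := mul_nonneg hδ hp.le
  linarith

/-- Lines move by less than an eighth of their height. -/
lemma val_near (v : C.V) (l : C.L) (h1 : l ≠ C.la v) (h2 : l ≠ C.lb v) :
    |(C.reslope sl').val l v - C.val l v| ≤ |C.val l v| / 8 := by
  have h := P.height_near v (C.sl l) (sl' l) (P.near l)
  have hl := P.good.line v l h1 h2
  have hp := P.good.hw_pos v
  have hs := P.small
  have hδ := P.δ_nonneg l
  refine le_of_mul_le_mul_right ?_ hp
  rw [show (C.reslope sl').val l v - C.val l v
      = ((C.reslope sl').y v - sl' l * (C.reslope sl').x v) - (C.y v - C.sl l * C.x v) by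
    simp only [Cfg.val]; ring]
  have := mul_le_mul_of_nonneg_right hs (add_nonneg (abs_nonneg (C.sl l - C.mid v)) hp.le)
  have := mul_nonneg hδ (add_nonneg (abs_nonneg (C.sl l - C.mid v)) hp.le)
  linarith

/-- Midlines move by less than an eighth of their height. -/
lemma pval_near (u v : C.V) (huv : u ≠ v) :
    |(C.reslope sl').pval u v - C.pval u v| ≤ |C.pval u v| / 8 := by
  have h := P.height_near v (C.mid u) ((C.reslope sl').mid u) (P.mid_near u)
  have hl := P.good.pen u v huv
  have hp := P.good.hw_pos v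
  have hu := P.good.hw_pos u
  have hs := P.small
  have hδ := P.δ_nonneg (C.la u)
  have e1 : C.y u - C.mid u * C.x u = (C.ic (C.la u) + C.ic (C.lb u)) / 2 := by
    have a := P.good.za u
    have b := P.good.zb u
    simp only [Cfg.val] at a b
    simp only [Cfg.mid]; linarith
  have e2 : (C.reslope sl').y u - (C.reslope sl').mid u * (C.reslope sl').x u
      = (C.ic (C.la u) + C.ic (C.lb u)) / 2 := by
    have a := P.za u
    have b := P.zb u
    simp only [Cfg.val] at a b
    simp only [Cfg.mid]; linarith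
  refine le_of_mul_le_mul_right ?_ hp
  rw [show (C.reslope sl').pval u v - C.pval u v
      = ((C.reslope sl').y v - (C.reslope sl').mid u * (C.reslope sl').x v)
        - (C.y v - C.mid u * C.x v) by
    simp only [Cfg.pval]; linear_combination e1 - e2]
  have := mul_le_mul_of_nonneg_right hs (add_nonneg (add_nonneg (abs_nonneg (C.mid u - C.mid v))
    hu.le) hp.le)
  have := mul_nonneg hδ (add_nonneg (add_nonneg (abs_nonneg (C.mid u - C.mid v)) hu.le) hp.le)
  have := mul_nonneg hδ hu.le
  linarith

omit P in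
lemma pos01_eighth {a b : ℝ} (hb : b ≠ 0) (h : |a - b| ≤ |b| / 8) :
    pos01 a = pos01 b ∧ 3 / 4 * |b| ≤ |a| := by
  refine ⟨?_, ?_⟩
  · apply pos01_of_same
    rcases lt_or_gt_of_ne hb with hb | hb
    · rw [abs_of_neg hb] at h
      have := (abs_le.mp h).2
      exact mul_pos_of_neg_of_neg (by linarith) hb
    · rw [abs_of_pos hb] at h
      have := (abs_le.mp h).1
      exact mul_pos (by linarith) hb
  · have := abs_sub_abs_le_abs_sub b a
    rw [abs_sub_comm] at this
    linarith [abs_nonneg b]

lemma val_ne (v : C.V) (l : C.L) (h1 : l ≠ C.la v) (h2 : l ≠ C.lb v) : C.val l v ≠ 0 := by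
  intro h
  have := P.good.val_lb v l h1 h2
  rw [h, abs_zero] at this
  linarith [P.good.ζpos]

lemma pval_ne (u v : C.V) (h : u ≠ v) : C.pval u v ≠ 0 := by
  intro h'
  have := P.good.pval_lb u v h
  rw [h', abs_zero] at this
  linarith [P.good.ζpos]

lemma val_sign (v : C.V) (l : C.L) : pos01 ((C.reslope sl').val l v) = pos01 (C.val l v) := by
  by_cases ha : l = C.la v
  · subst ha; rw [P.za v, P.good.za v]
  by_cases hb : l = C.lb v
  · subst hb; rw [P.zb v, P.good.zb v]
  exact (pos01_eighth (P.val_ne v l ha hb) (P.val_near v l ha hb)).1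

lemma pval_sign (u v : C.V) :
    pos01 ((C.reslope sl').pval u v) = pos01 (C.pval u v) := by
  by_cases huv : u = v
  · subst huv; rw [Cfg.pval_self, Cfg.pval_self]
  exact (pos01_eighth (P.pval_ne u v huv) (P.pval_near u v huv)).1

lemma cnt_eq (v : C.V) : (C.reslope sl').cnt v = C.cnt v := by
  unfold Cfg.cnt
  exact Finset.sum_congr rfl fun l _ => by rw [P.val_sign v l]

lemma psi_eq (v : C.V) : (C.reslope sl').psi v = C.psi v := by
  unfold Cfg.psi
  exact congrArg₂ (· + ·) (Finset.sum_congr rfl fun u _ => P.pval_sign u v)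
    (Finset.sum_congr rfl fun l _ => by rw [P.val_sign v l])

lemma sep (u v : C.V) (huv : u ≠ v) :
    σ / 8 * (C.reslope sl').hw u * |(C.reslope sl').x v - (C.reslope sl').x u|
      ≤ |(C.reslope sl').pval u v|
    ∨ (C.reslope sl').pval u v * ((C.reslope sl').x v - (C.reslope sl').x u) ≤ 0 := by
  set D := C.x v - C.x u with hD
  set D' := (C.reslope sl').x v - (C.reslope sl').x u with hD'
  have hp := P.good.hw_pos v
  have hu := P.good.hw_pos u
  have hδ := P.δ_nonneg (C.la u)
  obtain ⟨hsgn, hmag⟩ := pos01_eighth (P.pval_ne u v huv) (P.pval_near u v huv)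
  have hpen := P.good.pen u v huv
  -- the change of the horizontal distance, in units of `hw u`
  have hchg : C.hw u * |D' - D| ≤ |C.pval u v| / 8 := by
    have e : D' - D = ((C.reslope sl').x v - C.x v) - ((C.reslope sl').x u - C.x u) := by
      rw [hD, hD']; ring
    have h := abs_sub ((C.reslope sl').x v - C.x v) ((C.reslope sl').x u - C.x u)
    rw [← e] at h
    refine le_of_mul_le_mul_right ?_ hp
    have h1 := mul_le_mul_of_nonneg_left (P.dx v) hu.le
    have h2 := mul_le_mul_of_nonneg_right (P.dx u) hp.le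
    have h3 := mul_le_mul_of_nonneg_left h (mul_nonneg hu.le hp.le)
    have h4 := mul_le_mul_of_nonneg_right P.small (add_nonneg (add_nonneg
      (abs_nonneg (C.mid u - C.mid v)) hu.le) hp.le)
    have h5 := mul_nonneg hδ (abs_nonneg (C.mid u - C.mid v))
    have h6 := mul_nonneg hδ hu.le
    have h7 := mul_nonneg hδ hp.le
    linarith
  have mag : σ * C.hw u * |D'| ≤ 3 * |C.pval u v| →
      σ / 8 * (C.reslope sl').hw u * |D'| ≤ |(C.reslope sl').pval u v| := by
    intro hb
    have := mul_le_mul_of_nonneg_right (mul_le_mul_of_nonneg_left (P.hw_bounds u).2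
      (by linarith [P.good.σpos] : 0 ≤ σ / 8)) (abs_nonneg D')
    linarith [abs_nonneg (C.pval u v)]
  have hσ1 := mul_le_mul_of_nonneg_left hchg P.good.σpos.le
  have hσ2 := mul_le_of_le_one_left (abs_nonneg (C.pval u v)) P.good.σle
  have tri := mul_le_mul_of_nonneg_left (abs_sub_abs_le_abs_sub D' D)
    (mul_nonneg P.good.σpos.le hu.le)
  rcases P.good.sep u v huv with h | h
  · exact Or.inl (mag (by linarith [abs_nonneg (C.pval u v)]))
  by_cases hc : C.hw u * |D| ≤ |C.pval u v|
  · exact Or.inl (mag (by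
      have := mul_le_mul_of_nonneg_left hc P.good.σpos.le
      linarith [abs_nonneg (C.pval u v)]))
  push Not at hc
  refine Or.inr ?_
  have hd : |D' - D| < |D| := by
    have : C.hw u * |D' - D| < C.hw u * |D| := by linarith [abs_nonneg (C.pval u v)]
    exact lt_of_mul_lt_mul_left this hu.le
  have hpn := abs_le.mp (P.pval_near u v huv)
  have hd' := abs_lt.mp hd
  rcases lt_or_gt_of_ne (P.pval_ne u v huv) with hneg | hpos
  · have hD0 : 0 ≤ D := by
      by_contra hc'; push Not at hc'
      have := mul_pos_of_neg_of_neg hneg hc'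
      linarith
    rw [abs_of_neg hneg] at hpn
    rw [abs_of_nonneg hD0] at hd'
    exact mul_nonpos_of_nonpos_of_nonneg (by linarith [hpn.2]) (by linarith [hd'.1])
  · have hD0 : D ≤ 0 := by
      by_contra hc'; push Not at hc'
      have := mul_pos hpos hc'
      linarith
    rw [abs_of_pos hpos] at hpn
    rw [abs_of_nonpos hD0] at hd'
    exact mul_nonpos_of_nonneg_of_nonpos (by linarith [hpn.1]) (by linarith [hd'.2])

/-- The perturbed configuration is exact. -/
theorem good' : (C.reslope sl').Good (ζ / 4) (σ / 8) := by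
  have g := P.good
  refine ⟨by linarith [g.ζpos], by linarith [g.ζle, g.ζpos], by linarith [g.σpos],
    by linarith [g.σle, g.σpos], P.za, P.zb, ?_, g.cla, g.clb, ?_, ?_, P.sep, P.bsl, g.bic,
    ?_, ?_, ?_, ?_⟩
  · intro v
    linarith [(P.hw_bounds v).1, g.hhw v, g.ζpos]
  · intro v l h1 h2
    obtain ⟨b1, b2⟩ := P.hw_bounds v
    have hp := g.hw_pos v
    obtain ⟨-, hm⟩ := pos01_eighth (P.val_ne v l h1 h2) (P.val_near v l h1 h2)
    have hmid : |(C.reslope sl').sl l - (C.reslope sl').mid v|
        ≤ |C.sl l - C.mid v| + 2 * δ := by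
      have a := abs_sub_le (sl' l) (C.sl l) ((C.reslope sl').mid v)
      have b := abs_sub_le (C.sl l) (C.mid v) ((C.reslope sl').mid v)
      have := P.mid_near v
      rw [abs_sub_comm] at this
      linarith [P.near l]
    have := g.hhw v
    have := P.small
    have t : |(C.reslope sl').sl l - (C.reslope sl').mid v| + (C.reslope sl').hw v
        ≤ 2 * (|C.sl l - C.mid v| + C.hw v) := by
      linarith [abs_nonneg (C.sl l - C.mid v)]
    calc ζ / 4 * (|(C.reslope sl').sl l - (C.reslope sl').mid v| + (C.reslope sl').hw v)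
        ≤ ζ / 4 * (2 * (|C.sl l - C.mid v| + C.hw v)) :=
          mul_le_mul_of_nonneg_left t (by linarith [g.ζpos])
      _ ≤ |C.val l v| * C.hw v / 2 := by linarith [g.line v l h1 h2]
      _ ≤ _ := by
          have := mul_le_mul hm b1 (by positivity) (abs_nonneg _)
          linarith [mul_nonneg (abs_nonneg (C.val l v)) hp.le]
  · intro u v huv
    obtain ⟨b1, -⟩ := P.hw_bounds v
    have hp := g.hw_pos v
    have hu := g.hw_pos u
    obtain ⟨-, hm⟩ := pos01_eighth (P.pval_ne u v huv) (P.pval_near u v huv)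
    have hmid : |(C.reslope sl').mid u - (C.reslope sl').mid v|
        ≤ |C.mid u - C.mid v| + 2 * δ := by
      have a := abs_sub_le ((C.reslope sl').mid u) (C.mid u) ((C.reslope sl').mid v)
      have b := abs_sub_le (C.mid u) (C.mid v) ((C.reslope sl').mid v)
      have c := P.mid_near v
      rw [abs_sub_comm] at c
      linarith [P.mid_near u]
    have := g.hhw v
    have := P.small
    have t : |(C.reslope sl').mid u - (C.reslope sl').mid v| + (C.reslope sl').hw u
        + (C.reslope sl').hw v ≤ 2 * (|C.mid u - C.mid v| + C.hw u + C.hw v) := by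
      linarith [abs_nonneg (C.mid u - C.mid v), (P.hw_bounds u).2, (P.hw_bounds v).2]
    calc ζ / 4 * (|(C.reslope sl').mid u - (C.reslope sl').mid v| + (C.reslope sl').hw u
          + (C.reslope sl').hw v)
        ≤ ζ / 4 * (2 * (|C.mid u - C.mid v| + C.hw u + C.hw v)) :=
          mul_le_mul_of_nonneg_left t (by linarith [g.ζpos])
      _ ≤ |C.pval u v| * C.hw v / 2 := by linarith [g.pen u v huv]
      _ ≤ _ := by
          have := mul_le_mul hm b1 (by positivity) (abs_nonneg _)
          linarith [mul_nonneg (abs_nonneg (C.pval u v)) hp.le]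
  · intro v
    have := abs_sub_abs_le_abs_sub ((C.reslope sl').x v) (C.x v)
    linarith [P.xb v, (P.slack v).1]
  · intro v
    have za := g.za v
    simp only [Cfg.val] at za
    have e : (C.reslope sl').y v - C.y v = (sl' (C.la v) - C.sl (C.la v)) * (C.reslope sl').x v
        + C.sl (C.la v) * ((C.reslope sl').x v - C.x v) := by
      show sl' (C.la v) * (C.reslope sl').x v + C.ic (C.la v) - C.y v = _
      linear_combination -za
    have h1 : |(C.reslope sl').x v| ≤ 1 := by
      have := abs_sub_abs_le_abs_sub ((C.reslope sl').x v) (C.x v)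
      linarith [P.xb v, (P.slack v).1]
    have a := abs_add_le ((sl' (C.la v) - C.sl (C.la v)) * (C.reslope sl').x v)
      (C.sl (C.la v) * ((C.reslope sl').x v - C.x v))
    rw [← e, abs_mul, abs_mul] at a
    have := mul_le_mul (P.near (C.la v)) h1 (abs_nonneg _) (P.δ_nonneg (C.la v))
    have := mul_le_mul (g.bsl (C.la v)) (P.xb v) (abs_nonneg _) zero_le_one
    have := abs_sub_abs_le_abs_sub ((C.reslope sl').y v) (C.y v)
    linarith [(P.slack v).2, P.small, g.ζle]
  · intro u v; rw [P.cnt_eq u, P.cnt_eq v, g.cc u v]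
  · intro u v; rw [P.psi_eq u, P.psi_eq v, g.pc u v]

end Pert

end Cfg

end Vale.Agent.P065c
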